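import Vale.Agent.P110.Flat.Fresnel

/-! The integral of a group of lines whose amplitude follows a staircase. -/

namespace Vale.Agent.P110.Flat

open Finset MeasureTheory

/-- A staircase of amplitudes `a i` on the times `[t i, t (i+1))`, `i < m`, with jumps at most `h`
and small first and last steps. -/
structure Stair where
  m : ℕ
  hm : 0 < m
  t : ℕ → ℝ
  ht : ∀ i, i < m → t i < t (i + 1)
  a : ℕ → ℝ
  ha : ∀ i, i < m → 0 < a i ∧ a i ≤ 2
  start : ℝ
  h : ℝ
  hh : 0 < h
  hstep : ∀ i, i + 1 < m → |a (i + 1) - a i| ≤ h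
  hfirst : a 0 ≤ h
  hlast : a (m - 1) ≤ h

namespace Stair

/-- The amplitude at time `u`. -/
noncomputable def amp (S : Stair) (u : ℝ) : ℝ :=
  ∑ i ∈ range S.m, (Set.Ico (S.t i) (S.t (i + 1))).indicator (fun _ => S.a i) u

/-- The swept length at time `u`. -/
noncomputable def lam (S : Stair) (u : ℝ) : ℝ := S.start + ∫ w in (S.t 0)..u, S.amp w ^ 2

/-- The primitive of the swept length. -/
noncomputable def prim (S : Stair) (u : ℝ) : ℝ := S.t 0 * S.start + ∫ w in (S.t 0)..u, S.lam w

/-- The time density along the swept interval. -/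
noncomputable def dens (S : Stair) (x : ℝ) : ℝ :=
  ∑ i ∈ range S.m,
    (Set.Ico (S.lam (S.t i)) (S.lam (S.t (i + 1)))).indicator (fun _ => (S.a i ^ 2)⁻¹) x

/-- The time at the point `x` of the swept interval. -/
noncomputable def time (S : Stair) (x : ℝ) : ℝ := S.t 0 + ∫ w in (S.start)..x, S.dens w

/-- The normalised integral of a line of slope `s` at the frequency `ν`. -/
noncomputable def integral (S : Stair) (s : ℝ) (N : ℕ) (ν : ℝ) : ℂ :=
  (Real.sqrt N : ℂ) * ∫ x in (s * S.lam (S.t 0))..(s * S.lam (S.t S.m)),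
    ee ((N : ℝ) * (∫ w in (s * S.lam (S.t 0))..x, S.time (w / s)) - ν * x)

theorem step_eq {m : ℕ} {p c : ℕ → ℝ} (hp : ∀ i, i < m → p i < p (i + 1)) {i : ℕ} (hi : i < m)
    {x : ℝ} (hx : x ∈ Set.Ico (p i) (p (i + 1))) :
    ∑ j ∈ range m, (Set.Ico (p j) (p (j + 1))).indicator (fun _ => c j) x = c i := by
  have mono : ∀ j l, j ≤ l → l ≤ m → p j ≤ p l := fun j l hjl => by
    induction l, hjl using Nat.le_induction with
    | base => intro _; exact le_rfl
    | succ l _ ih => intro hl; exact (ih (by omega)).trans (hp l (by omega)).le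
  rw [sum_eq_single i (fun j hj hji => ?_) (fun h => absurd (mem_range.2 hi) h),
    Set.indicator_of_mem hx]
  refine Set.indicator_of_notMem (fun hxj => ?_) _
  have hjm := mem_range.1 hj
  rcases lt_or_gt_of_ne hji with h | h
  · linarith [mono (j + 1) i h (by omega), hxj.2, hx.1]
  · linarith [mono (i + 1) j h (by omega), hxj.1, hx.2]

theorem step_intervalIntegrable (m : ℕ) (p c : ℕ → ℝ) (a b : ℝ) :
    IntervalIntegrable
      (fun x => ∑ j ∈ range m, (Set.Ico (p j) (p (j + 1))).indicator (fun _ => c j) x)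
      volume a b :=
  (integrable_finsetSum _ fun _ _ =>
    (integrableOn_const measure_Ico_lt_top.ne).integrable_indicator measurableSet_Ico).intervalIntegrable

theorem step_piece {m : ℕ} {p c : ℕ → ℝ} (hp : ∀ i, i < m → p i < p (i + 1)) {i : ℕ} (hi : i < m)
    {x : ℝ} (h1 : p i ≤ x) (h2 : x ≤ p (i + 1)) :
    ∫ w in (p i)..x, ∑ j ∈ range m, (Set.Ico (p j) (p (j + 1))).indicator (fun _ => c j) w =
      (x - p i) * c i := by
  rw [intervalIntegral.integral_congr_ae (g := fun _ => c i)]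
  · simp
  · filter_upwards [Measure.ae_ne volume x] with w hw hmem
    rw [Set.uIoc_of_le h1] at hmem
    exact step_eq hp hi ⟨hmem.1.le, lt_of_lt_of_le (lt_of_le_of_ne hmem.2 hw) h2⟩

theorem step_upto {m : ℕ} {p c : ℕ → ℝ} (hp : ∀ i, i < m → p i < p (i + 1)) :
    ∀ {i : ℕ}, i ≤ m →
      ∫ w in (p 0)..(p i), ∑ j ∈ range m, (Set.Ico (p j) (p (j + 1))).indicator (fun _ => c j) w =
        ∑ j ∈ range i, (p (j + 1) - p j) * c j := by
  intro i
  induction i with
  | zero => simp
  | succ i ih =>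
    intro hi
    rw [← intervalIntegral.integral_add_adjacent_intervals (step_intervalIntegrable m p c _ (p i))
      (step_intervalIntegrable m p c _ _), ih (by omega),
      step_piece hp (by omega) (hp i (by omega)).le le_rfl, sum_range_succ]

theorem step_sq (S : Stair) (x : ℝ) :
    S.amp x ^ 2 =
      ∑ j ∈ range S.m, (Set.Ico (S.t j) (S.t (j + 1))).indicator (fun _ => S.a j ^ 2) x := by
  by_cases h : ∃ i < S.m, x ∈ Set.Ico (S.t i) (S.t (i + 1))
  · obtain ⟨i, hi, hx⟩ := h
    rw [amp, step_eq S.ht hi hx, step_eq S.ht hi hx]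
  · have h' : ∀ j ∈ range S.m, x ∉ Set.Ico (S.t j) (S.t (j + 1)) :=
      fun j hj hx => h ⟨j, mem_range.1 hj, hx⟩
    rw [amp, sum_eq_zero fun j hj => Set.indicator_of_notMem (h' j hj) _,
      sum_eq_zero fun j hj => Set.indicator_of_notMem (h' j hj) _]
    ring

theorem t_mono (S : Stair) {j l : ℕ} (hjl : j ≤ l) (hl : l ≤ S.m) : S.t j ≤ S.t l := by
  induction l, hjl using Nat.le_induction with
  | base => exact le_rfl
  | succ l _ ih => exact (ih (by omega)).trans (S.ht l (by omega)).le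

theorem amp_sq_integrable (S : Stair) (a b : ℝ) :
    IntervalIntegrable (fun x => S.amp x ^ 2) volume a b := by
  rw [show (fun x => S.amp x ^ 2) = _ from funext (step_sq S)]
  exact step_intervalIntegrable _ _ _ _ _

theorem lam_start (S : Stair) : S.lam (S.t 0) = S.start := by simp [lam]

theorem lam_piece (S : Stair) {i : ℕ} (hi : i < S.m) {w : ℝ} (h1 : S.t i ≤ w)
    (h2 : w ≤ S.t (i + 1)) : S.lam w = S.lam (S.t i) + S.a i ^ 2 * (w - S.t i) := by
  rw [lam, lam, ← intervalIntegral.integral_add_adjacent_intervals (amp_sq_integrable S _ (S.t i))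
    (amp_sq_integrable S _ _)]
  simp only [step_sq]
  rw [step_piece S.ht hi h1 h2]
  ring

theorem lam_succ (S : Stair) {i : ℕ} (hi : i < S.m) :
    S.lam (S.t (i + 1)) = S.lam (S.t i) + S.a i ^ 2 * (S.t (i + 1) - S.t i) :=
  lam_piece S hi (S.ht i hi).le le_rfl

theorem lam_lt (S : Stair) : ∀ i, i < S.m → S.lam (S.t i) < S.lam (S.t (i + 1)) := fun i hi => by
  have h1 := sub_pos.2 (S.ht i hi)
  have h2 := (S.ha i hi).1
  rw [lam_succ S hi]
  nlinarith [mul_pos (pow_pos h2 2) h1]

theorem continuous_lam (S : Stair) : Continuous S.lam :=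
  continuous_const.add
    (intervalIntegral.continuous_primitive (fun a b => amp_sq_integrable S a b) _)

theorem dens_integrable (S : Stair) (a b : ℝ) : IntervalIntegrable S.dens volume a b :=
  step_intervalIntegrable S.m (fun i => S.lam (S.t i)) (fun i => (S.a i ^ 2)⁻¹) a b

theorem continuous_time (S : Stair) : Continuous S.time :=
  continuous_const.add
    (intervalIntegral.continuous_primitive (fun a b => dens_integrable S a b) _)

theorem time_node (S : Stair) : ∀ {i : ℕ}, i ≤ S.m → S.time (S.lam (S.t i)) = S.t i := by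
  intro i hi
  have h := step_upto (m := S.m) (p := fun i => S.lam (S.t i)) (c := fun i => (S.a i ^ 2)⁻¹)
    (lam_lt S) hi
  unfold time dens
  simp only [lam_start] at h
  rw [h]
  clear h
  induction i with
  | zero => simp
  | succ i ih =>
    rw [sum_range_succ, ← add_assoc, ih (by omega), lam_succ S (by omega)]
    have := (S.ha i (by omega)).1
    field_simp
    ring

theorem time_piece (S : Stair) {i : ℕ} (hi : i < S.m) {x : ℝ} (h1 : S.lam (S.t i) ≤ x)
    (h2 : x ≤ S.lam (S.t (i + 1))) :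
    S.time x = S.t i + (x - S.lam (S.t i)) / S.a i ^ 2 := by
  have h := time_node S hi.le
  rw [time] at h ⊢
  rw [← intervalIntegral.integral_add_adjacent_intervals (dens_integrable S _ (S.lam (S.t i)))
    (dens_integrable S _ _), ← add_assoc, h, div_eq_mul_inv]
  congr 1
  exact step_piece (m := S.m) (p := fun i => S.lam (S.t i)) (c := fun i => (S.a i ^ 2)⁻¹)
    (lam_lt S) hi h1 h2

theorem integral_quadratic (A B r : ℝ) :
    ∫ y in (0 : ℝ)..r, (A + B * y) = A * r + B * r ^ 2 / 2 := by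
  rw [intervalIntegral.integral_add (by simp) (Continuous.intervalIntegrable (by fun_prop) _ _),
    intervalIntegral.integral_const, intervalIntegral.integral_const_mul, integral_id, smul_eq_mul]
  ring

theorem prim_piece (S : Stair) {i : ℕ} (hi : i < S.m) {w : ℝ} (h1 : S.t i ≤ w)
    (h2 : w ≤ S.t (i + 1)) :
    S.prim w = S.prim (S.t i) + S.lam (S.t i) * (w - S.t i) +
      S.a i ^ 2 * (w - S.t i) ^ 2 / 2 := by
  rw [prim, prim, ← intervalIntegral.integral_add_adjacent_intervals
    ((continuous_lam S).intervalIntegrable _ (S.t i)) ((continuous_lam S).intervalIntegrable _ _)]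
  have h : ∫ x in (S.t i)..w, S.lam x =
      ∫ y in (0 : ℝ)..(w - S.t i), (S.lam (S.t i) + S.a i ^ 2 * y) := by
    have e := intervalIntegral.integral_comp_add_left (fun x => S.lam x) (S.t i) (a := 0)
      (b := w - S.t i)
    rw [add_zero, add_sub_cancel] at e
    rw [← e]
    refine intervalIntegral.integral_congr fun y hy => ?_
    rw [Set.uIcc_of_le (by linarith)] at hy
    rw [lam_piece S hi (by linarith [hy.1]) (by linarith [hy.2])]
    ring
  rw [h, integral_quadratic]
  ring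

/-- The phase `∫ time`, from the start of the swept interval. -/
noncomputable def sweep (S : Stair) (s x : ℝ) : ℝ :=
  ∫ w in (s * S.lam (S.t 0))..x, S.time (w / s)

theorem continuous_time_div (S : Stair) (s : ℝ) : Continuous fun w => S.time (w / s) :=
  (continuous_time S).comp (continuous_id.div_const s)

theorem continuous_sweep (S : Stair) (s : ℝ) : Continuous (sweep S s) :=
  intervalIntegral.continuous_primitive
    (fun a b => (continuous_time_div S s).intervalIntegrable a b) _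

theorem sweep_piece (S : Stair) {s : ℝ} (hs : 0 < s) {i : ℕ} (hi : i < S.m) {y : ℝ} (h1 : 0 ≤ y)
    (h2 : y ≤ s * S.a i ^ 2 * (S.t (i + 1) - S.t i)) :
    sweep S s (s * S.lam (S.t i) + y) =
      sweep S s (s * S.lam (S.t i)) + S.t i * y + y ^ 2 / (2 * s * S.a i ^ 2) := by
  rw [sweep, sweep, ← intervalIntegral.integral_add_adjacent_intervals
    ((continuous_time_div S s).intervalIntegrable _ (s * S.lam (S.t i)))
    ((continuous_time_div S s).intervalIntegrable _ _)]
  have h : ∫ w in (s * S.lam (S.t i))..(s * S.lam (S.t i) + y), S.time (w / s) =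
      ∫ z in (0 : ℝ)..y, (S.t i + (s * S.a i ^ 2)⁻¹ * z) := by
    have e := intervalIntegral.integral_comp_add_left (fun w => S.time (w / s))
      (s * S.lam (S.t i)) (a := 0) (b := y)
    rw [add_zero] at e
    rw [← e]
    refine intervalIntegral.integral_congr fun z hz => ?_
    rw [Set.uIcc_of_le h1] at hz
    have e2 : (s * S.lam (S.t i) + z) / s = S.lam (S.t i) + z / s := by field_simp
    rw [e2, time_piece S hi (by linarith [div_nonneg hz.1 hs.le])]
    · ring
    · rw [lam_succ S hi]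
      have : z / s ≤ S.a i ^ 2 * (S.t (i + 1) - S.t i) := by
        rw [div_le_iff₀ hs]; nlinarith [hz.2]
      linarith
  rw [h, integral_quadratic]
  ring

/-- The phase of the line at the node `i`. -/
noncomputable def node (S : Stair) (s : ℝ) (N : ℕ) (u : ℝ) (i : ℕ) : ℝ :=
  (N : ℝ) * (sweep S s (s * S.lam (S.t i)) - u * (s * S.lam (S.t i)))

theorem node_eq (S : Stair) {s : ℝ} (hs : 0 < s) (N : ℕ) (u : ℝ) : ∀ i, i ≤ S.m →
    node S s N u i = (N : ℝ) * s *
      (S.t i * S.lam (S.t i) - S.prim (S.t i) - u * S.lam (S.t i)) := by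
  intro i
  induction i with
  | zero =>
    intro _
    simp [node, sweep, prim, lam_start]
    ring
  | succ i ih =>
    intro hi
    have hi' : i < S.m := by omega
    have hgap := sub_pos.2 (S.ht i hi')
    have ha := (S.ha i hi').1
    have hw := sweep_piece S hs hi' (y := s * S.a i ^ 2 * (S.t (i + 1) - S.t i)) (by positivity)
      le_rfl
    have hp := prim_piece S hi' (S.ht i hi').le le_rfl
    have ih' := ih (by omega)
    rw [node] at ih' ⊢
    rw [hp, lam_succ S hi', show s * (S.lam (S.t i) + S.a i ^ 2 * (S.t (i + 1) - S.t i)) =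
      s * S.lam (S.t i) + s * S.a i ^ 2 * (S.t (i + 1) - S.t i) by ring, hw]
    have : (s * S.a i ^ 2 * (S.t (i + 1) - S.t i)) ^ 2 / (2 * s * S.a i ^ 2) =
        s * S.a i ^ 2 * (S.t (i + 1) - S.t i) ^ 2 / 2 := by field_simp
    rw [this]
    linear_combination ih'

/-- The signed remainder of the Fresnel tail. -/
noncomputable def rem (v : ℝ) : ℂ := if 0 < v then raw v else -raw (-v)

theorem raw_split (v : ℝ) :
    raw v = (if v ≤ 0 then ee (-v ^ 2) * fresFull else 0) + rem v := by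
  rcases lt_or_ge 0 v with h | h
  · simp [rem, h, not_le.2 h]
  · rw [rem, if_neg (not_lt.2 h), if_pos h, raw, raw, neg_sq, tail_neg]
    ring

theorem norm_rem_le (v : ℝ) : ‖rem v‖ ≤ 3 := by
  unfold rem
  split_ifs <;> simp only [norm_neg, norm_raw] <;> exact norm_tail_le _

theorem norm_rem_far {v w : ℝ} (hw : 0 < w) (h : w ≤ |v|) : ‖rem v‖ ≤ 1 / (2 * Real.pi * w) := by
  have hfar : ∀ z : ℝ, w ≤ z → ‖tail z‖ ≤ 1 / (2 * Real.pi * w) := fun z hz =>
    (norm_tail_far (hw.trans_le hz)).trans (by gcongr)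
  unfold rem
  split_ifs with hv
  · rw [norm_raw]; exact hfar v (by rwa [abs_of_pos hv] at h)
  · rw [norm_neg, norm_raw]; exact hfar (-v) (by rwa [abs_of_nonpos (not_lt.1 hv)] at h)

theorem jump_far {k a b d δ : ℝ} (hk : 0 < k) (ha : 0 < a) (hb : 0 < b) (hδ : 0 < δ)
    (hd : δ ≤ |d|) :
    ‖(a : ℂ) * rem (k * a * d) - (b : ℂ) * rem (k * b * d)‖ ≤ 1 / (k * δ) := by
  have h : ∀ c : ℝ, 0 < c → ‖(c : ℂ) * rem (k * c * d)‖ ≤ 1 / (2 * (k * δ)) := fun c hc => by
    rw [norm_mul, Complex.norm_real, Real.norm_eq_abs, abs_of_pos hc]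
    have h1 := norm_rem_far (v := k * c * d) (w := k * c * δ) (by positivity)
      (by rw [abs_mul, abs_of_pos (mul_pos hk hc)]; gcongr)
    refine (mul_le_mul_of_nonneg_left h1 hc.le).trans ?_
    rw [show c * (1 / (2 * Real.pi * (k * c * δ))) = 1 / (2 * Real.pi * (k * δ)) by field_simp]
    exact one_div_le_one_div_of_le (by positivity)
      (mul_le_mul_of_nonneg_right (by linarith [Real.pi_gt_three]) (by positivity))
  refine (norm_sub_le _ _).trans ?_
  have : 1 / (k * δ) = 1 / (2 * (k * δ)) + 1 / (2 * (k * δ)) := by field_simp; ring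
  linarith [h a ha, h b hb]

theorem jump_le {k a b h : ℝ} (hk : 0 < k) (ha : 0 < a) (ha2 : a ≤ 2) (hb : 0 < b) (hb2 : b ≤ 2)
    (hh : 0 < h) (hab : |a - b| ≤ h) (d : ℝ) :
    ‖(a : ℂ) * rem (k * a * d) - (b : ℂ) * rem (k * b * d)‖ ≤ 12 * Real.sqrt h := by
  have hq : 0 < Real.sqrt h := Real.sqrt_pos.2 hh
  have hsmall : |a - b| ≤ 2 * Real.sqrt h := by
    rcases le_total h 4 with h4 | h4
    · have h' := Real.mul_self_sqrt hh.le
      have : Real.sqrt h ≤ 2 := Real.sqrt_le_iff.2 ⟨by norm_num, by linarith⟩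
      nlinarith
    · have : 2 ≤ Real.sqrt h := Real.le_sqrt_of_sq_le (by linarith)
      have : |a - b| ≤ 4 := abs_le.2 ⟨by linarith, by linarith⟩
      linarith
  rcases le_or_gt (k * |d| * Real.sqrt h) 1 with hw | hw
  · have hl : ‖rem (k * a * d) - rem (k * b * d)‖ ≤ 3 * (k * |d| * |a - b|) := by
      have e : |k * a * d - k * b * d| = k * |d| * |a - b| := by
        rw [show k * a * d - k * b * d = k * d * (a - b) by ring, abs_mul, abs_mul, abs_of_pos hk]
      rw [← e]
      rcases lt_or_ge 0 d with hd | hd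
      · rw [rem, rem, if_pos (by positivity), if_pos (by positivity)]
        exact raw_lipschitz (by positivity) (by positivity)
      · have h1 : k * a * d ≤ 0 := mul_nonpos_of_nonneg_of_nonpos (by positivity) hd
        have h2 : k * b * d ≤ 0 := mul_nonpos_of_nonneg_of_nonpos (by positivity) hd
        rw [rem, rem, if_neg (not_lt.2 h1), if_neg (not_lt.2 h2), neg_sub_neg]
        have := raw_lipschitz (neg_nonneg.2 h2) (neg_nonneg.2 h1)
        rwa [neg_sub_neg] at this
    have e : (a : ℂ) * rem (k * a * d) - (b : ℂ) * rem (k * b * d) =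
        ((a - b : ℝ) : ℂ) * rem (k * a * d) + (b : ℂ) * (rem (k * a * d) - rem (k * b * d)) := by
      push_cast; ring
    rw [e]
    refine (norm_add_le _ _).trans ?_
    rw [norm_mul, norm_mul, Complex.norm_real, Complex.norm_real, Real.norm_eq_abs,
      Real.norm_eq_abs, abs_of_pos hb]
    have h1 : |a - b| * ‖rem (k * a * d)‖ ≤ 2 * Real.sqrt h * 3 :=
      mul_le_mul hsmall (norm_rem_le _) (norm_nonneg _) (by positivity)
    have h2 : k * |d| * |a - b| ≤ Real.sqrt h := by
      calc k * |d| * |a - b| ≤ k * |d| * h := mul_le_mul_of_nonneg_left hab (by positivity)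
        _ = (k * |d| * Real.sqrt h) * Real.sqrt h := by
            rw [mul_assoc, mul_assoc, Real.mul_self_sqrt hh.le, mul_assoc]
        _ ≤ 1 * Real.sqrt h := mul_le_mul_of_nonneg_right hw hq.le
        _ = Real.sqrt h := one_mul _
    have h3 : b * ‖rem (k * a * d) - rem (k * b * d)‖ ≤ 2 * (3 * Real.sqrt h) :=
      mul_le_mul hb2 (hl.trans (by linarith)) (norm_nonneg _) (by norm_num)
    linarith
  · have hd : 0 < |d| := by
      rcases (abs_nonneg d).eq_or_lt with h0 | h0
      · rw [← h0] at hw; simp at hw; linarith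
      · exact h0
    refine (jump_far hk ha hb hd le_rfl).trans ?_
    rw [div_le_iff₀ (by positivity)]
    nlinarith

theorem end_le {k a h : ℝ} (ha : 0 < a) (ha2 : a ≤ 2) (hah : a ≤ h) (d : ℝ) :
    ‖(a : ℂ) * rem (k * a * d)‖ ≤ 6 * Real.sqrt h := by
  have : a ≤ 2 * Real.sqrt h := by
    rcases le_total h 4 with h4 | h4
    · have h' := Real.mul_self_sqrt (ha.le.trans hah)
      have : Real.sqrt h ≤ 2 := Real.sqrt_le_iff.2 ⟨by norm_num, by linarith⟩
      nlinarith [Real.sqrt_nonneg h]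
    · have : 2 ≤ Real.sqrt h := Real.le_sqrt_of_sq_le (by linarith)
      linarith
  rw [norm_mul, Complex.norm_real, Real.norm_eq_abs, abs_of_pos ha]
  have := mul_le_mul this (norm_rem_le (k * a * d)) (norm_nonneg _) (by positivity)
  linarith

/-- The scale of the Fresnel variable. -/
noncomputable def scl (s : ℝ) (N : ℕ) : ℝ := Real.sqrt N * Real.sqrt (2 * s) / 2

theorem piece_eq (S : Stair) {s : ℝ} (hs : 0 < s) {N : ℕ} (hN : 0 < N) (u : ℝ) {i : ℕ}
    (hi : i < S.m) :
    (Real.sqrt N : ℂ) * ∫ x in (s * S.lam (S.t i))..(s * S.lam (S.t (i + 1))),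
        ee ((N : ℝ) * sweep S s x - (N : ℝ) * u * x) =
      (Real.sqrt (2 * s) : ℂ) * ((S.a i : ℂ) *
        (ee (node S s N u i) * raw (scl s N * S.a i * (S.t i - u)) -
          ee (node S s N u (i + 1)) * raw (scl s N * S.a i * (S.t (i + 1) - u)))) := by
  obtain ⟨ha, -⟩ := S.ha i hi
  have hgap := sub_pos.2 (S.ht i hi)
  have hN' : (0 : ℝ) < N := Nat.cast_pos.2 hN
  set X := s * S.lam (S.t i) with hX
  set r := s * S.a i ^ 2 * (S.t (i + 1) - S.t i) with hr
  set A := (N : ℝ) / (2 * s * S.a i ^ 2) with hA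
  set B := (N : ℝ) * (S.t i - u) with hB
  have hend : s * S.lam (S.t (i + 1)) = X + r := by rw [lam_succ S hi, hX, hr]; ring
  have hsA : Real.sqrt A = Real.sqrt N / (Real.sqrt (2 * s) * S.a i) := by
    rw [hA, show (N : ℝ) / (2 * s * S.a i ^ 2) =
      (Real.sqrt N / (Real.sqrt (2 * s) * S.a i)) ^ 2 by
        rw [div_pow, mul_pow, Real.sq_sqrt hN'.le, Real.sq_sqrt (by positivity : 0 ≤ 2 * s)],
      Real.sqrt_sq (by positivity)]
  have hA0 : 0 < A := by positivity
  have s1 : 0 < Real.sqrt (N : ℝ) := Real.sqrt_pos.2 hN'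
  have s2 : 0 < Real.sqrt (2 * s) := Real.sqrt_pos.2 (by positivity)
  have q1 := Real.sq_sqrt hN'.le
  have q2 := Real.sq_sqrt (show (0 : ℝ) ≤ 2 * s by positivity)
  have hv : Real.sqrt A * 0 + B / (2 * Real.sqrt A) = scl s N * S.a i * (S.t i - u) := by
    rw [hsA, scl, hB]
    field_simp
    rw [q1]
    ring
  have hv' : Real.sqrt A * r + B / (2 * Real.sqrt A) = scl s N * S.a i * (S.t (i + 1) - u) := by
    rw [hsA, scl, hr, hB]
    field_simp
    rw [q1, q2]
    ring
  set v := scl s N * S.a i * (S.t i - u) with hvdef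
  set v' := scl s N * S.a i * (S.t (i + 1) - u) with hv'def
  have hsq : B ^ 2 / (4 * A) = v ^ 2 := by
    have h0 : Real.sqrt A ^ 2 = A := Real.sq_sqrt hA0.le
    rw [← hv, mul_zero, zero_add, div_pow,
      show (2 * Real.sqrt A) ^ 2 = 4 * A by rw [mul_pow, h0]; norm_num]
  have hph : ∀ y ∈ Set.uIcc (0 : ℝ) r, ee ((N : ℝ) * sweep S s (X + y) - (N : ℝ) * u * (X + y)) =
      ee (node S s N u i) * ee (A * y ^ 2 + B * y) := by
    intro y hy
    rw [Set.uIcc_of_le (by positivity)] at hy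
    rw [← ee_add, sweep_piece S hs hi hy.1 hy.2, node, ← hX]
    congr 1
    ring
  have hnext : node S s N u (i + 1) - v' ^ 2 = node S s N u i - v ^ 2 := by
    rw [node_eq S hs N u (i + 1) hi, node_eq S hs N u i hi.le,
      prim_piece S hi (S.ht i hi).le le_rfl, lam_succ S hi, hvdef, hv'def]
    simp only [scl, mul_pow, div_pow, q1, q2]
    ring
  have e := intervalIntegral.integral_comp_add_left
    (fun x => ee ((N : ℝ) * sweep S s x - (N : ℝ) * u * x)) X (a := 0) (b := r)
  rw [add_zero] at e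
  rw [hend, ← e, intervalIntegral.integral_congr hph, intervalIntegral.integral_const_mul,
    quad_integral hA0, hv, hv', neg_div, hsq]
  have hcoef : (Real.sqrt N : ℂ) * ((Real.sqrt A : ℂ))⁻¹ = (Real.sqrt (2 * s) : ℂ) * S.a i := by
    rw [← Complex.ofReal_inv, ← Complex.ofReal_mul, ← Complex.ofReal_mul, hsA]
    congr 1
    field_simp
  have e1 : ee (node S s N u i) * ee (-v ^ 2) * tail v = ee (node S s N u i) * raw v := by
    rw [raw]; ring
  have e2 : ee (node S s N u i) * ee (-v ^ 2) * tail v' =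
      ee (node S s N u (i + 1)) * raw v' := by
    rw [raw, ← mul_assoc, ← ee_add, ← ee_add,
      show node S s N u i + -v ^ 2 = node S s N u (i + 1) + -v' ^ 2 by linarith]
  rw [← e1, ← e2]
  linear_combination (ee (node S s N u i) * ee (-v ^ 2) * (tail v - tail v')) * hcoef

theorem main_term (S : Stair) {s : ℝ} (hs : 0 < s) {N : ℕ} (hN : 0 < N) (u : ℝ) :
    ∑ i ∈ range S.m, (S.a i : ℂ) *
        (ee (node S s N u i) *
            (if scl s N * S.a i * (S.t i - u) ≤ 0
              then ee (-(scl s N * S.a i * (S.t i - u)) ^ 2) * fresFull else 0) -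
          ee (node S s N u (i + 1)) *
            (if scl s N * S.a i * (S.t (i + 1) - u) ≤ 0
              then ee (-(scl s N * S.a i * (S.t (i + 1) - u)) ^ 2) * fresFull else 0)) =
      fresFull * (S.amp u : ℂ) * ee (-((N : ℝ) * s * S.prim u)) := by
  rw [amp, Complex.ofReal_sum, mul_sum, sum_mul]
  refine sum_congr rfl fun i hi => ?_
  have hi' := mem_range.1 hi
  have hk : 0 < scl s N := by unfold scl; positivity
  have hka : 0 < scl s N * S.a i := mul_pos hk (S.ha i hi').1
  have hsign : ∀ d : ℝ, scl s N * S.a i * d ≤ 0 ↔ d ≤ 0 := fun d =>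
    ⟨fun h => not_lt.1 fun hd => absurd (mul_pos hka hd) (not_lt.2 h),
      fun h => mul_nonpos_of_nonneg_of_nonpos hka.le h⟩
  have q1 := Real.sq_sqrt (Nat.cast_nonneg N : (0 : ℝ) ≤ N)
  have q2 := Real.sq_sqrt (show (0 : ℝ) ≤ 2 * s by positivity)
  have hg := (S.ht i hi').le
  have hleft : node S s N u i + -(scl s N * S.a i * (S.t i - u)) ^ 2 =
      (N : ℝ) * s * (S.t i * S.lam (S.t i) - S.prim (S.t i) - u * S.lam (S.t i)) -
        (N : ℝ) * s * S.a i ^ 2 * (S.t i - u) ^ 2 / 2 := by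
    rw [node_eq S hs N u i hi'.le]
    simp only [scl, mul_pow, div_pow, q1, q2]
    ring
  have hright : node S s N u (i + 1) + -(scl s N * S.a i * (S.t (i + 1) - u)) ^ 2 =
      node S s N u i + -(scl s N * S.a i * (S.t i - u)) ^ 2 := by
    rw [hleft, node_eq S hs N u (i + 1) hi', prim_piece S hi' hg le_rfl, lam_succ S hi']
    simp only [scl, mul_pow, div_pow, q1, q2]
    ring
  simp only [hsign]
  by_cases hA : S.t i - u ≤ 0
  · by_cases hB : S.t (i + 1) - u ≤ 0
    · rw [if_pos hA, if_pos hB, Set.indicator_of_notMem (fun h => by linarith [h.2]),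
        ← mul_assoc, ← mul_assoc (ee _) (ee _), ← ee_add, ← ee_add, hright]
      simp
    · rw [if_pos hA, if_neg hB,
        Set.indicator_of_mem (show u ∈ Set.Ico (S.t i) (S.t (i + 1)) from ⟨by linarith, by linarith⟩),
        mul_zero, sub_zero, ← mul_assoc (ee _) (ee _), ← ee_add, hleft,
        prim_piece S hi' (w := u) (by linarith) (by linarith)]
      rw [show (N : ℝ) * s * (S.t i * S.lam (S.t i) - S.prim (S.t i) - u * S.lam (S.t i)) -
          (N : ℝ) * s * S.a i ^ 2 * (S.t i - u) ^ 2 / 2 =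
          -((N : ℝ) * s * (S.prim (S.t i) + S.lam (S.t i) * (u - S.t i) +
            S.a i ^ 2 * (u - S.t i) ^ 2 / 2)) by ring]
      ring
  · rw [if_neg hA, if_neg (fun h => hA (by linarith)),
      Set.indicator_of_notMem (fun h => hA (by linarith [h.1]))]
    simp

theorem sum_nodes (f g : ℕ → ℂ) (n : ℕ) :
    ∑ i ∈ range (n + 1), (f i - g (i + 1)) =
      f 0 + ∑ i ∈ range n, (f (i + 1) - g (i + 1)) - g (n + 1) := by
  rw [sum_sub_distrib, sum_range_succ', sum_range_succ (fun i => g (i + 1)), sum_sub_distrib]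
  ring

theorem error_le (S : Stair) {δ k : ℝ} (hk : 0 < k) (hδ : 0 < δ)
    (hgap : ∀ i, i < S.m → 2 * δ ≤ S.t (i + 1) - S.t i) (u : ℝ) (P : ℕ → ℝ) :
    ‖∑ i ∈ range S.m, (S.a i : ℂ) * (ee (P i) * rem (k * S.a i * (S.t i - u)) -
        ee (P (i + 1)) * rem (k * S.a i * (S.t (i + 1) - u)))‖ ≤
      24 * Real.sqrt S.h + S.m / (k * δ) := by
  obtain ⟨n, hn⟩ := Nat.exists_eq_succ_of_ne_zero S.hm.ne'
  set Ψ : ℕ → ℕ → ℂ := fun i j => (S.a i : ℂ) * rem (k * S.a i * (S.t j - u)) with hΨ
  have e1 : ∀ i ∈ range S.m, (S.a i : ℂ) * (ee (P i) * rem (k * S.a i * (S.t i - u)) -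
      ee (P (i + 1)) * rem (k * S.a i * (S.t (i + 1) - u))) =
      (fun j => ee (P j) * Ψ j j) i - (fun j => ee (P j) * Ψ (j - 1) j) (i + 1) := fun i _ => by
    simp only [hΨ, Nat.add_sub_cancel]
    ring
  rw [sum_congr rfl e1, hn, Nat.succ_eq_add_one,
    sum_nodes (fun j => ee (P j) * Ψ j j) (fun j => ee (P j) * Ψ (j - 1) j) n]
  simp only [Nat.add_sub_cancel]
  have hmem : ∀ i, i ≤ n → i < S.m := fun i hi => by omega
  have b0 : ‖ee (P 0) * Ψ 0 0‖ ≤ 6 * Real.sqrt S.h := by
    rw [norm_mul, norm_ee, one_mul]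
    exact end_le (S.ha 0 S.hm).1 (S.ha 0 S.hm).2 S.hfirst _
  have bn : ‖ee (P (n + 1)) * Ψ n (n + 1)‖ ≤ 6 * Real.sqrt S.h := by
    rw [norm_mul, norm_ee, one_mul]
    have : S.a n ≤ S.h := by simpa [hn] using S.hlast
    exact end_le (S.ha n (by omega)).1 (S.ha n (by omega)).2 this _
  have hone : ((range n).filter fun i => |S.t (i + 1) - u| < δ).card ≤ 1 := by
    refine card_le_one.2 fun i hi j hj => ?_
    rw [mem_filter, mem_range, abs_lt] at hi hj
    by_contra hne
    rcases lt_or_gt_of_ne hne with h | h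
    · linarith [t_mono S (show i + 2 ≤ j + 1 by omega) (by omega), hgap (i + 1) (by omega)]
    · linarith [t_mono S (show j + 2 ≤ i + 1 by omega) (by omega), hgap (j + 1) (by omega)]
  have bmid : ‖∑ i ∈ range n, (ee (P (i + 1)) * Ψ (i + 1) (i + 1) - ee (P (i + 1)) * Ψ i (i + 1))‖ ≤
      12 * Real.sqrt S.h + S.m / (k * δ) := by
    refine (norm_sum_le _ _).trans ?_
    have hb : ∀ i ∈ range n, ‖ee (P (i + 1)) * Ψ (i + 1) (i + 1) - ee (P (i + 1)) * Ψ i (i + 1)‖ ≤
        (if |S.t (i + 1) - u| < δ then 12 * Real.sqrt S.h else 0) + 1 / (k * δ) := by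
      intro i hi
      have hi' := mem_range.1 hi
      obtain ⟨a1, a2⟩ := S.ha (i + 1) (by omega)
      obtain ⟨b1, b2⟩ := S.ha i (by omega)
      rw [← mul_sub, norm_mul, norm_ee, one_mul]
      have : 0 ≤ 1 / (k * δ) := by positivity
      split_ifs with hc
      · linarith [jump_le hk a1 a2 b1 b2 S.hh (S.hstep i (by omega)) (S.t (i + 1) - u)]
      · linarith [jump_far hk a1 b1 hδ (not_lt.1 hc) (a := S.a (i + 1)) (b := S.a i)]
    refine (sum_le_sum hb).trans ?_
    rw [sum_add_distrib, ← sum_filter, sum_const, sum_const, card_range, nsmul_eq_mul, nsmul_eq_mul]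
    refine add_le_add (mul_le_of_le_one_left (by positivity) (by exact_mod_cast hone)) ?_
    rw [mul_one_div]
    gcongr
    omega
  have hm' : ((n + 1 : ℕ) : ℝ) = S.m := by rw [hn]
  rw [Nat.succ_eq_add_one] at *
  rw [hm']
  refine (norm_sub_le _ _).trans ((add_le_add (norm_add_le _ _) le_rfl).trans ?_)
  linarith

/-- Stationary phase for a staircase, uniformly in the frequency `N * u`. -/
theorem integral_approx : ∃ ζ : ℂ, ‖ζ‖ = 1 ∧ ∃ C : ℝ, ∀ (S : Stair) (s ε : ℝ), 0 < s → 0 < ε →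
    ∃ N₀ : ℕ, ∀ N, N₀ ≤ N → ∀ u : ℝ,
      ‖S.integral s N ((N : ℝ) * u) -
        ζ * ((Real.sqrt s * S.amp u : ℝ) : ℂ) * ee (-((N : ℝ) * s * S.prim u))‖ ≤
          C * Real.sqrt s * Real.sqrt S.h + ε := by
  refine ⟨(Real.sqrt 2 : ℂ) * fresFull, ?_, 24 * Real.sqrt 2, fun S s ε hs hε => ?_⟩
  · rw [norm_mul, norm_fresFull, Complex.norm_real, Real.norm_eq_abs,
      abs_of_pos (Real.sqrt_pos.2 two_pos)]
    exact mul_inv_cancel₀ (by positivity)
  obtain ⟨j, hj, hmin⟩ := Finset.exists_min_image (range S.m) (fun i => S.t (i + 1) - S.t i)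
    ⟨0, mem_range.2 S.hm⟩
  set δ := (S.t (j + 1) - S.t j) / 2 with hδdef
  have hδ : 0 < δ := by linarith [S.ht j (mem_range.1 hj)]
  have hgap : ∀ i, i < S.m → 2 * δ ≤ S.t (i + 1) - S.t i := fun i hi => by
    have := hmin i (mem_range.2 hi); linarith
  refine ⟨⌈(2 * (S.m : ℝ) / (ε * δ)) ^ 2⌉₊ + 1, fun N hN u => ?_⟩
  have hN0 : 0 < N := by omega
  have hN' : (0 : ℝ) < N := Nat.cast_pos.2 hN0
  have hk : 0 < scl s N := by unfold scl; positivity
  have hsplit : S.integral s N ((N : ℝ) * u) = ∑ i ∈ range S.m, (Real.sqrt N : ℂ) *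
      ∫ x in (s * S.lam (S.t i))..(s * S.lam (S.t (i + 1))),
        ee ((N : ℝ) * sweep S s x - (N : ℝ) * u * x) := by
    have hc : Continuous fun x => ee ((N : ℝ) * sweep S s x - (N : ℝ) * u * x) :=
      continuous_ee.comp ((continuous_const.mul (continuous_sweep S s)).sub
        (continuous_const.mul continuous_id))
    rw [← mul_sum, intervalIntegral.sum_integral_adjacent_intervals
      (a := fun i => s * S.lam (S.t i)) fun i _ => hc.intervalIntegrable _ _]
    rfl
  rw [hsplit, sum_congr rfl fun i hi => piece_eq S hs hN0 u (mem_range.1 hi), ← mul_sum]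
  have hmain := main_term S hs hN0 u
  have herr := error_le S hk hδ hgap u (node S s N u)
  set M := ∑ i ∈ range S.m, (S.a i : ℂ) *
    (ee (node S s N u i) * rem (scl s N * S.a i * (S.t i - u)) -
      ee (node S s N u (i + 1)) * rem (scl s N * S.a i * (S.t (i + 1) - u))) with hM
  have hsum : ∑ i ∈ range S.m, (S.a i : ℂ) *
      (ee (node S s N u i) * raw (scl s N * S.a i * (S.t i - u)) -
        ee (node S s N u (i + 1)) * raw (scl s N * S.a i * (S.t (i + 1) - u))) =
      fresFull * (S.amp u : ℂ) * ee (-((N : ℝ) * s * S.prim u)) + M := by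
    rw [← hmain, hM, ← sum_add_distrib]
    refine sum_congr rfl fun i _ => ?_
    rw [raw_split (scl s N * S.a i * (S.t i - u)), raw_split (scl s N * S.a i * (S.t (i + 1) - u))]
    ring
  have e : (Real.sqrt (2 * s) : ℂ) = (Real.sqrt 2 : ℂ) * (Real.sqrt s : ℂ) := by
    rw [Real.sqrt_mul (by norm_num)]; push_cast; ring
  rw [hsum, show (Real.sqrt (2 * s) : ℂ) *
      (fresFull * (S.amp u : ℂ) * ee (-((N : ℝ) * s * S.prim u)) + M) -
      (Real.sqrt 2 : ℂ) * fresFull * ((Real.sqrt s * S.amp u : ℝ) : ℂ) *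
        ee (-((N : ℝ) * s * S.prim u)) = (Real.sqrt (2 * s) : ℂ) * M by
    rw [e]; push_cast; ring]
  rw [norm_mul, Complex.norm_real, Real.norm_eq_abs, abs_of_nonneg (Real.sqrt_nonneg _)]
  refine (mul_le_mul_of_nonneg_left herr (Real.sqrt_nonneg _)).trans ?_
  have h2 : Real.sqrt (2 * s) * ((S.m : ℝ) / (scl s N * δ)) = 2 * S.m / (Real.sqrt N * δ) := by
    have : 0 < Real.sqrt (2 * s) := Real.sqrt_pos.2 (by positivity)
    rw [scl]
    field_simp
  have h3 : 2 * (S.m : ℝ) / (Real.sqrt N * δ) ≤ ε := by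
    rw [div_le_iff₀ (by positivity)]
    have h4 : (2 * (S.m : ℝ) / (ε * δ)) ^ 2 ≤ N :=
      (Nat.le_ceil _).trans (by exact_mod_cast (by omega : ⌈(2 * (S.m : ℝ) / (ε * δ)) ^ 2⌉₊ ≤ N))
    have h5 := Real.le_sqrt_of_sq_le h4
    rw [div_le_iff₀ (by positivity)] at h5
    linarith
  rw [mul_add, h2, Real.sqrt_mul (by norm_num : (0 : ℝ) ≤ 2)]
  linarith

end Stair

end Vale.Agent.P110.Flat
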