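import Vale.Agent.P110.Flat.Hole
import Vale.Agent.P110.Flat.Stair

/-! The target of a layout and of staircases in disjoint epochs. -/

namespace Vale.Agent.P110.Flat

open Finset

namespace PathAux

open MeasureTheory

/-- The lines of a layout. -/
abbrev Line {η : ℝ} (Y : Layout η) : Type := Σ i : Fin Y.K, Fin Y.E × Fin (Y.q i)

/-- The left end of a line. -/
noncomputable def start {η : ℝ} (Y : Layout η) (p : Line Y) : ℝ :=
  (p.2.2 : ℕ) / (Y.q p.1 : ℝ) + dot (Y.k p.1) (Y.β p.2.1)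

/-- The length of a line, times `E`. -/
noncomputable def slope {η : ℝ} (Y : Layout η) (p : Line Y) : ℝ := dot (Y.k p.1) Y.v

theorem slope_pos {η : ℝ} (Y : Layout η) (p : Line Y) : 0 < slope Y p := Y.hv p.1

/-- An enumeration of the lines. -/
noncomputable def enum {η : ℝ} (Y : Layout η) : Fin (Fintype.card (Line Y)) ≃ Line Y :=
  (Fintype.equivFin _).symm

/-- The lines, trimmed by `d` at both ends, as arcs. -/
noncomputable def arcs {η : ℝ} (Y : Layout η) (d : ℝ) (hd : 0 < d) (hdE : 2 * d * Y.E < 1) :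
    Arcs where
  n := Fintype.card (Line Y)
  mid j := start Y (enum Y j) + slope Y (enum Y j) / (2 * Y.E)
  rad j := slope Y (enum Y j) / (2 * Y.E) - slope Y (enum Y j) * d
  gap := (1 + ∑ j, (slope Y (enum Y j) * d)⁻¹)⁻¹
  hgap := inv_pos.2 (add_pos_of_pos_of_nonneg one_pos
    (sum_nonneg fun j _ => (inv_pos.2 (mul_pos (slope_pos Y _) hd)).le))
  hrad j := by
    have hs := slope_pos Y (enum Y j)
    have hE : (0 : ℝ) < Y.E := Nat.cast_pos.2 Y.hE
    rw [sub_pos, lt_div_iff₀ (by positivity)]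
    nlinarith
  hsep := by
    intro j j' σ σ' hne z
    have hE : (0 : ℝ) < Y.E := Nat.cast_pos.2 Y.hE
    set p := enum Y j with hp
    set p' := enum Y j' with hp'
    have hs := slope_pos Y p
    have hs' := slope_pos Y p'
    set r := slope Y p / (2 * Y.E) with hr
    set r' := slope Y p' / (2 * Y.E) with hr'
    have hr0 : 0 < r := by positivity
    have hr0' : 0 < r' := by positivity
    set D := sg σ * (start Y p + r) - sg σ' * (start Y p' + r') - z with hD
    have hgap : (1 + ∑ k, (slope Y (enum Y k) * d)⁻¹)⁻¹ ≤ slope Y p * d := by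
      rw [inv_le_comm₀ (add_pos_of_pos_of_nonneg one_pos
        (sum_nonneg fun j _ => (inv_pos.2 (mul_pos (slope_pos Y _) hd)).le)) (mul_pos hs hd)]
      have := single_le_sum (f := fun k => (slope Y (enum Y k) * d)⁻¹)
        (fun k _ => (inv_pos.2 (mul_pos (slope_pos Y _) hd)).le) (mem_univ j)
      linarith
    suffices h : r + r' ≤ |D| by
      have := mul_pos hs' hd
      linarith
    by_contra h
    rw [not_le, abs_lt] at h
    have htup : ((σ, p.1, p.2.1, (p.2.2 : ℕ)) : Bool × Fin Y.K × Fin Y.E × ℕ) ≠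
        (σ', p'.1, p'.2.1, (p'.2.2 : ℕ)) := by
      intro he
      simp only [Prod.mk.injEq] at he
      obtain ⟨hσ, hi, he', hb⟩ := he
      refine hne (Prod.ext hσ ((enum Y).injective ?_))
      show p = p'
      clear_value p p'
      obtain ⟨i, e, b⟩ := p
      obtain ⟨i', e', b'⟩ := p'
      dsimp only at hi he' hb
      subst hi
      subst he'
      rw [Fin.ext hb]
    have hmem : ∀ (τ : Bool) (u a c : ℝ), 0 < a → -c < u → u < c → c = a →
        a + sg τ * u ∈ Set.Ioo 0 (2 * a) := fun τ u a c _ h1 h2 hc => by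
      subst hc
      cases τ <;> simp only [sg] <;> constructor <;> norm_num <;> linarith
    have hsum : 0 < r + r' := by linarith
    have hx := hmem σ (-D * r / (r + r')) r r hr0
      (by rw [lt_div_iff₀ hsum]; nlinarith) (by rw [div_lt_iff₀ hsum]; nlinarith) rfl
    have hx' := hmem σ' (D * r' / (r + r')) r' r' hr0'
      (by rw [lt_div_iff₀ hsum]; nlinarith) (by rw [div_lt_iff₀ hsum]; nlinarith) rfl
    refine Y.hdisj p.1 p'.1 p.2.1 p'.2.1 p.2.2 p'.2.2 σ σ' p.2.2.isLt p'.2.2.isLt htup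
      (r + sg σ * (-D * r / (r + r'))) (Set.mem_of_eq_of_mem rfl ?_)
      (r' + sg σ' * (D * r' / (r + r'))) ?_ z ?_
    · rwa [show dot (Y.k p.1) Y.v / Y.E = 2 * r by rw [hr, slope]; field_simp]
    · rwa [show dot (Y.k p'.1) Y.v / Y.E = 2 * r' by rw [hr', slope]; field_simp]
    · show sg σ * (start Y p + (r + sg σ * (-D * r / (r + r')))) -
        sg σ' * (start Y p' + (r' + sg σ' * (D * r' / (r + r')))) = z
      rw [show ∀ (τ : Bool) (A a u : ℝ), sg τ * (A + (a + sg τ * u)) = sg τ * (A + a) + u from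
          fun τ A a u => by rw [← add_assoc, mul_add, ← mul_assoc, Track.sg_sq, one_mul],
        show ∀ (τ : Bool) (A a u : ℝ), sg τ * (A + (a + sg τ * u)) = sg τ * (A + a) + u from
          fun τ A a u => by rw [← add_assoc, mul_add, ← mul_assoc, Track.sg_sq, one_mul]]
      field_simp
      rw [hD]
      ring

/-- A sum over the enumerated lines. -/
theorem sum_enum {η : ℝ} (Y : Layout η) {M : Type} [AddCommMonoid M]
    (g : Fin Y.K → Fin Y.E → ℕ → M) :
    ∑ j, g (enum Y j).1 (enum Y j).2.1 (enum Y j).2.2 =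
      ∑ i, ∑ e, ∑ b ∈ range (Y.q i), g i e b := by
  rw [(enum Y).sum_comp (fun p : Line Y => g p.1 p.2.1 p.2.2), Fintype.sum_sigma]
  refine sum_congr rfl fun i _ => ?_
  rw [Fintype.sum_prod_type]
  exact sum_congr rfl fun e _ => Fin.sum_univ_eq_sum_range (g i e) (Y.q i)

theorem sum_rad {η : ℝ} (Y : Layout η) (d : ℝ) (hd : 0 < d) (hdE : 2 * d * Y.E < 1) :
    ∑ j, (arcs Y d hd hdE).rad j = (1 / 2 - d * Y.E) * ∑ i, Y.c i ^ 2 := by
  have hE : (0 : ℝ) < Y.E := Nat.cast_pos.2 Y.hE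
  show ∑ j, (fun i (_ : Fin Y.E) (_ : ℕ) => dot (Y.k i) Y.v / (2 * Y.E) - dot (Y.k i) Y.v * d)
    (enum Y j).1 (enum Y j).2.1 (enum Y j).2.2 = _
  rw [sum_enum Y (fun i _ _ => dot (Y.k i) Y.v / (2 * Y.E) - dot (Y.k i) Y.v * d), mul_sum]
  refine sum_congr rfl fun i _ => ?_
  rw [sum_const, sum_const, card_range, card_univ, Fintype.card_fin, nsmul_eq_mul, nsmul_eq_mul,
    Y.hc]
  field_simp

/-- The lines cover at most the circle. -/
theorem energy_le {η : ℝ} (Y : Layout η) : ∑ i, Y.c i ^ 2 ≤ 1 := by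
  have hE : (0 : ℝ) < Y.E := Nat.cast_pos.2 Y.hE
  have hd : (0 : ℝ) < 1 / (4 * Y.E) := by positivity
  have hdE : 2 * (1 / (4 * (Y.E : ℝ))) * Y.E < 1 := by field_simp; norm_num
  have h := Track.free_integral (arcs Y _ hd hdE)
  have h0 : 0 ≤ ∫ t in (0 : ℝ)..1, (arcs Y _ hd hdE).free t :=
    intervalIntegral.integral_nonneg zero_le_one fun t _ => ((arcs Y _ hd hdE).free_mem t).1
  rw [h, sum_rad] at h0
  have e : 1 / 2 - 1 / (4 * (Y.E : ℝ)) * Y.E = 1 / 4 := by field_simp; norm_num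
  rw [e] at h0
  linarith

theorem free_le {η : ℝ} (Y : Layout η) (d : ℝ) (hd : 0 < d) (hdE : 2 * d * Y.E < 1) :
    0 ≤ ∫ t in (0 : ℝ)..1, (arcs Y d hd hdE).free t ∧
      ∫ t in (0 : ℝ)..1, (arcs Y d hd hdE).free t ≤ η + 4 * d * Y.E := by
  refine ⟨intervalIntegral.integral_nonneg zero_le_one fun t _ =>
    ((arcs Y d hd hdE).free_mem t).1, ?_⟩
  rw [Track.free_integral, sum_rad]
  nlinarith [Y.hlow, energy_le Y, mul_pos hd (Nat.cast_pos (α := ℝ) |>.2 Y.hE)]

theorem dens_mem (S : Stair) (x : ℝ) :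
    0 ≤ S.dens x ∧ S.dens x ≤ ∑ i ∈ range S.m, (S.a i ^ 2)⁻¹ := by
  rw [Stair.dens]
  exact ⟨sum_nonneg fun i _ => Set.indicator_nonneg (fun _ _ => inv_nonneg.2 (sq_nonneg _)) _,
    sum_le_sum fun i _ =>
      Set.indicator_le_self' (fun _ _ => inv_nonneg.2 (sq_nonneg _)) _⟩

theorem time_lipschitz (S : Stair) (x y : ℝ) :
    |S.time x - S.time y| ≤ (∑ i ∈ range S.m, (S.a i ^ 2)⁻¹) * |x - y| := by
  rw [Stair.time, Stair.time, add_sub_add_left_eq_sub,
    intervalIntegral.integral_interval_sub_left (S.dens_integrable _ _) (S.dens_integrable _ _)]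
  exact intervalIntegral.norm_integral_le_of_norm_le_const fun t _ => by
    rw [Real.norm_eq_abs, abs_of_nonneg (dens_mem S t).1]
    exact (dens_mem S t).2

theorem time_mono (S : Stair) {x y : ℝ} (h : x ≤ y) : S.time x ≤ S.time y := by
  have hi := intervalIntegral.integral_nonneg (μ := volume) (f := S.dens) h fun t _ => (dens_mem S t).1
  rw [← intervalIntegral.integral_interval_sub_left (a := S.start) (S.dens_integrable _ _)
    (S.dens_integrable _ _)] at hi
  rw [Stair.time, Stair.time]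
  linarith

theorem node_lt (S : Stair) {i : ℕ} (hi : i < S.m) : S.lam (S.t 0) < S.lam (S.t (i + 1)) := by
  induction i with
  | zero => exact S.lam_lt 0 hi
  | succ i ih => exact (ih (by omega)).trans (S.lam_lt (i + 1) hi)

theorem ee_intCast (z : ℤ) : ee z = 1 := by
  rw [ee, Complex.exp_eq_one_iff]
  exact ⟨z, by push_cast; ring⟩

theorem ee_fract (x : ℝ) : ee (Int.fract x) = ee x := by
  conv_rhs => rw [← Int.fract_add_floor x, ee_add, ee_intCast, mul_one]

theorem ee_conj (x : ℝ) : starRingEnd ℂ (ee x) = ee (-x) := by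
  rw [ee, ee, ← Complex.exp_conj]
  congr 1
  simp [map_ofNat]

theorem abs_fract_le (x : ℝ) : |Int.fract x| ≤ 1 := by
  rw [abs_of_nonneg (Int.fract_nonneg _)]; exact (Int.fract_lt_one _).le

theorem integral_conj' (f : ℝ → ℂ) (a b : ℝ) :
    ∫ x in a..b, starRingEnd ℂ (f x) = starRingEnd ℂ (∫ x in a..b, f x) := by
  rw [intervalIntegral, intervalIntegral, map_sub, integral_conj, integral_conj]

theorem continuous_of_lip {f : ℝ → ℝ} {L : ℝ} (h : ∀ a b, |f a - f b| ≤ L * |a - b|) :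
    Continuous f :=
  (LipschitzWith.of_dist_le' (K := L) fun a b => h a b).continuous

theorem exists_ramp {Cn ε σ gap M : ℝ} (hCn : 0 ≤ Cn) (hε : 0 < ε) (hσ : 0 < σ) (hgap : 0 < gap)
    (hM : 0 < M) : ∃ δ, 0 < δ ∧ 2 * δ < gap ∧ 2 * M * δ ≤ σ ∧ Cn * Real.sqrt (δ / σ) ≤ ε := by
  refine ⟨min (gap / 4) (min (σ / (2 * M)) (σ * (ε / (Cn + 1)) ^ 2)),
    lt_min (by positivity) (lt_min (by positivity) (by positivity)), ?_, ?_, ?_⟩
  · linarith [min_le_left (gap / 4) (min (σ / (2 * M)) (σ * (ε / (Cn + 1)) ^ 2))]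
  · rw [← le_div_iff₀' (by positivity)]
    exact (min_le_right _ _).trans (min_le_left _ _)
  · refine (mul_le_mul_of_nonneg_left (c := ε / (Cn + 1)) ((Real.sqrt_le_left (by positivity)).2 ?_)
      hCn).trans ?_
    · rw [div_le_iff₀ hσ, mul_comm ((ε / (Cn + 1)) ^ 2)]
      exact (min_le_right _ _).trans (min_le_right _ _)
    · rw [mul_div_assoc', div_le_iff₀ (by positivity)]
      nlinarith

/-- The track of the lines: speed `time (x / s)` on each of them. -/
noncomputable def track {η : ℝ} (Y : Layout η) (S : Fin Y.E → Stair) (μ W d M δ : ℝ) (hd : 0 < d)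
    (hdE : 2 * d * Y.E < 1) (hμ : 0 < μ) (hW : 0 < W) (hM : 0 < M) (hδ : 0 < δ)
    (hδgap : 2 * δ < (arcs Y d hd hdE).gap) (hslope : 2 * M * δ ≤ W / 2)
    (hMI : M * (∫ t in (0 : ℝ)..1, (arcs Y d hd hdE).free t) ≤ W / 2) (hμW : μ + W ≤ 1 - μ)
    (hS : ∀ e, μ + W ≤ (S e).time d ∧ (S e).time (1 / (Y.E : ℝ) - d) ≤ 1 - μ) : Track where
  toArcs := arcs Y d hd hdE
  μ := μ
  M := M
  δ := δ
  σ₀ := W / 2
  hμ := hμ
  hM := hM
  hδ := hδ
  hδgap := hδgap
  hslope := hslope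
  hσ₀ := half_pos hW
  hwin := by linarith
  f j y := (S (enum Y j).2.1).time (1 / (2 * (Y.E : ℝ)) + y / slope Y (enum Y j))
  Lf := ∑ j, (∑ i ∈ range (S (enum Y j).2.1).m, ((S (enum Y j).2.1).a i ^ 2)⁻¹) /
    slope Y (enum Y j)
  hfLip j a b := by
    refine (time_lipschitz _ _ _).trans ?_
    rw [add_sub_add_left_eq_sub, ← sub_div, abs_div, abs_of_pos (slope_pos Y _), mul_div_assoc',
      ← div_mul_eq_mul_div]
    refine mul_le_mul_of_nonneg_right ?_ (abs_nonneg _)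
    exact single_le_sum (f := fun k => (∑ i ∈ range (S (enum Y k).2.1).m,
        ((S (enum Y k).2.1).a i ^ 2)⁻¹) / slope Y (enum Y k))
      (fun k _ => div_nonneg (sum_nonneg fun i _ => inv_nonneg.2 (sq_nonneg _))
        (slope_pos Y _).le) (mem_univ j)
  hfRange j y hy := by
    have hs := slope_pos Y (enum Y j)
    have hE : (0 : ℝ) < Y.E := Nat.cast_pos.2 Y.hE
    change |y| ≤ slope Y (enum Y j) / (2 * Y.E) - slope Y (enum Y j) * d at hy
    rw [abs_le] at hy
    obtain ⟨h3, h4⟩ := hS (enum Y j).2.1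
    have e1 : slope Y (enum Y j) / (2 * (Y.E : ℝ)) =
        slope Y (enum Y j) * (1 / (2 * (Y.E : ℝ))) := by
      ring
    have b1 : d ≤ 1 / (2 * (Y.E : ℝ)) + y / slope Y (enum Y j) := by
      rw [← sub_le_iff_le_add', le_div_iff₀ hs]
      nlinarith [hy.1]
    have b2 : 1 / (2 * (Y.E : ℝ)) + y / slope Y (enum Y j) ≤ 1 / (Y.E : ℝ) - d := by
      rw [← le_sub_iff_add_le', div_le_iff₀ hs,
        show 1 / (Y.E : ℝ) = 2 * (1 / (2 * (Y.E : ℝ))) by ring]
      nlinarith [hy.2]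
    constructor
    · linarith [time_mono (S (enum Y j).2.1) b1]
    · linarith [time_mono (S (enum Y j).2.1) b2]

end PathAux

open PathAux

/-- On the line `(i, e, b)` the speed is `(S e).time (x / s)` and `w i e b` is the total phase; the
holes are swept in `[μ, μ + W / 2]` with slope `W / (2 (η + 2 d E))`. The shift `a` makes the target
periodic. -/
theorem exists_path : ∃ C : ℝ, ∀ {η : ℝ} (Y : Layout η) (S : Fin Y.E → Stair) (μ W d ε : ℝ),
    0 < η → 0 < μ → 0 < W → 0 < d → 0 < ε →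
    (∀ e, (S e).start = d ∧ (S e).lam ((S e).t (S e).m) = 1 / Y.E - d ∧
      μ + W ≤ (S e).t 0 ∧ (S e).t (S e).m ≤ 1 - μ) →
    ∃ L : ℝ, ∃ N₀ : ℕ, ∀ N, N₀ ≤ N → ∃ a : ℝ, ∀ w : Fin Y.K → Fin Y.E → ℕ → ℝ,
      ∃ τ χ : ℝ → ℝ, (∀ a b, |τ a - τ b| ≤ L * |a - b|) ∧ (∀ a b, |χ a - χ b| ≤ L * |a - b|) ∧
        (∀ x, μ ≤ τ x ∧ τ x ≤ 1 - μ) ∧
        (∀ θ, target N τ χ (θ + 1) = target N τ χ θ) ∧
        (∀ θ, target N τ χ (-θ) = starRingEnd ℂ (target N τ χ θ)) ∧
        ∀ n : ℕ, ‖tcoef N τ χ n - ((2 * (∑ i, ∑ e, ∑ b ∈ range (Y.q i),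
          ee (w i e b - ((n : ℝ) + a) * ((b : ℝ) / Y.q i + dot (Y.k i) (Y.β e))) *
            (S e).integral (dot (Y.k i) Y.v) N ((n : ℝ) + a)).re : ℝ) : ℂ)‖ ≤
          C * Real.sqrt ((η + d * Y.E) / W) + ε := by
  obtain ⟨Ch, hhole⟩ := Track.hole_bound
  refine ⟨3 * |Ch|, fun {η} Y S μ W d ε hη hμ hW hd hε hS => ?_⟩
  have hE : (0 : ℝ) < Y.E := Nat.cast_pos.2 Y.hE
  have hend : ∀ e, (S e).lam ((S e).t 0) = d ∧ d < 1 / (Y.E : ℝ) - d ∧
      (S e).time d = (S e).t 0 ∧ (S e).time (1 / (Y.E : ℝ) - d) = (S e).t (S e).m := fun e => by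
    obtain ⟨h1, h2, -, -⟩ := hS e
    have h0 : (S e).lam ((S e).t 0) = d := by rw [Stair.lam_start, h1]
    obtain ⟨k, hk⟩ : ∃ k, (S e).m = k + 1 := ⟨(S e).m - 1, by have := (S e).hm; omega⟩
    have hlt := node_lt (S e) (i := k) (by omega)
    rw [← hk, h0, h2] at hlt
    have t0 := (S e).time_node (i := 0) (Nat.zero_le _)
    have tm := (S e).time_node (i := (S e).m) le_rfl
    rw [h0] at t0
    rw [h2] at tm
    exact ⟨h0, hlt, t0, tm⟩
  have hdE : 2 * d * Y.E < 1 := by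
    have := (hend ⟨0, Y.hE⟩).2.1
    rw [lt_sub_iff_add_lt, lt_div_iff₀ hE] at this
    linarith
  have hμW : μ + W ≤ 1 - μ := by
    obtain ⟨-, -, h3, h4⟩ := hS ⟨0, Y.hE⟩
    linarith [(S ⟨0, Y.hE⟩).t_mono (Nat.zero_le (S ⟨0, Y.hE⟩).m) le_rfl]
  obtain ⟨A, hA⟩ : ∃ A, A = arcs Y d hd hdE := ⟨_, rfl⟩
  obtain ⟨hI0, hI1⟩ := free_le Y d hd hdE
  have hden : 0 < η + 4 * d * Y.E := by positivity
  obtain ⟨M, hMdef⟩ : ∃ M, M = W / (2 * (η + 4 * d * Y.E)) := ⟨_, rfl⟩
  have hM : 0 < M := by rw [hMdef]; positivity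
  have hMI : M * (∫ t in (0 : ℝ)..1, (arcs Y d hd hdE).free t) ≤ W / 2 := by
    refine (mul_le_mul_of_nonneg_left hI1 hM.le).trans (le_of_eq ?_)
    rw [hMdef]; field_simp
  obtain ⟨δ, hδ, hδgap, hslope, hδε⟩ := exists_ramp (σ := W / 2) (gap := (arcs Y d hd hdE).gap)
    (Cn := |Ch| * Fintype.card (Line Y)) (by positivity) (half_pos hε) (half_pos hW)
    (arcs Y d hd hdE).hgap hM
  have hST : ∀ e, μ + W ≤ (S e).time d ∧ (S e).time (1 / (Y.E : ℝ) - d) ≤ 1 - μ := fun e => by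
    obtain ⟨-, -, h3, h4⟩ := hS e
    obtain ⟨-, -, ht0, htm⟩ := hend e
    rw [ht0, htm]; exact ⟨h3, h4⟩
  obtain ⟨T, hT⟩ : ∃ T, T = track Y S μ W d M δ hd hdE hμ hW hM hδ hδgap hslope hMI hμW hST :=
    ⟨_, rfl⟩
  obtain ⟨Lτ, hLτ⟩ := T.tau_lipschitz
  obtain ⟨Lχ, hLχ⟩ := T.chi_lipschitz
  obtain ⟨N₀, hN₀⟩ := hhole T (ε / 2) (half_pos hε)
  subst hT
  set T := track Y S μ W d M δ hd hdE hμ hW hM hδ hδgap hslope hMI hμW hST with hT
  refine ⟨max Lτ (Lχ + 1), N₀, fun N hN => ?_⟩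
  have hτc : Continuous T.tau := continuous_of_lip hLτ
  have hint : ∀ x y, IntervalIntegrable T.tau MeasureTheory.volume x y := hτc.intervalIntegrable
  set Ψ : ℝ → ℝ := fun θ => ∫ t in (0 : ℝ)..θ, T.tau t with hΨ
  refine ⟨Int.fract ((N : ℝ) * Ψ 1), fun w => ?_⟩
  set a := Int.fract ((N : ℝ) * Ψ 1) with ha
  set wj : Fin T.n → ℝ := fun j => Int.fract (w (enum Y j).1 (enum Y j).2.1 (enum Y j).2.2 -
    (N : ℝ) * Ψ (T.mid j - T.rad j)) with hwj
  have hw1 : ∀ j, |wj j| ≤ 1 := fun j => abs_fract_le _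
  set χ : ℝ → ℝ := fun θ => T.chi wj θ - a * θ with hχdef
  have hχ : ∀ x y, |χ x - χ y| ≤ (Lχ + 1) * |x - y| := fun x y => by
    simp only [hχdef]
    rw [show T.chi wj x - a * x - (T.chi wj y - a * y) =
      (T.chi wj x - T.chi wj y) + -(a * (x - y)) by ring, add_mul, one_mul]
    refine (abs_add_le _ _).trans (add_le_add (hLχ wj hw1 x y) ?_)
    rw [abs_neg, abs_mul]
    exact mul_le_of_le_one_left (abs_nonneg _) (abs_fract_le _)
  have hper : ∀ θ, target N T.tau χ (θ + 1) = target N T.tau χ θ := fun θ => by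
    have e1 := Function.Periodic.intervalIntegral_add_eq T.tau_periodic θ 0
    rw [zero_add] at e1
    rw [target, target, ← intervalIntegral.integral_add_adjacent_intervals (hint 0 θ)
      (hint θ (θ + 1)), e1]
    simp only [hχdef, T.chi_periodic]
    rw [show (N : ℝ) * ((∫ t in (0 : ℝ)..θ, T.tau t) + Ψ 1) + (T.chi wj θ - a * (θ + 1)) =
      (N : ℝ) * (∫ t in (0 : ℝ)..θ, T.tau t) + (T.chi wj θ - a * θ) + ((N : ℝ) * Ψ 1 - a) by ring,
      ee_add, ha, Int.self_sub_fract, ee_intCast, mul_one]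
  have hconj : ∀ θ, target N T.tau χ (-θ) = starRingEnd ℂ (target N T.tau χ θ) := fun θ => by
    have e1 : ∫ t in (0 : ℝ)..(-θ), T.tau t = -∫ t in (0 : ℝ)..θ, T.tau t := by
      have h := intervalIntegral.integral_comp_neg T.tau (a := 0) (b := θ)
      simp only [T.tau_even, neg_zero] at h
      rw [h, intervalIntegral.integral_symm]
    rw [target, target, ee_conj, e1]
    simp only [hχdef, T.chi_odd]
    congr 1
    ring
  refine ⟨T.tau, χ, fun x y => (hLτ x y).trans (mul_le_mul_of_nonneg_right (le_max_left _ _)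
      (abs_nonneg _)), fun x y => (hχ x y).trans (mul_le_mul_of_nonneg_right (le_max_right _ _)
      (abs_nonneg _)), T.tau_range, hper, hconj, fun m => ?_⟩
  set F : ℝ → ℂ := fun θ => target N T.tau χ θ * ee (-((m : ℝ) * θ)) with hF
  have hFc : Continuous F :=
    (continuous_ee.comp ((continuous_const.mul (intervalIntegral.continuous_primitive hint 0)).add
      (continuous_of_lip hχ))).mul (continuous_ee.comp (continuous_const.mul continuous_id).neg)
  have hFper : ∀ θ, F (θ + 1) = F θ := fun θ => by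
    simp only [hF, hper]
    rw [show -((m : ℝ) * (θ + 1)) = -((m : ℝ) * θ) + ((-(m : ℤ) : ℤ) : ℝ) by push_cast; ring,
      ee_add, ee_intCast, mul_one]
  have hFconj : ∀ θ, F (-θ) = starRingEnd ℂ (F θ) := fun θ => by
    simp only [hF, hconj, map_mul, ee_conj]
    congr 2
    ring
  set ν : ℝ := (m : ℝ) + a with hν
  have hFν : ∀ θ, F θ = target N T.tau (T.chi wj) θ * ee (-(ν * θ)) := fun θ => by
    simp only [hF, target, hχdef]
    rw [← ee_add, ← ee_add]
    congr 1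
    rw [hν]; ring
  set G : Fin Y.K → Fin Y.E → ℕ → ℂ := fun i e b =>
    ee (w i e b - ν * ((b : ℝ) / Y.q i + dot (Y.k i) (Y.β e))) *
      (S e).integral (dot (Y.k i) Y.v) N ν with hG
  have hline : ∀ j, (Real.sqrt N : ℂ) * ∫ θ in (T.mid j - T.rad j)..(T.mid j + T.rad j), F θ =
      G (enum Y j).1 (enum Y j).2.1 (enum Y j).2.2 := fun j => by
    set p := enum Y j with hp
    have hs : 0 < slope Y p := slope_pos Y p
    have hs0 := hs.ne'
    set s := slope Y p with hsdef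
    set θ₀ := start Y p with hθ₀
    have hmid : T.mid j = θ₀ + s / (2 * Y.E) := rfl
    have hrad : T.rad j = s / (2 * Y.E) - s * d := rfl
    have hlo : T.mid j - T.rad j = θ₀ + s * d := by rw [hmid, hrad]; ring
    have hhi : T.mid j + T.rad j = θ₀ + s * (1 / Y.E - d) := by rw [hmid, hrad]; ring
    obtain ⟨ht0, -, -, -⟩ := hend p.2.1
    obtain ⟨-, h2, -, -⟩ := hS p.2.1
    have hle : s * d ≤ s * (1 / Y.E - d) :=
      mul_le_mul_of_nonneg_left (hend p.2.1).2.1.le hs.le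
    have harc : ∀ x ∈ Set.Icc (s * d) (s * (1 / Y.E - d)),
        T.tau (θ₀ + x) = (S p.2.1).time (x / s) ∧ T.chi wj (θ₀ + x) = wj j := fun x hx => by
      have hy : |x - s / (2 * Y.E)| ≤ T.rad j := by
        rw [hrad, abs_le]
        have : s * (1 / Y.E - d) = 2 * (s / (2 * Y.E)) - s * d := by ring
        constructor <;> linarith [hx.1, hx.2]
      obtain ⟨h1, h2⟩ := T.on_arc wj j _ hy
      rw [hmid, show θ₀ + s / (2 * Y.E) + (x - s / (2 * Y.E)) = θ₀ + x by ring] at h1 h2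
      refine ⟨h1.trans ?_, h2⟩
      show (S p.2.1).time (1 / (2 * (Y.E : ℝ)) + (x - s / (2 * Y.E)) / s) = _
      congr 1
      field_simp
      ring
    have hinner : ∀ x ∈ Set.uIcc (s * d) (s * (1 / Y.E - d)), F (θ₀ + x) =
        ee (w p.1 p.2.1 p.2.2 - ν * θ₀) *
          ee ((N : ℝ) * (∫ u in (s * d)..x, (S p.2.1).time (u / s)) - ν * x) := fun x hx => by
      rw [Set.uIcc_of_le hle] at hx
      have e1 : ∫ t in (0 : ℝ)..(θ₀ + x), T.tau t =
          Ψ (θ₀ + s * d) + ∫ u in (s * d)..x, (S p.2.1).time (u / s) := by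
        rw [← intervalIntegral.integral_add_adjacent_intervals (hint 0 (θ₀ + s * d))
          (hint (θ₀ + s * d) (θ₀ + x)), ← intervalIntegral.integral_comp_add_left T.tau θ₀]
        congr 1
        refine intervalIntegral.integral_congr fun u hu => ?_
        rw [Set.uIcc_of_le hx.1] at hu
        exact (harc u ⟨hu.1, hu.2.trans hx.2⟩).1
      rw [hFν, target, e1, (harc x hx).2, hwj]
      dsimp only
      rw [← hp, hlo]
      set P := w p.1 p.2.1 p.2.2 - (N : ℝ) * Ψ (θ₀ + s * d) with hP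
      set J := ∫ u in (s * d)..x, (S p.2.1).time (u / s)
      rw [show (N : ℝ) * (Ψ (θ₀ + s * d) + J) + Int.fract P =
        Int.fract P + ((N : ℝ) * (Ψ (θ₀ + s * d) + J)) by ring, ee_add, ee_fract, ← ee_add,
        ← ee_add, ← ee_add]
      congr 1
      rw [hP]; ring
    have e2 : ∫ θ in (T.mid j - T.rad j)..(T.mid j + T.rad j), F θ =
        ee (w p.1 p.2.1 p.2.2 - ν * θ₀) * ∫ x in (s * d)..(s * (1 / Y.E - d)),
          ee ((N : ℝ) * (∫ u in (s * d)..x, (S p.2.1).time (u / s)) - ν * x) := by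
      rw [hlo, hhi, ← intervalIntegral.integral_comp_add_left F θ₀,
        intervalIntegral.integral_congr hinner, intervalIntegral.integral_const_mul]
    rw [e2, hG]
    dsimp only
    rw [Stair.integral, show dot (Y.k p.1) Y.v = s from rfl, ht0, h2,
      show (p.2.2 : ℕ) / (Y.q p.1 : ℝ) + dot (Y.k p.1) (Y.β p.2.1) = θ₀ from rfl]
    ring
  have hsum : (Real.sqrt N : ℂ) * ∑ j, ((∫ θ in (T.mid j - T.rad j)..(T.mid j + T.rad j), F θ) +
      ∫ θ in (T.mid j - T.rad j)..(T.mid j + T.rad j), F (-θ)) =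
      ((2 * (∑ i, ∑ e, ∑ b ∈ range (Y.q i), G i e b).re : ℝ) : ℂ) := by
    simp only [hFconj, integral_conj', mul_sum, mul_add]
    rw [sum_add_distrib, sum_congr rfl fun j _ => hline j,
      sum_congr rfl fun j _ => show (Real.sqrt N : ℂ) * starRingEnd ℂ
        (∫ θ in (T.mid j - T.rad j)..(T.mid j + T.rad j), F θ) =
          starRingEnd ℂ (G (enum Y j).1 (enum Y j).2.1 (enum Y j).2.2) by
        rw [← hline j, map_mul, Complex.conj_ofReal],
      ← map_sum, Complex.add_conj]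
    congr 2
    exact congrArg Complex.re (sum_enum Y G)
  have htc : tcoef N T.tau χ m = (Real.sqrt N : ℂ) *
      (∫ θ in (0 : ℝ)..1, (T.free θ : ℂ) * F θ) +
        ((2 * (∑ i, ∑ e, ∑ b ∈ range (Y.q i), G i e b).re : ℝ) : ℂ) := by
    rw [← hsum, ← mul_add, tcoef]
    congr 1
    exact Track.integral_split T.toArcs F hFc hFper
  rw [htc, add_sub_cancel_right, norm_mul, Complex.norm_real, Real.norm_eq_abs,
    abs_of_nonneg (Real.sqrt_nonneg _)]
  simp only [hFν]
  refine (hN₀ N hN wj ν).trans ?_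
  have hC1 : Ch / Real.sqrt T.M ≤ 3 * |Ch| * Real.sqrt ((η + d * Y.E) / W) := by
    have hTM : T.M = W / (2 * (η + 4 * d * Y.E)) := hMdef
    rw [hTM]
    refine (div_le_div_of_nonneg_right (le_abs_self Ch) (Real.sqrt_nonneg _)).trans ?_
    rw [mul_comm (3 : ℝ), mul_assoc, div_eq_mul_inv, ← Real.sqrt_inv, inv_div]
    rw [mul_assoc |Ch|]
    refine mul_le_mul_of_nonneg_left ?_ (abs_nonneg Ch)
    rw [show (3 : ℝ) = Real.sqrt 9 by rw [show (9:ℝ) = 3 ^ 2 by norm_num, Real.sqrt_sq (by norm_num)],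
      ← Real.sqrt_mul (by norm_num)]
    refine Real.sqrt_le_sqrt ?_
    rw [← mul_div_assoc]
    refine div_le_div_of_nonneg_right ?_ hW.le
    nlinarith [mul_pos hd hE]
  have hC2 : Ch * T.n * Real.sqrt (T.δ / T.σ₀) ≤ ε / 2 := by
    refine le_trans ?_ hδε
    exact mul_le_mul_of_nonneg_right
      (mul_le_mul_of_nonneg_right (le_abs_self Ch) (Nat.cast_nonneg _)) (Real.sqrt_nonneg _)
  linarith

end Vale.Agent.P110.Flat
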