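import Vale.Agent.P110.Flat.Defs

/-! A smoothed unimodular target is a flat trigonometric sum with real coefficients. -/

namespace Vale.Agent.P110.Flat

/-- The target: phase speed `N τ`, correction `χ`. -/
noncomputable def target (N : ℕ) (τ χ : ℝ → ℝ) (θ : ℝ) : ℂ :=
  ee ((N : ℝ) * (∫ t in (0 : ℝ)..θ, τ t) + χ θ)

/-- The coefficients of the target. -/
noncomputable def tcoef (N : ℕ) (τ χ : ℝ → ℝ) (n : ℝ) : ℂ :=
  (Real.sqrt N : ℂ) * ∫ θ in (0 : ℝ)..1, target N τ χ θ * ee (-(n * θ))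

namespace SmoothAux

open Finset MeasureTheory intervalIntegral

theorem ee_norm (x : ℝ) : ‖ee x‖ = 1 := by
  rw [ee, Complex.norm_exp]
  simp

theorem ee_cont : Continuous ee := by
  unfold ee
  fun_prop

theorem ee_mul (x y : ℝ) : ee x * ee y = ee (x + y) := by
  rw [ee, ee, ee, ← Complex.exp_add]
  congr 1
  push_cast
  ring

theorem ee_int (k : ℤ) : ee k = 1 := by
  rw [ee, ← Complex.exp_int_mul_two_pi_mul_I k]
  congr 1
  push_cast
  ring

theorem ee_conj (x : ℝ) : starRingEnd ℂ (ee x) = ee (-x) := by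
  rw [ee, ee, ← Complex.exp_conj]
  congr 1
  simp [Complex.conj_ofReal, Complex.conj_I, map_mul, map_ofNat]

theorem ee_eq_exp (x : ℝ) : ee x = Complex.exp (Complex.I * ((2 * Real.pi * x : ℝ) : ℂ)) := by
  rw [ee]
  congr 1
  push_cast
  ring

theorem ee_sub_one_le (x : ℝ) : ‖ee x - 1‖ ≤ 2 * Real.pi * |x| := by
  rw [ee_eq_exp]
  refine Real.norm_exp_I_mul_ofReal_sub_one_le.trans (le_of_eq ?_)
  rw [Real.norm_eq_abs, abs_mul, abs_of_pos (by positivity : 0 < 2 * Real.pi)]

theorem ee_sub_one_ge {t : ℝ} (ht : |t| ≤ 1 / 2) : 4 * |t| ≤ ‖ee t - 1‖ := by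
  rw [ee_eq_exp, Complex.norm_exp_I_mul_ofReal_sub_one, Real.norm_eq_abs, abs_mul,
    show 2 * Real.pi * t / 2 = Real.pi * t by ring, abs_two]
  have hp := Real.pi_pos
  have h := Real.mul_abs_le_abs_sin (x := Real.pi * t) (by
    rw [abs_mul, abs_of_pos hp]; nlinarith)
  rw [abs_mul, abs_of_pos hp, ← mul_assoc, div_mul_cancel₀ _ hp.ne'] at h
  linarith

/-- A geometric sum of phases. -/
noncomputable def geo (n : ℕ) (t : ℝ) : ℂ := ∑ j ∈ range n, ee (j * t)

theorem geo_le_len (n : ℕ) (t : ℝ) : ‖geo n t‖ ≤ n := by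
  refine (norm_sum_le _ _).trans ?_
  simp [ee_norm]

theorem geo_le_inv (n : ℕ) {t : ℝ} (ht : |t| ≤ 1 / 2) : |t| * ‖geo n t‖ ≤ 1 / 2 := by
  have hp : ∀ j : ℕ, ee (j * t) = ee t ^ j := fun j => by
    rw [ee, ee, ← Complex.exp_nat_mul]
    congr 1
    push_cast
    ring
  have he : geo n t * (ee t - 1) = ee t ^ n - 1 := by
    simp only [geo, hp]
    exact geom_sum_mul (ee t) n
  have h2 : ‖geo n t‖ * ‖ee t - 1‖ ≤ 2 := by
    rw [← norm_mul, he]
    refine (norm_sub_le _ _).trans ?_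
    simp [norm_pow, ee_norm]
    norm_num
  have h3 := mul_le_mul_of_nonneg_left (ee_sub_one_ge ht) (norm_nonneg (geo n t))
  linarith

/-- The kernel: a discrete trapezoid, supported in `[0, N)`. -/
noncomputable def ker (N h : ℕ) (t : ℝ) : ℂ := (h : ℂ)⁻¹ * (geo (N - h) t * geo h t)

theorem ker_expand (N h : ℕ) (t : ℝ) :
    ker N h t = (h : ℂ)⁻¹ * ∑ p ∈ range (N - h) ×ˢ range h, ee (((p.1 + p.2 : ℕ) : ℝ) * t) := by
  rw [ker, geo, geo, sum_mul_sum, sum_product]
  congr 1
  refine sum_congr rfl fun i _ => sum_congr rfl fun j _ => ?_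
  rw [ee_mul]
  congr 1
  push_cast
  ring

theorem ker_cont (N h : ℕ) : Continuous (ker N h) := by
  have : ∀ j : ℕ, Continuous fun t : ℝ => ee (j * t) := fun j => ee_cont.comp (by fun_prop)
  unfold ker geo
  fun_prop

theorem ker_le (N h : ℕ) (hh : 0 < h) (t : ℝ) : ‖ker N h t‖ ≤ N := by
  rw [ker, norm_mul, norm_mul, norm_inv, Complex.norm_natCast]
  calc (h : ℝ)⁻¹ * (‖geo (N - h) t‖ * ‖geo h t‖) ≤ (h : ℝ)⁻¹ * (((N - h : ℕ) : ℝ) * h) := by
        gcongr
        · exact geo_le_len _ _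
        · exact geo_le_len _ _
    _ = ((N - h : ℕ) : ℝ) := by
        field_simp
    _ ≤ (N : ℝ) := by exact_mod_cast Nat.sub_le N h

theorem ker_le_sq (N h : ℕ) (hh : 0 < h) {t : ℝ} (ht : |t| ≤ 1 / 2) :
    t ^ 2 * ‖ker N h t‖ ≤ 1 / (4 * h) := by
  rw [ker, norm_mul, norm_mul, norm_inv, Complex.norm_natCast, ← sq_abs]
  have h1 := geo_le_inv (N - h) ht
  have h2 := geo_le_inv h ht
  calc |t| ^ 2 * ((h : ℝ)⁻¹ * (‖geo (N - h) t‖ * ‖geo h t‖))
      = (h : ℝ)⁻¹ * ((|t| * ‖geo (N - h) t‖) * (|t| * ‖geo h t‖)) := by ring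
    _ ≤ (h : ℝ)⁻¹ * (1 / 2 * (1 / 2)) := by
        gcongr
    _ = 1 / (4 * h) := by
        field_simp
        ring

theorem integral_ee_int (k : ℤ) :
    ∫ t in (-(1 / 2) : ℝ)..1 / 2, ee (k * t) = if k = 0 then 1 else 0 := by
  split_ifs with hk
  · subst hk
    norm_num [ee]
  · have hc : (2 * Real.pi * k * Complex.I : ℂ) ≠ 0 := by
      simp [Real.pi_ne_zero, hk]
    have e : ∀ t : ℝ, ee (k * t) = Complex.exp ((2 * Real.pi * k * Complex.I) * t) := fun t => by
      rw [ee]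
      congr 1
      push_cast
      ring
    simp only [e]
    rw [integral_exp_mul_complex hc]
    have : Complex.exp ((2 * Real.pi * k * Complex.I) * ((1 / 2 : ℝ) : ℂ)) =
        Complex.exp ((2 * Real.pi * k * Complex.I) * ((-(1 / 2) : ℝ) : ℂ)) := by
      rw [Complex.exp_eq_exp_iff_exists_int]
      exact ⟨k, by push_cast; ring⟩
    rw [this, sub_self, zero_div]

theorem lip_continuous {f : ℝ → ℝ} {L : ℝ} (h : ∀ a b, |f a - f b| ≤ L * |a - b|) :
    Continuous f := by
  refine (LipschitzWith.of_dist_le_mul (K := L.toNNReal) fun a b => ?_).continuous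
  rw [Real.dist_eq, Real.dist_eq]
  exact (h a b).trans (mul_le_mul_of_nonneg_right (Real.le_coe_toNNReal L) (abs_nonneg _))

variable {N : ℕ} {τ χ : ℝ → ℝ}

theorem target_cont (hτ : Continuous τ) (hχ : Continuous χ) : Continuous (target N τ χ) := by
  unfold target
  refine ee_cont.comp ((continuous_const.mul ?_).add hχ)
  exact intervalIntegral.continuous_primitive (fun a b => hτ.intervalIntegrable a b) 0

theorem target_norm (θ : ℝ) : ‖target N τ χ θ‖ = 1 := ee_norm _

/-- The Fourier integral of the target. -/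
noncomputable def coef (N : ℕ) (τ χ : ℝ → ℝ) (n : ℕ) : ℂ :=
  ∫ θ in (0 : ℝ)..1, target N τ χ θ * ee (-((n : ℝ) * θ))

theorem periodic_prod (hper : ∀ θ, target N τ χ (θ + 1) = target N τ χ θ) (n : ℕ) :
    Function.Periodic (fun θ => target N τ χ θ * ee (-((n : ℝ) * θ))) 1 := by
  intro θ
  simp only
  rw [hper, show -((n : ℝ) * (θ + 1)) = -((n : ℝ) * θ) + ((-n : ℤ) : ℝ) by push_cast; ring,
    ← ee_mul, ee_int, mul_one]

theorem coef_conj (hper : ∀ θ, target N τ χ (θ + 1) = target N τ χ θ)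
    (hsym : ∀ θ, target N τ χ (-θ) = starRingEnd ℂ (target N τ χ θ)) (n : ℕ) :
    starRingEnd ℂ (coef N τ χ n) = coef N τ χ n := by
  set g := fun θ => target N τ χ θ * ee (-((n : ℝ) * θ)) with hg
  have h1 : starRingEnd ℂ (coef N τ χ n) = ∫ θ in (0 : ℝ)..1, g (-θ) := by
    rw [coef, ← intervalIntegral.intervalIntegral_conj]
    refine intervalIntegral.integral_congr fun θ _ => ?_
    simp only [hg, map_mul, ee_conj, hsym, mul_neg]
  rw [h1, intervalIntegral.integral_comp_neg g, neg_zero,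
    show coef N τ χ n = ∫ θ in (0 : ℝ)..0 + 1, g θ by rw [coef, zero_add]]
  have := (periodic_prod hper n).intervalIntegral_add_eq (-1) 0
  rw [neg_add_cancel] at this
  exact this

theorem shift_eq (hper : ∀ θ, target N τ χ (θ + 1) = target N τ χ θ) (n : ℕ) (θ : ℝ) :
    ∫ t in (-(1 / 2) : ℝ)..1 / 2, target N τ χ (θ - t) * ee ((n : ℝ) * t) =
      coef N τ χ n * ee ((n : ℝ) * θ) := by
  set g := fun θ => target N τ χ θ * ee (-((n : ℝ) * θ)) with hg
  have e : ∀ t, target N τ χ (θ - t) * ee ((n : ℝ) * t) = g (θ - t) * ee ((n : ℝ) * θ) := by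
    intro t
    rw [hg]
    simp only
    rw [mul_assoc, ee_mul, show -((n : ℝ) * (θ - t)) + (n : ℝ) * θ = (n : ℝ) * t by ring]
  simp only [e]
  rw [intervalIntegral.integral_mul_const, intervalIntegral.integral_comp_sub_left g,
    show θ - -(1 / 2 : ℝ) = θ - 1 / 2 + 1 by ring]
  congr 1
  rw [(periodic_prod hper n).intervalIntegral_add_eq (θ - 1 / 2) 0, zero_add]
  rfl

theorem phase_error {L : ℝ} (hL : 0 ≤ L) (hτ : ∀ a b, |τ a - τ b| ≤ L * |a - b|)
    (hχ : ∀ a b, |χ a - χ b| ≤ L * |a - b|) (θ t ν : ℝ) (hν : |ν - N * τ θ| ≤ 1) :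
    ‖target N τ χ (θ - t) - target N τ χ θ * ee (-(ν * t))‖ ≤
      2 * Real.pi * (N * L * t ^ 2 + (1 + L) * |t|) := by
  have hc := lip_continuous hτ
  set R := (N : ℝ) * (∫ s in θ..θ - t, (τ s - τ θ)) + (χ (θ - t) - χ θ) + (ν - N * τ θ) * t with hR
  have e : target N τ χ (θ - t) = target N τ χ θ * ee (-(ν * t)) * ee R := by
    rw [target, target, ee_mul, ee_mul, hR,
      intervalIntegral.integral_sub (hc.intervalIntegrable _ _) intervalIntegrable_const,
      intervalIntegral.integral_const, smul_eq_mul,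
      ← intervalIntegral.integral_add_adjacent_intervals (hc.intervalIntegrable 0 θ)
        (hc.intervalIntegrable θ (θ - t))]
    congr 1
    ring
  have hb : |∫ s in θ..θ - t, (τ s - τ θ)| ≤ L * t ^ 2 := by
    have := intervalIntegral.norm_integral_le_of_norm_le_const (a := θ) (b := θ - t)
      (C := L * |t|) (f := fun s => τ s - τ θ) fun s hs => by
        rw [Real.norm_eq_abs]
        refine (hτ s θ).trans (mul_le_mul_of_nonneg_left ?_ hL)
        have h' := Set.abs_sub_left_of_mem_uIcc (Set.uIoc_subset_uIcc hs)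
        simpa using h'
    rw [Real.norm_eq_abs] at this
    refine this.trans (le_of_eq ?_)
    rw [show θ - t - θ = -t by ring, abs_neg, mul_assoc, ← sq, sq_abs]
  have hR' : |R| ≤ N * L * t ^ 2 + (1 + L) * |t| := by
    have h1 := abs_add_three ((N : ℝ) * ∫ s in θ..θ - t, (τ s - τ θ)) (χ (θ - t) - χ θ)
      ((ν - N * τ θ) * t)
    have h2 : |(N : ℝ) * ∫ s in θ..θ - t, (τ s - τ θ)| ≤ N * (L * t ^ 2) := by
      rw [abs_mul, Nat.abs_cast]
      exact mul_le_mul_of_nonneg_left hb (Nat.cast_nonneg N)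
    have h3 : |χ (θ - t) - χ θ| ≤ L * |t| := by
      have := hχ (θ - t) θ
      rwa [show θ - t - θ = -t by ring, abs_neg] at this
    have h4 : |(ν - N * τ θ) * t| ≤ |t| := by
      rw [abs_mul]
      exact mul_le_of_le_one_left (abs_nonneg t) hν
    linarith
  rw [e, show ∀ a b : ℂ, a * b - a = a * (b - 1) from fun a b => by ring, norm_mul, norm_mul,
    target_norm, ee_norm, one_mul, one_mul]
  exact (ee_sub_one_le R).trans (mul_le_mul_of_nonneg_left hR' (by positivity))

theorem near_identity {μ L δ : ℝ} (hμ : 0 < μ) (hL : 0 ≤ L) (hδ : 0 < δ) (hδ' : δ ≤ 1 / 2)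
    {h : ℕ} (hh : 0 < h) (hhN : μ * N / 4 ≤ (h : ℝ)) (hhN' : (h : ℝ) ≤ μ * N / 2)
    (hN : 2 ≤ μ * N)
    (hτ : ∀ a b, |τ a - τ b| ≤ L * |a - b|) (hχ : ∀ a b, |χ a - χ b| ≤ L * |a - b|)
    (hrange : ∀ a, μ ≤ τ a ∧ τ a ≤ 1 - μ) (θ : ℝ) :
    ‖(∫ t in (-(1 / 2) : ℝ)..1 / 2, target N τ χ (θ - t) * ker N h t) - target N τ χ θ‖ ≤
      2 * δ * (2 * Real.pi * (L / μ + (1 + L) * (1 + 1 / μ))) + 2 / (μ * N * δ ^ 2) := by
  have hNpos : (0 : ℝ) < N := by
    rcases Nat.eq_zero_or_pos N with h0 | h0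
    · subst h0; simp at hN; linarith
    · exact_mod_cast h0
  set ν := ⌈(N : ℝ) * τ θ⌉₊ with hνdef
  have hτpos : 0 ≤ (N : ℝ) * τ θ := mul_nonneg hNpos.le (hμ.le.trans (hrange θ).1)
  have hν1 : (N : ℝ) * τ θ ≤ (ν : ℝ) := Nat.le_ceil _
  have hν2 : (ν : ℝ) < (N : ℝ) * τ θ + 1 := Nat.ceil_lt_add_one hτpos
  have hνlo : h ≤ ν := by
    have : (h : ℝ) ≤ ν := by nlinarith [(hrange θ).1]
    exact_mod_cast this
  have hνhi : ν + h < N := by
    have : (ν : ℝ) + h < N := by nlinarith [(hrange θ).2]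
    exact_mod_cast this
  have hone : ∫ t in (-(1 / 2) : ℝ)..1 / 2, ee (-((ν : ℝ) * t)) * ker N h t = 1 := by
    have e : ∀ t : ℝ, ee (-((ν : ℝ) * t)) * ker N h t = (h : ℂ)⁻¹ *
        ∑ p ∈ range (N - h) ×ˢ range h, ee ((((p.1 + p.2 : ℕ) : ℤ) - ν : ℤ) * t) := by
      intro t
      rw [ker_expand, mul_left_comm, mul_sum]
      congr 1
      refine sum_congr rfl fun p _ => ?_
      rw [ee_mul]
      congr 1
      push_cast
      ring
    simp only [e]
    rw [intervalIntegral.integral_const_mul,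
      intervalIntegral.integral_finsetSum (fun p _ =>
        (show Continuous fun x : ℝ => ee ((((p.1 + p.2 : ℕ) : ℤ) - ν : ℤ) * x) from
          ee_cont.comp (by fun_prop)).intervalIntegrable _ _)]
    simp only [integral_ee_int]
    rw [← sum_filter, sum_const, nsmul_one]
    have hcard : ((range (N - h) ×ˢ range h).filter
        fun p => (((p.1 + p.2 : ℕ) : ℤ) - ν : ℤ) = 0).card = h := by
      have h2 : ν < N - h := by omega
      refine (card_nbij' (fun p => p.2) (fun j => (ν - j, j)) ?_ ?_ ?_ ?_).trans (card_range h)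
      all_goals
        intro p hp
        simp at hp ⊢
      all_goals first
        | omega
        | exact ⟨⟨by omega, hp⟩, by omega⟩
        | (ext <;> simp <;> omega)
    rw [hcard, inv_mul_cancel₀]
    exact_mod_cast hh.ne'
  set F := fun t => (target N τ χ (θ - t) - target N τ χ θ * ee (-((ν : ℝ) * t))) * ker N h t
    with hF
  have hTc := target_cont (N := N) (lip_continuous hτ) (lip_continuous hχ)
  have hFc : Continuous F := by
    rw [hF]
    exact ((hTc.comp (continuous_const.sub continuous_id)).sub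
      (continuous_const.mul (ee_cont.comp (by fun_prop)))).mul (ker_cont N h)
  have hdiff : (∫ t in (-(1 / 2) : ℝ)..1 / 2, target N τ χ (θ - t) * ker N h t) - target N τ χ θ =
      ∫ t in (-(1 / 2) : ℝ)..1 / 2, F t := by
    simp only [hF, sub_mul]
    rw [intervalIntegral.integral_sub]
    · simp only [mul_assoc]
      rw [intervalIntegral.integral_const_mul, hone, mul_one]
    · exact ((hTc.comp (continuous_const.sub continuous_id)).mul
        (ker_cont N h)).intervalIntegrable _ _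
    · exact ((continuous_const.mul (ee_cont.comp (by fun_prop))).mul
        (ker_cont N h)).intervalIntegrable _ _
  have hh4 : 1 / (4 * (h : ℝ)) ≤ 1 / (μ * N) := by
    apply one_div_le_one_div_of_le (by positivity)
    linarith
  have inner : ∀ t : ℝ, |t| ≤ 1 / 2 →
      ‖F t‖ ≤ 2 * Real.pi * (L / μ + (1 + L) * (1 + 1 / μ)) := by
    intro t ht
    have hk2 := (ker_le_sq N h hh ht).trans hh4
    have hk := ker_le N h hh t
    set k := ‖ker N h t‖ with hkdef
    have hk0 : 0 ≤ k := norm_nonneg _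
    have a1 : (N : ℝ) * L * t ^ 2 * k ≤ L / μ := by
      have := mul_le_mul_of_nonneg_left hk2 (mul_nonneg hNpos.le hL)
      calc (N : ℝ) * L * t ^ 2 * k = (N : ℝ) * L * (t ^ 2 * k) := by ring
        _ ≤ (N : ℝ) * L * (1 / (μ * N)) := this
        _ = L / μ := by field_simp
    have a2 : |t| * k ≤ 1 + 1 / μ := by
      have h1 : (|t| * k) ^ 2 ≤ 1 / μ := by
        calc (|t| * k) ^ 2 = (t ^ 2 * k) * k := by rw [mul_pow, sq_abs]; ring
          _ ≤ (1 / (μ * N)) * N := mul_le_mul hk2 hk hk0 (by positivity)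
          _ = 1 / μ := by field_simp
      nlinarith [sq_nonneg (|t| * k - 1)]
    have hb := phase_error (N := N) hL hτ hχ θ t ν (abs_le.2 ⟨by linarith, by linarith⟩)
    rw [hF]
    simp only
    rw [norm_mul]
    refine (mul_le_mul_of_nonneg_right hb hk0).trans ?_
    have := mul_le_mul_of_nonneg_left a2 (by linarith : 0 ≤ 1 + L)
    rw [mul_assoc (2 * Real.pi)]
    exact mul_le_mul_of_nonneg_left (by linarith) (by positivity)
  have outer : ∀ t : ℝ, δ ≤ |t| → |t| ≤ 1 / 2 → ‖F t‖ ≤ 2 / (μ * N * δ ^ 2) := by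
    intro t ht0 ht
    have hk2 := (ker_le_sq N h hh ht).trans hh4
    rw [hF]
    simp only
    rw [norm_mul]
    have h1 : ‖target N τ χ (θ - t) - target N τ χ θ * ee (-((ν : ℝ) * t))‖ ≤ 2 := by
      refine (norm_sub_le _ _).trans ?_
      rw [norm_mul, target_norm, target_norm, ee_norm]
      norm_num
    have h2 : δ ^ 2 * ‖ker N h t‖ ≤ 1 / (μ * N) := by
      refine le_trans (mul_le_mul_of_nonneg_right ?_ (norm_nonneg _)) hk2
      rw [← sq_abs t]
      exact pow_le_pow_left₀ hδ.le ht0 2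
    have h3 : ‖ker N h t‖ ≤ 1 / (μ * N * δ ^ 2) := by
      rw [← div_div, le_div_iff₀ (by positivity)]
      linarith
    calc _ ≤ 2 * (1 / (μ * N * δ ^ 2)) := mul_le_mul h1 h3 (norm_nonneg _) (by norm_num)
      _ = _ := by ring
  have hi : ∀ a b : ℝ, IntervalIntegrable F volume a b := fun a b => hFc.intervalIntegrable a b
  rw [hdiff, ← intervalIntegral.integral_add_adjacent_intervals (hi _ (-δ)) (hi (-δ) _),
    ← intervalIntegral.integral_add_adjacent_intervals (hi (-δ) δ) (hi δ _)]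
  have b1 : ‖∫ t in (-(1 / 2) : ℝ)..-δ, F t‖ ≤ 2 / (μ * N * δ ^ 2) * |-δ - -(1 / 2)| := by
    refine intervalIntegral.norm_integral_le_of_norm_le_const fun t ht => ?_
    rw [Set.uIoc_of_le (by linarith)] at ht
    refine outer t ?_ ?_
    · rw [abs_of_nonpos (by linarith [ht.2])]; linarith [ht.2]
    · rw [abs_of_nonpos (by linarith [ht.2])]; linarith [ht.1]
  have b2 : ‖∫ t in -δ..δ, F t‖ ≤
      2 * Real.pi * (L / μ + (1 + L) * (1 + 1 / μ)) * |δ - -δ| := by
    refine intervalIntegral.norm_integral_le_of_norm_le_const fun t ht => ?_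
    rw [Set.uIoc_of_le (by linarith)] at ht
    exact inner t (abs_le.2 ⟨by linarith [ht.1], by linarith [ht.2]⟩)
  have b3 : ‖∫ t in δ..(1 / 2 : ℝ), F t‖ ≤ 2 / (μ * N * δ ^ 2) * |1 / 2 - δ| := by
    refine intervalIntegral.norm_integral_le_of_norm_le_const fun t ht => ?_
    rw [Set.uIoc_of_le (by linarith)] at ht
    refine outer t ?_ ?_
    · rw [abs_of_nonneg (by linarith [ht.1])]; linarith [ht.1]
    · rw [abs_of_nonneg (by linarith [ht.1])]; linarith [ht.2]
  rw [abs_of_nonneg (by linarith)] at b1 b2 b3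
  have hB : 0 ≤ 2 / (μ * N * δ ^ 2) := by positivity
  refine (norm_add_le _ _).trans ?_
  refine (add_le_add b1 ((norm_add_le _ _).trans (add_le_add b2 b3))).trans ?_
  nlinarith

end SmoothAux

open SmoothAux Finset in
theorem exists_flat_of_target (μ L ε : ℝ) (hμ : 0 < μ) (hε : 0 < ε) : ∃ N₀ : ℕ, ∀ N, N₀ ≤ N →
    ∀ τ χ : ℝ → ℝ, (∀ a b, |τ a - τ b| ≤ L * |a - b|) → (∀ a b, |χ a - χ b| ≤ L * |a - b|) →
      (∀ a, μ ≤ τ a ∧ τ a ≤ 1 - μ) →
      (∀ θ, target N τ χ (θ + 1) = target N τ χ θ) →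
      (∀ θ, target N τ χ (-θ) = starRingEnd ℂ (target N τ χ θ)) →
      ∃ y : ℕ → ℝ, (∀ n, n < N → |y n| ≤ ‖tcoef N τ χ n‖) ∧
        ∀ θ : ℝ, |‖trig N y θ‖ - Real.sqrt N| ≤ ε * Real.sqrt N := by
  rcases lt_or_ge L 0 with hL | hL
  · refine ⟨0, fun N _ τ χ hτ _ _ _ _ => absurd (hτ 0 1) ?_⟩
    have := abs_nonneg (τ 0 - τ 1)
    norm_num
    linarith
  set C := 2 * Real.pi * (L / μ + (1 + L) * (1 + 1 / μ)) with hCdef
  have hC : 0 < C := by positivity
  set δ := min (1 / 2) (ε / (4 * C)) with hδdef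
  have hδ : 0 < δ := lt_min (by norm_num) (by positivity)
  refine ⟨⌈4 / μ + 4 / (μ * ε * δ ^ 2)⌉₊, fun N hN τ χ hτ hχ hrange hper hsym => ?_⟩
  have hN' : 4 / μ + 4 / (μ * ε * δ ^ 2) ≤ (N : ℝ) :=
    (Nat.le_ceil _).trans (by exact_mod_cast hN)
  have h4a : 4 ≤ μ * (N : ℝ) := by
    have h0 : 0 < 4 / (μ * ε * δ ^ 2) := by positivity
    have : 4 / μ ≤ (N : ℝ) := by linarith
    rw [div_le_iff₀ hμ] at this
    linarith
  set h := ⌊μ * (N : ℝ) / 2⌋₊ with hhdef
  have hh1 : (h : ℝ) ≤ μ * N / 2 := Nat.floor_le (by linarith)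
  have hh2 : μ * N / 2 < (h : ℝ) + 1 := Nat.lt_floor_add_one _
  have hh : 0 < h := by
    rw [hhdef, Nat.floor_pos]
    linarith
  set P := range (N - h) ×ˢ range h with hP
  set m : ℕ → ℝ := fun n => ((P.filter fun p => p.1 + p.2 = n).card : ℝ) / h with hm
  refine ⟨fun n => Real.sqrt N * m n * (coef N τ χ n).re, fun n _ => ?_, fun θ => ?_⟩
  · have hm1 : m n ≤ 1 := by
      rw [hm, div_le_one (by exact_mod_cast hh)]
      refine Nat.cast_le.2 ((card_le_card_of_injOn (fun p => p.2) ?_ ?_).trans (card_range h).le)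
      · intro p hp
        simp [hP] at hp ⊢
        omega
      · intro p hp p' hp' hpp
        simp at hp hp' hpp
        ext <;> omega
    have hm0 : 0 ≤ m n := by rw [hm]; positivity
    show |Real.sqrt N * m n * (coef N τ χ n).re| ≤ _
    rw [tcoef, norm_mul, Complex.norm_real, Real.norm_eq_abs,
      abs_of_nonneg (Real.sqrt_nonneg _), abs_mul, abs_mul, abs_of_nonneg (Real.sqrt_nonneg _),
      abs_of_nonneg hm0]
    gcongr
    · exact mul_le_of_le_one_right (Real.sqrt_nonneg _) hm1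
    · exact Complex.abs_re_le_norm _
  · have hreal : ∀ n, (((coef N τ χ n).re : ℝ) : ℂ) = coef N τ χ n := fun n =>
      Complex.conj_eq_iff_re.1 (coef_conj hper hsym n)
    have hTc := target_cont (N := N) (lip_continuous hτ) (lip_continuous hχ)
    have key : trig N (fun n => Real.sqrt N * m n * (coef N τ χ n).re) θ = (Real.sqrt N : ℂ) *
        ∫ t in (-(1 / 2) : ℝ)..1 / 2, target N τ χ (θ - t) * ker N h t := by
      have e : ∀ t : ℝ, target N τ χ (θ - t) * ker N h t = (h : ℂ)⁻¹ *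
          ∑ p ∈ P, target N τ χ (θ - t) * ee (((p.1 + p.2 : ℕ) : ℝ) * t) := by
        intro t
        rw [ker_expand, ← mul_sum, mul_left_comm]
      simp only [e]
      rw [intervalIntegral.integral_const_mul,
        intervalIntegral.integral_finsetSum (fun p _ =>
          (show Continuous fun x : ℝ => target N τ χ (θ - x) * ee (((p.1 + p.2 : ℕ) : ℝ) * x) from
            (hTc.comp (continuous_const.sub continuous_id)).mul
              (ee_cont.comp (by fun_prop))).intervalIntegrable _ _)]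
      simp only [shift_eq hper]
      rw [← sum_fiberwise_of_maps_to (g := fun p : ℕ × ℕ => p.1 + p.2) (t := range N)
        (by intro p hp; simp [hP] at hp ⊢; omega), trig, mul_sum, mul_sum]
      refine sum_congr rfl fun n _ => ?_
      rw [sum_congr rfl (fun p hp => by rw [(mem_filter.1 hp).2]), sum_const, nsmul_eq_mul, hm]
      push_cast
      rw [hreal]
      ring
    have hb := near_identity (N := N) hμ hL hδ (min_le_left _ _) hh (by linarith) hh1
      (by linarith) hτ hχ hrange θ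
    have hε1 : 2 * δ * C + 2 / (μ * N * δ ^ 2) ≤ ε := by
      have h1 : δ * (4 * C) ≤ ε := (le_div_iff₀ (by positivity)).1 (min_le_right _ _)
      have h2 : 4 / (μ * ε * δ ^ 2) ≤ (N : ℝ) := by
        have : 0 < 4 / μ := by positivity
        linarith
      rw [div_le_iff₀ (by positivity)] at h2
      have h3 : 2 / (μ * N * δ ^ 2) ≤ ε / 2 := by
        rw [div_le_iff₀ (by positivity)]
        linarith
      linarith
    have hd := abs_norm_sub_norm_le
      (trig N (fun n => Real.sqrt N * m n * (coef N τ χ n).re) θ)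
      ((Real.sqrt N : ℂ) * target N τ χ θ)
    rw [norm_mul, Complex.norm_real, Real.norm_eq_abs, abs_of_nonneg (Real.sqrt_nonneg _),
      target_norm, mul_one] at hd
    refine hd.trans ?_
    rw [key, ← mul_sub, norm_mul, Complex.norm_real, Real.norm_eq_abs,
      abs_of_nonneg (Real.sqrt_nonneg _), mul_comm ε]
    exact mul_le_mul_of_nonneg_left (hb.trans hε1) (Real.sqrt_nonneg _)

end Vale.Agent.P110.Flat
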