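import Vale.Agent.P110.Flat.Group
import Vale.Agent.P110.Flat.Path
import Vale.Agent.P110.Flat.Smooth

/-! From a layout to flat real coefficients. -/

namespace Vale.Agent.P110.Flat

open Finset

theorem dot_affine {d : ℕ} (k : Fin d → ℤ) (r : Fin d → ℚ) (β v : Fin d → ℝ) (A B D : ℝ) :
    dot k (fun l => A * (r l : ℝ) + B * β l + D * v l) =
      A * ((∑ l, (k l : ℚ) * r l : ℚ) : ℝ) + B * dot k β + D * dot k v := by
  simp only [dot, Rat.cast_sum, Rat.cast_mul, Rat.cast_intCast, mul_sum, ← sum_add_distrib]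
  exact sum_congr rfl fun l _ => by ring

theorem re_mul_ee (x p : ℝ) : ((x : ℂ) * ee (-p)).re = x * Real.cos (2 * Real.pi * p) := by
  have : ee (-p) = Complex.exp (((-(2 * Real.pi * p) : ℝ) : ℂ) * Complex.I) := by
    rw [ee]; push_cast; ring_nf
  rw [this, Complex.re_ofReal_mul, Complex.exp_ofReal_mul_I_re, Real.cos_neg]

theorem flatReal_of_layout (c : ℝ) (hc : 0 < c) : ∃ η > 0, Layout η → FlatReal c := by
  obtain ⟨Cp, hpath⟩ := exists_path
  obtain ⟨Cg, hCg, hgroup⟩ := group_sum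
  obtain ⟨x, hx, hxc, hx1⟩ : ∃ x : ℝ, 0 < x ∧ x ≤ c ∧ x ≤ 1 :=
    ⟨min c 1, lt_min hc one_pos, min_le_left _ _, min_le_right _ _⟩
  obtain ⟨W, hW⟩ : ∃ W : ℝ, W = x / 100 := ⟨_, rfl⟩
  have hW0 : 0 < W := by rw [hW]; positivity
  obtain ⟨η, hη, hηx, hηC⟩ : ∃ η : ℝ, 0 < η ∧ η ≤ x / 100 ∧
      |Cp| * Real.sqrt ((η + η) / W) ≤ x / 10 := by
    refine ⟨min (x / 100) (W / 2 * (x / (10 * (|Cp| + 1))) ^ 2), lt_min (by positivity) (by positivity),
      min_le_left _ _, ?_⟩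
    have hk : (0 : ℝ) < x / (10 * (|Cp| + 1)) := by positivity
    refine (mul_le_mul_of_nonneg_left (Real.sqrt_le_left hk.le |>.2 ?_) (abs_nonneg _)).trans ?_
    · rw [div_le_iff₀ hW0]
      nlinarith [min_le_right (x / 100) (W / 2 * (x / (10 * (|Cp| + 1))) ^ 2)]
    · rw [mul_div_assoc', div_le_iff₀ (by positivity)]
      nlinarith [abs_nonneg Cp]
  refine ⟨η, hη, fun Y => ?_⟩
  have hE : (0 : ℝ) < Y.E := Nat.cast_pos.2 Y.hE
  set C₁ := Cg * ∑ i, |Y.c i| with hC₁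
  have hC₁0 : 0 ≤ C₁ := mul_nonneg hCg (sum_nonneg fun i _ => abs_nonneg _)
  obtain ⟨R, hR, hR2, hRC⟩ : ∃ R : ℕ, 0 < R ∧ 2 / (R : ℝ) ≤ x / 100 ∧
      2 * Y.E * C₁ * Real.sqrt (2 / R) ≤ x / 10 := by
    obtain ⟨R, hR⟩ := exists_nat_gt (max (200 / x) (2 * (20 * Y.E * (C₁ + 1) / x) ^ 2))
    have hR1 : 200 / x < R := lt_of_le_of_lt (le_max_left _ _) hR
    have hR2 : 2 * (20 * Y.E * (C₁ + 1) / x) ^ 2 < R := lt_of_le_of_lt (le_max_right _ _) hR
    have hR0 : (0 : ℝ) < R := lt_trans (by positivity) hR1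
    refine ⟨R, Nat.cast_pos.1 hR0, ?_, ?_⟩
    · rw [div_le_iff₀ hR0]; rw [div_lt_iff₀ hx] at hR1; linarith
    · have hk : (0 : ℝ) < x / (20 * Y.E * (C₁ + 1)) := by positivity
      refine (mul_le_mul_of_nonneg_left (Real.sqrt_le_left hk.le |>.2 ?_) (by positivity)).trans ?_
      · rw [div_le_iff₀ hR0, div_pow, div_mul_eq_mul_div, le_div_iff₀ (by positivity)]
        rw [div_pow, mul_div_assoc', div_lt_iff₀ (by positivity)] at hR2
        linarith
      · rw [mul_div_assoc', div_le_iff₀ (by positivity)]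
        nlinarith [mul_nonneg hx.le hE.le]
  obtain ⟨havg1, havg2⟩ := avg_bounds hR
  obtain ⟨P, hP⟩ : ∃ P : ℝ, P = 1 - 2 * W - W := ⟨_, rfl⟩
  have hP0 : 1 - 3 * x / 100 ≤ P ∧ 0 < P ∧ P ≤ 1 := by rw [hP, hW]; exact ⟨by linarith, by linarith, by linarith⟩
  have hav0 : 0 < avg R := by linarith
  set α := Real.sqrt ((1 - 2 * η) / (P * avg R)) with hα
  have hα0 : 0 < α := Real.sqrt_pos.2 (div_pos (by linarith) (mul_pos hP0.2.1 hav0))
  have hα1 : α ≤ 1 + x / 20 := by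
    rw [hα, Real.sqrt_le_left (by linarith), div_le_iff₀ (mul_pos hP0.2.1 hav0)]
    have h1 : (1 - 3 * x / 100) * (1 - x / 100) ≤ P * avg R :=
      mul_le_mul hP0.1 (by linarith) (by linarith) hP0.2.1.le
    have h2 := mul_le_mul_of_nonneg_left h1 (sq_nonneg (1 + x / 20))
    nlinarith [mul_le_mul_of_nonneg_left hx1 hx.le, sq_nonneg x, mul_nonneg hx.le (sq_nonneg x),
      mul_le_mul_of_nonneg_left hx1 (sq_nonneg x)]
  have hlen : 0 < P / Y.E := div_pos hP0.2.1 hE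
  set d := η / Y.E with hd
  set S : Fin Y.E → Stair := fun e =>
    mkStair (W + W + (e : ℕ) * (P / Y.E)) (P / Y.E) d α R hR hlen hα0 (by linarith)
  have hS : ∀ e : Fin Y.E, (S e).start = d ∧ (S e).h = α / R ∧
      (S e).t 0 = W + W + (e : ℕ) * (P / Y.E) ∧
      (S e).t (S e).m = W + W + (e : ℕ) * (P / Y.E) + P / Y.E ∧
      (S e).lam ((S e).t (S e).m) = d + α ^ 2 * (P / Y.E) * avg R := fun e => mkStair_spec ..
  have hS' : ∀ e, (S e).start = d ∧ (S e).lam ((S e).t (S e).m) = 1 / Y.E - d ∧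
      W + W ≤ (S e).t 0 ∧ (S e).t (S e).m ≤ 1 - W := fun e => by
    obtain ⟨h1, -, h3, h4, h5⟩ := hS e
    refine ⟨h1, ?_, by rw [h3]; exact le_add_of_nonneg_right (by positivity), ?_⟩
    · rw [h5, hα, Real.sq_sqrt (div_nonneg (by linarith) (mul_pos hP0.2.1 hav0).le), hd]
      have h0 := hP0.2.1.ne'
      field_simp
      ring
    · have he : ((e : ℕ) : ℝ) + 1 ≤ Y.E := by exact_mod_cast e.isLt
      rw [h4]
      have := mul_le_mul_of_nonneg_right he hlen.le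
      rw [mul_div_cancel₀ _ hE.ne'] at this
      linarith
  obtain ⟨L, N₁, hN₁⟩ := hpath Y S W W d (x / 10) hη hW0 hW0 (by positivity) (by positivity) hS'
  obtain ⟨N₂, hN₂⟩ := exists_flat_of_target W L c hW0 hc
  set ε' := x / (20 * ((Y.K : ℝ) * Y.E + 1)) with hε'
  have hεpos : 0 < ε' := by positivity
  choose N₃ hN₃ using fun p : Fin Y.K × Fin Y.E =>
    hgroup (S p.2) (dot (Y.k p.1) Y.v) ε' (Y.hv p.1) hεpos (Y.q p.1) (Y.hq p.1)
      (∑ l, (Y.k p.1 l : ℚ) * Y.r l) (Y.hden p.1)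
  refine ⟨max (max N₁ N₂) (univ.sup N₃), fun N hN => ?_⟩
  simp only [max_le_iff] at hN
  obtain ⟨a, ha⟩ := hN₁ N hN.1.1
  set sgn : Fin Y.K → ℝ := fun i => if 0 ≤ Y.c i then 1 else -1 with hsgn
  have hsc : ∀ i, |sgn i| = 1 ∧
      sgn i * Real.sqrt ((Y.q i : ℝ) * dot (Y.k i) Y.v) = Y.c i := fun i => by
    rw [← Y.hc i, Real.sqrt_sq_eq_abs, hsgn]
    dsimp only
    split_ifs with h
    · simp [abs_of_nonneg h]
    · simp [abs_of_neg (not_le.1 h)]
  choose w hw using fun p : Fin Y.K × Fin Y.E =>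
    hN₃ p N (le_trans (le_sup (mem_univ p)) hN.2) (dot (Y.k p.1) (Y.β p.2)) a (sgn p.1) (hsc p.1).1
  obtain ⟨τ, χ, hτ, hχ, hrange, hper, hconj, hcoef⟩ := ha fun i e => w (i, e)
  obtain ⟨y, hy, hY⟩ := hN₂ N hN.1.2 τ χ hτ hχ hrange hper hconj
  refine ⟨y, fun n hn => (hy n hn).trans ?_, hY⟩
  set u := ((n : ℝ) + a) / N
  set φ : Fin Y.E → Fin Y.d → ℝ := fun e l =>
    (n : ℝ) ^ 2 * (Y.r l : ℝ) + (n : ℝ) * Y.β e l + (N : ℝ) * (S e).prim u * Y.v l
  set f : Fin Y.K → Fin Y.E → ℂ := fun i e =>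
    ((Y.c i * (S e).amp u : ℝ) : ℂ) * ee (-dot (Y.k i) (φ e)) with hf
  set g : Fin Y.K → Fin Y.E → ℂ := fun i e => ∑ b ∈ range (Y.q i),
    ee (w (i, e) b - ((n : ℝ) + a) * ((b : ℝ) / Y.q i + dot (Y.k i) (Y.β e))) *
      (S e).integral (dot (Y.k i) Y.v) N ((n : ℝ) + a) with hg
  have hfg : ∀ i e, ‖g i e - f i e‖ ≤ Cg * |Y.c i| * Real.sqrt (2 / R) + ε' := fun i e => by
    have h := hw (i, e) n
    dsimp only at h
    rw [(hsc i).2, ← Y.hc i, Real.sqrt_sq_eq_abs] at h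
    have e1 : dot (Y.k i) (φ e) =
        ((∑ l, (Y.k i l : ℚ) * Y.r l : ℚ) : ℝ) * (n : ℝ) ^ 2 + (n : ℝ) * dot (Y.k i) (Y.β e) +
          (N : ℝ) * dot (Y.k i) Y.v * (S e).prim u := by
      simp only [φ]; rw [dot_affine]; ring
    simp only [hg, hf, e1]
    refine h.trans (add_le_add (mul_le_mul_of_nonneg_left (Real.sqrt_le_sqrt ?_) (by positivity))
      le_rfl)
    rw [(hS e).2.1]
    gcongr
    linarith
  have hamp : ∀ e, 0 ≤ (S e).amp u ∧ (S e).amp u ≤ α ∧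
      (u < (S e).t 0 ∨ (S e).t (S e).m ≤ u → (S e).amp u = 0) := fun e =>
    Stair.amp_le (S e) hα0.le (fun i _ => mul_le_of_le_one_right hα0.le (shape_le_one R i)) u
  have hsum : ∑ e, (S e).amp u ≤ α := by
    by_cases h : ∃ e, (S e).amp u ≠ 0
    · obtain ⟨e₀, he₀⟩ := h
      rw [sum_eq_single e₀ (fun e _ hne => ?_) (by simp)]
      · exact (hamp e₀).2.1
      by_contra hne'
      have in0 : ∀ e', (S e').amp u ≠ 0 → (S e').t 0 ≤ u ∧ u < (S e').t (S e').m := fun e' he' =>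
        ⟨not_lt.1 fun h => he' ((hamp e').2.2 (Or.inl h)),
          not_le.1 fun h => he' ((hamp e').2.2 (Or.inr h))⟩
      have key : ∀ e₁ e₂ : Fin Y.E, (e₁ : ℕ) < e₂ → (S e₁).amp u ≠ 0 → (S e₂).amp u ≠ 0 → False :=
        fun e₁ e₂ hlt h₁ h₂ => by
          have a₁ := (in0 e₁ h₁).2
          have a₂ := (in0 e₂ h₂).1
          rw [(hS e₁).2.2.2.1] at a₁
          rw [(hS e₂).2.2.1] at a₂
          have : ((e₁ : ℕ) : ℝ) + 1 ≤ ((e₂ : ℕ) : ℝ) := by exact_mod_cast hlt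
          linarith [mul_le_mul_of_nonneg_right this hlen.le]
      rcases lt_trichotomy (e : ℕ) e₀ with h | h | h
      · exact key _ _ h hne' he₀
      · exact hne (Fin.ext h)
      · exact key _ _ h he₀ hne'
    · push Not at h
      simpa [h] using hα0.le
  have hmain : |2 * (∑ i, ∑ e, f i e).re| ≤ (1 + η) * α := by
    have e1 : 2 * (∑ i, ∑ e, f i e).re =
        ∑ e, (S e).amp u * (2 * ∑ i, Y.c i * Real.cos (2 * Real.pi * dot (Y.k i) (φ e))) := by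
      simp only [hf, Complex.re_sum, re_mul_ee, mul_sum]
      rw [sum_comm]
      exact sum_congr rfl fun e _ => sum_congr rfl fun i _ => by ring
    rw [e1]
    refine (abs_sum_le_sum_abs _ _).trans ?_
    calc ∑ e, |(S e).amp u * (2 * ∑ i, Y.c i * Real.cos (2 * Real.pi * dot (Y.k i) (φ e)))|
        ≤ ∑ e, (S e).amp u * (1 + η) := sum_le_sum fun e _ => by
          rw [abs_mul, abs_of_nonneg (hamp e).1]
          exact mul_le_mul_of_nonneg_left (Y.hsup _) (hamp e).1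
      _ ≤ (1 + η) * α := by
          rw [← sum_mul, mul_comm]; exact mul_le_mul_of_nonneg_left hsum (by linarith)
  have herr : |2 * (∑ i, ∑ e, g i e).re - 2 * (∑ i, ∑ e, f i e).re| ≤ x / 10 + x / 10 := by
    rw [← mul_sub, ← Complex.sub_re, abs_mul, abs_two]
    have h1 : ‖(∑ i, ∑ e, g i e) - ∑ i, ∑ e, f i e‖ ≤
        ∑ i, ∑ _e : Fin Y.E, (Cg * |Y.c i| * Real.sqrt (2 / R) + ε') := by
      rw [← sum_sub_distrib]
      refine (norm_sum_le _ _).trans (sum_le_sum fun i _ => ?_)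
      rw [← sum_sub_distrib]
      exact (norm_sum_le _ _).trans (sum_le_sum fun e _ => hfg i e)
    have h2 : ∑ i, ∑ _e : Fin Y.E, (Cg * |Y.c i| * Real.sqrt (2 / R) + ε') =
        Y.E * C₁ * Real.sqrt (2 / R) + Y.K * Y.E * ε' := by
      simp only [sum_const, card_univ, Fintype.card_fin, nsmul_eq_mul, mul_add, sum_add_distrib,
        hC₁, mul_sum, sum_mul]
      congr 1
      · exact sum_congr rfl fun i _ => by ring
      · ring
    have h3 : 2 * ((Y.K : ℝ) * Y.E * ε') ≤ x / 10 := by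
      rw [hε', mul_div_assoc', mul_div_assoc', div_le_iff₀ (by positivity)]
      nlinarith [mul_nonneg hx.le (mul_nonneg (Nat.cast_nonneg (α := ℝ) Y.K) hE.le)]
    have h4 := (Complex.abs_re_le_norm _).trans (h1.trans_eq h2)
    linarith
  have hr := hcoef n
  have htc : ‖tcoef N τ χ n‖ ≤ |2 * (∑ i, ∑ e, g i e).re| +
      (|Cp| * Real.sqrt ((η + η) / W) + x / 10) := by
    refine (norm_le_norm_add_norm_sub' _
      ((2 * (∑ i, ∑ e, g i e).re : ℝ) : ℂ)).trans ?_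
    rw [Complex.norm_real, Real.norm_eq_abs]
    refine add_le_add le_rfl (hr.trans (add_le_add ?_ le_rfl))
    rw [hd, div_mul_cancel₀ _ hE.ne']
    exact mul_le_mul_of_nonneg_right (le_abs_self Cp) (Real.sqrt_nonneg _)
  have hfin : (1 + η) * α ≤ 1 + 7 * x / 100 := by
    refine (mul_le_mul (by linarith : 1 + η ≤ 1 + x / 100) hα1 hα0.le (by linarith)).trans ?_
    nlinarith
  linarith [abs_sub_abs_le_abs_sub (2 * (∑ i, ∑ e, g i e).re) (2 * (∑ i, ∑ e, f i e).re)]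

end Vale.Agent.P110.Flat
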