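import Vale.Agent.P110.Flat.Profile

/-!
The moduli and the rational direction.  With `n i = D a i + 1` (pairwise coprime and coprime to all
small integers) and integer vectors `w i` orthogonal to `k i` but to no other frequency, the
direction `r = ∑ w i / n i` gives `k i · r` the denominator `∏ n j` over `j ≠ i`.
-/

namespace Vale.Agent.P110.Flat

open Finset
open scoped BigOperators

/-- An integer point on which finitely many nonzero linear forms do not vanish. -/
private lemma exists_generic {d : ℕ} {ι : Type*} (s : Finset ι) (w : ι → Fin d → ℤ)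
    (hw : ∀ i ∈ s, w i ≠ 0) : ∃ u : Fin d → ℤ, ∀ i ∈ s, ∑ l, w i l * u l ≠ 0 := by
  classical
  let p : ι → Polynomial ℤ := fun i => ∑ l : Fin d, Polynomial.monomial (l : ℕ) (w i l)
  have hp : ∀ i ∈ s, p i ≠ 0 := by
    intro i hi h
    refine hw i hi (funext fun l => ?_)
    have := congrArg (fun q => Polynomial.coeff q (l : ℕ)) h
    simpa [p, Polynomial.finsetSum_coeff, Polynomial.coeff_monomial, Fin.val_inj] using this
  obtain ⟨t, ht⟩ := Infinite.exists_notMem_finset (s.biUnion fun i => (p i).roots.toFinset)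
  refine ⟨fun l => t ^ (l : ℕ), fun i hi h => ht ?_⟩
  refine mem_biUnion.2 ⟨i, hi, Multiset.mem_toFinset.2 ((Polynomial.mem_roots (hp i hi)).2 ?_)⟩
  simpa [p, Polynomial.IsRoot, Polynomial.eval_finsetSum] using h

/-- The basic vectors of a pairwise independent family. -/
private lemma exists_dirs {d K : ℕ} (k : Fin K → Fin d → ℤ) (hk : ∀ i, k i ≠ 0)
    (hpair : ∀ i j, i ≠ j → ∀ a b : ℤ, (∀ l, a * k i l + b * k j l = 0) → a = 0 ∧ b = 0) :
    ∃ (u : Fin d → ℤ) (w : Fin K → Fin d → ℤ), (∀ i, ∑ l, k i l * u l ≠ 0) ∧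
      ∀ i j, (∑ l, k j l * w i l = 0 ↔ j = i) := by
  classical
  let sq : Fin K → ℤ := fun i => ∑ l, k i l * k i l
  let ip : Fin K → Fin K → ℤ := fun i j => ∑ l, k i l * k j l
  have hsq : ∀ i, sq i ≠ 0 := by
    intro i h
    refine hk i (funext fun l => ?_)
    exact mul_self_eq_zero.1
      ((sum_eq_zero_iff_of_nonneg fun l _ => mul_self_nonneg (k i l)).1 h l (mem_univ l))
  let f : Fin K ⊕ Fin K × Fin K → Fin d → ℤ :=
    Sum.elim k fun p l => sq p.1 * k p.2 l - ip p.1 p.2 * k p.1 l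
  obtain ⟨u, hu⟩ := exists_generic (univ.filter fun x : Fin K ⊕ Fin K × Fin K => f x ≠ 0) f
    fun x hx => (mem_filter.1 hx).2
  refine ⟨u, fun i l => sq i * u l - (∑ l', k i l' * u l') * k i l, fun i => ?_, fun i j => ?_⟩
  · simpa [f] using hu (Sum.inl i) (mem_filter.2 ⟨mem_univ _, by simpa [f] using hk i⟩)
  have e : ∑ l, k j l * (sq i * u l - (∑ l', k i l' * u l') * k i l) =
      ∑ l, f (Sum.inr (i, j)) l * u l := by
    simp only [f, Sum.elim_inr, mul_sub, sub_mul, sum_sub_distrib, ip]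
    congr 1
    · exact sum_congr rfl fun l _ => by ring
    · calc ∑ l, k j l * ((∑ l', k i l' * u l') * k i l)
          = (∑ l, k i l * k j l) * ∑ l', k i l' * u l' := by
            rw [sum_mul]; exact sum_congr rfl fun l _ => by ring
        _ = _ := by rw [mul_sum]; exact sum_congr rfl fun l _ => by ring
  rw [e]
  constructor
  · intro h
    by_contra hji
    refine hu (Sum.inr (i, j)) (mem_filter.2 ⟨mem_univ _, fun h0 => ?_⟩) h
    exact hsq i (hpair j i hji (sq i) (-ip i j) fun l => by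
      have := congrFun h0 l
      simp only [f, Sum.elim_inr, Pi.zero_apply] at this
      linear_combination this).1
  · rintro rfl
    simp [f, sq, ip]

private lemma den_sum {K : ℕ} (z : Fin K → ℤ) (n : Fin K → ℕ) (i : Fin K) (hn : ∀ j, 0 < n j)
    (hz : z i = 0) (hunit : ∀ j, j ≠ i → IsCoprime (z j) (n j : ℤ))
    (hcop : ∀ a b, a ≠ b → Nat.Coprime (n a) (n b)) :
    (∑ j, (z j : ℚ) / n j).den = ∏ j ∈ univ.erase i, n j := by
  classical
  set s := univ.erase i
  set N : ℤ := ∑ j ∈ s, z j * ∏ a ∈ s.erase j, (n a : ℤ) with hN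
  have hQ : ((∏ j ∈ s, n j : ℕ) : ℤ) = ∏ j ∈ s, (n j : ℤ) := by push_cast; rfl
  have hpos : (0 : ℤ) < ∏ j ∈ s, (n j : ℤ) := prod_pos fun j _ => by exact_mod_cast hn j
  have hval : ∑ j, (z j : ℚ) / n j = (N : ℚ) / ((∏ j ∈ s, (n j : ℤ) : ℤ) : ℚ) := by
    rw [← add_sum_erase univ _ (mem_univ i), hz, Int.cast_zero, zero_div, zero_add, hN,
      Int.cast_sum, Finset.sum_div]
    refine sum_congr rfl fun j hj => ?_
    rw [← mul_prod_erase s (fun a => (n a : ℤ)) hj]
    push_cast
    have : (n j : ℚ) ≠ 0 := by exact_mod_cast (hn j).ne'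
    have h2 : (∏ a ∈ s.erase j, (n a : ℚ)) ≠ 0 :=
      prod_ne_zero_iff.2 fun a _ => by exact_mod_cast (hn a).ne'
    field_simp
  have hco : IsCoprime N (∏ j ∈ s, (n j : ℤ)) := by
    refine IsCoprime.prod_right fun j hj => ?_
    have hsplit : N = z j * ∏ a ∈ s.erase j, (n a : ℤ) + (n j : ℤ) *
        ∑ b ∈ s.erase j, z b * ∏ a ∈ (s.erase b).erase j, (n a : ℤ) := by
      rw [hN, ← add_sum_erase s _ hj, mul_sum]
      refine congrArg _ (sum_congr rfl fun b hb => ?_)
      rw [← mul_prod_erase (s.erase b) (fun a => (n a : ℤ))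
        (mem_erase.2 ⟨(mem_erase.1 hb).1.symm, hj⟩)]
      ring
    rw [hsplit, IsCoprime.add_mul_left_left_iff]
    refine (hunit j (mem_erase.1 hj).1).mul_left (IsCoprime.prod_left fun a ha => ?_)
    exact Int.isCoprime_iff_gcd_eq_one.2 (by simpa using hcop a j (mem_erase.1 ha).1)
  have := Rat.den_div_eq_of_coprime hpos (Int.isCoprime_iff_nat_coprime.1 hco)
  rw [← hval, ← hQ] at this
  exact_mod_cast this

set_option maxHeartbeats 2000000 in
theorem exists_arith (η : ℝ) (hη : 0 < η) : Nonempty (Arith η) := by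
  classical
  set η₁ := min η (1 / 10) / 4 with hη₁
  have hη₁pos : 0 < η₁ := by have := lt_min hη (by norm_num : (0:ℝ) < 1 / 10); positivity
  have h4 : 4 * η₁ ≤ η ∧ 4 * η₁ ≤ 1 / 10 :=
    ⟨by linarith [min_le_left η (1 / 10 : ℝ)], by linarith [min_le_right η (1 / 10 : ℝ)]⟩
  obtain ⟨P⟩ := exists_profile η₁ hη₁pos
  set S := 2 * ∑ i, P.c i ^ 2 with hS
  set C := 2 * ∑ i, |P.c i| with hC
  have hC0 : 0 ≤ C := by positivity
  -- at least two frequencies
  have hK : 2 ≤ P.K := by
    by_contra hc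
    have hlow := P.hlow
    have hsup := P.hsup 0
    simp only [dot, Pi.zero_apply, mul_zero, sum_const_zero, Real.cos_zero, mul_one] at hsup
    have hle : ∑ i, P.c i ^ 2 = (∑ i, P.c i) ^ 2 := by
      rcases (by omega : P.K = 0 ∨ P.K = 1) with h | h
      · have : IsEmpty (Fin P.K) := by rw [h]; infer_instance
        simp
      · let i₀ : Fin P.K := ⟨0, by omega⟩
        have : ∀ i : Fin P.K, i = i₀ := fun i => Fin.ext (by have := i.2; simp only [i₀]; omega)
        rw [sum_eq_single i₀ (fun b _ hb => absurd (this b) hb) (by simp),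
          sum_eq_single i₀ (fun b _ hb => absurd (this b) hb) (by simp)]
    nlinarith [sq_abs (2 * ∑ i, P.c i), abs_nonneg (2 * ∑ i, P.c i)]
  obtain ⟨u, w, hu, hw⟩ := exists_dirs P.k P.hk P.hpair
  -- orientation
  let σ : Fin P.K → ℤ := fun i => Int.sign (∑ l, P.k i l * u l)
  have hσ : ∀ i, σ i = 1 ∨ σ i = -1 := fun i => by
    rcases lt_or_gt_of_ne (hu i) with h | h
    · exact Or.inr (Int.sign_eq_neg_one_of_neg h)
    · exact Or.inl (Int.sign_eq_one_of_pos h)
  let k : Fin P.K → Fin P.d → ℤ := fun i l => σ i * P.k i l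
  let s : Fin P.K → ℤ := fun i => ∑ l, k i l * u l
  have hkσ : ∀ (i : Fin P.K) (x : Fin P.d → ℤ), ∑ l, k i l * x l = σ i * ∑ l, P.k i l * x l :=
    fun i x => by rw [mul_sum]; exact sum_congr rfl fun l _ => mul_assoc _ _ _
  have hs : ∀ i, 0 < s i := fun i => by
    simp only [s, hkσ, σ]
    rw [Int.sign_mul_self_eq_abs]
    exact abs_pos.2 (hu i)
  let z : Fin P.K → Fin P.K → ℤ := fun i j => ∑ l, k i l * w j l
  have hz : ∀ i j, z i j = 0 ↔ i = j := fun i j => by
    simp only [z, hkσ]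
    rcases hσ i with h | h <;> simp [h, hw j i]
  -- the moduli
  let t : Fin P.K → ℝ := fun i => (s i : ℝ) / P.c i ^ 2
  have ht : ∀ i, 0 < t i := fun i =>
    div_pos (by exact_mod_cast hs i) (pow_two_pos_of_ne_zero (P.hc i))
  set ε := η₁ / (C + 1) with hε
  have hε0 : 0 < ε := by positivity
  obtain ⟨X, hX⟩ : ∃ X : ℕ, ∀ i, 3 / (t i * ε) ≤ (X : ℝ) :=
    ⟨⌈∑ i, 3 / (t i * ε)⌉₊, fun i => le_trans
      (single_le_sum (f := fun i => 3 / (t i * ε))
        (fun j _ => by have := ht j; positivity) (mem_univ i))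
      (Nat.le_ceil _)⟩
  let a : Fin P.K → ℕ := fun i => P.K * ⌈(X : ℝ) * t i⌉₊ + (i : ℕ) + 1
  have ha : ∀ i j, a i = a j → i = j := by
    intro i j h
    simp only [a] at h
    have := congrArg (· % P.K) (by omega : P.K * ⌈(X : ℝ) * t i⌉₊ + (i : ℕ) =
      P.K * ⌈(X : ℝ) * t j⌉₊ + (j : ℕ))
    simp only [Nat.mul_add_mod, Nat.mod_eq_of_lt i.2, Nat.mod_eq_of_lt j.2] at this
    exact Fin.ext this
  set B : ℕ := ∑ i, (a i + (s i).natAbs) + ∑ p : Fin P.K × Fin P.K, (z p.1 p.2).natAbs with hB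
  let D : ℕ := 2 * B.factorial
  let n : Fin P.K → ℕ := fun i => D * a i + 1
  have hn0 : ∀ i, 0 < n i := fun i => Nat.succ_pos _
  have small : ∀ (i : Fin P.K) (x : ℤ), x ≠ 0 → x.natAbs ≤ B → IsCoprime x (n i : ℤ) := by
    intro i x hx hxB
    have hd : x ∣ (D : ℤ) := by
      rw [← Int.natAbs_dvd_natAbs, Int.natAbs_natCast]
      exact (Nat.dvd_factorial (Int.natAbs_pos.2 hx) hxB).mul_left 2
    obtain ⟨q, hq⟩ := hd
    refine ⟨-(q * a i), 1, ?_⟩
    simp only [n]; push_cast; rw [hq]; ring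
  have hsB : ∀ i, (s i).natAbs ≤ B ∧ a i ≤ B := fun i => by
    have := single_le_sum (f := fun i => a i + (s i).natAbs) (fun j _ => Nat.zero_le _) (mem_univ i)
    constructor <;> omega
  have hzB : ∀ i j, (z i j).natAbs ≤ B := fun i j => by
    have := single_le_sum (f := fun p : Fin P.K × Fin P.K => (z p.1 p.2).natAbs)
      (fun q _ => Nat.zero_le _) (mem_univ (i, j))
    simp only at this; omega
  have hcop : ∀ i j, i ≠ j → Nat.Coprime (n i) (n j) := by
    intro i j hij
    suffices IsCoprime (n i : ℤ) (n j : ℤ) by simpa [Int.isCoprime_iff_nat_coprime] using this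
    have hx : ((a i : ℤ) - a j) ≠ 0 := sub_ne_zero.2 (by exact_mod_cast fun h => hij (ha i j h))
    have hxB : ((a i : ℤ) - a j).natAbs ≤ B := by
      have := (hsB i).2; have := (hsB j).2; omega
    have hD : IsCoprime (D : ℤ) (n j : ℤ) := ⟨-(a j : ℤ), 1, by simp only [n]; push_cast; ring⟩
    have hm := hD.mul_left (small j _ hx hxB)
    have hadd := hm.add_mul_left_left 1
    rw [mul_one] at hadd
    have e : (n i : ℤ) = (D : ℤ) * ((a i : ℤ) - a j) + (n j : ℤ) := by
      simp only [n]; push_cast; ring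
    rw [e]; exact hadd
  let Pn := ∏ i, n i
  let q : Fin P.K → ℕ := fun i => ∏ j ∈ univ.erase i, n j
  have hqP : ∀ i, q i * n i = Pn := fun i => by
    simp only [q, Pn]; rw [prod_erase_mul _ _ (mem_univ i)]
  -- the scale
  let r : Fin P.d → ℚ := fun l => ∑ j, (w j l : ℚ) / n j
  let ρ : Fin P.K → ℝ := fun i => (n i : ℝ) / ((D : ℝ) * P.K * X * t i)
  have hKpos : (0 : ℝ) < P.K := by exact_mod_cast (show 0 < P.K by omega)
  have hD1 : (1 : ℝ) ≤ D := by
    exact_mod_cast (show 1 ≤ D from Nat.mul_pos two_pos B.factorial_pos)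
  have hXt : ∀ i, 3 ≤ ε * ((X : ℝ) * t i) := fun i => by
    have := hX i; rw [div_le_iff₀ (by have := ht i; positivity)] at this; linarith
  have hXpos : (0 : ℝ) < X := lt_of_lt_of_le
    (by have := ht ⟨0, by omega⟩; positivity) (hX ⟨0, by omega⟩)
  have hρ : ∀ i, 1 ≤ ρ i ∧ ρ i ≤ 1 + ε := fun i => by
    have h0 := ht i
    have hden : 0 < (D : ℝ) * P.K * X * t i := by positivity
    have c1 := Nat.le_ceil ((X : ℝ) * t i)
    have c2 := (Nat.ceil_lt_add_one (by positivity : 0 ≤ (X : ℝ) * t i)).le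
    have hi : ((i : ℕ) : ℝ) + 1 ≤ P.K := by exact_mod_cast i.2
    have en : (n i : ℝ) = D * (P.K * (⌈(X : ℝ) * t i⌉₊ : ℝ) + (i : ℕ) + 1) + 1 := by
      simp only [n, a]; push_cast; ring
    have hK1 : (1 : ℝ) ≤ P.K := by exact_mod_cast (show 1 ≤ P.K by omega)
    constructor
    · rw [le_div_iff₀ hden, one_mul, en]
      nlinarith [mul_le_mul_of_nonneg_left c1 (by positivity : 0 ≤ (D : ℝ) * P.K)]
    · rw [div_le_iff₀ hden, en]
      nlinarith [mul_le_mul_of_nonneg_left c2 (by positivity : 0 ≤ (D : ℝ) * P.K),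
        mul_le_mul_of_nonneg_left hi (by positivity : 0 ≤ (D : ℝ)),
        mul_le_mul_of_nonneg_left (hXt i) (by positivity : 0 ≤ (D : ℝ) * P.K),
        mul_le_mul hD1 hK1 zero_le_one (by positivity)]
  set lam := 1 / Real.sqrt (max S 1) with hlam
  have hM : 0 < max S 1 := lt_max_of_lt_right one_pos
  have hlam0 : 0 < lam := by positivity
  have hlam1 : lam ≤ 1 := by
    rw [hlam, div_le_one (Real.sqrt_pos.2 hM)]
    exact Real.one_le_sqrt.2 (le_max_right _ _)
  have hlam2 : lam ^ 2 = 1 / max S 1 := by rw [hlam, div_pow, one_pow, Real.sq_sqrt hM.le]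
  let c : Fin P.K → ℝ := fun i => lam * P.c i / Real.sqrt (ρ i)
  have hc2 : ∀ i, c i ^ 2 = lam ^ 2 * P.c i ^ 2 / ρ i := fun i => by
    simp only [c]; rw [div_pow, Real.sq_sqrt (by linarith [(hρ i).1]), mul_pow]
  let v : Fin P.d → ℝ := fun l => lam ^ 2 * (D * P.K * X) / Pn * u l
  have hPn : (0 : ℝ) < (Pn : ℝ) := by exact_mod_cast prod_pos fun i _ => hn0 i
  have hkv : ∀ i, dot (k i) v = lam ^ 2 * (D * P.K * X) / Pn * s i := fun i => by
    simp only [dot, v, s]; push_cast; rw [mul_sum]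
    exact sum_congr rfl fun l _ => by ring
  exact ⟨{
    d := P.d
    K := P.K
    hK := hK
    k := k
    c := c
    n := n
    P := Pn
    q := q
    r := r
    v := v
    hpair := fun i j hij x y h => by
      have hp := P.hpair i j hij (x * σ i) (y * σ j) fun l => by
        have := h l; simp only [k] at this; linear_combination this
      rcases hσ i with h1 | h1 <;> rcases hσ j with h2 | h2 <;>
        simp only [h1, h2, mul_one, mul_neg, neg_eq_zero] at hp <;> exact hp
    hn := fun i => ⟨⟨B.factorial * a i, by simp only [n, D]; ring⟩,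
      Nat.lt_add_of_pos_left (Nat.mul_pos (Nat.mul_pos two_pos B.factorial_pos) (Nat.succ_pos _))⟩
    hcop := hcop
    hP := rfl
    hqP := hqP
    hsurj := fun i => by
      obtain ⟨x, y, hxy⟩ := small i (s i) (hs i).ne' (hsB i).1
      refine ⟨fun l => x * u l, ?_⟩
      have e : ∑ l, k i l * (x * u l) = x * s i := by
        simp only [s]; rw [mul_sum]; exact sum_congr rfl fun l _ => by ring
      rw [e, show x * s i = 1 - y * (n i : ℤ) by linarith]
      push_cast; simp
    hden := fun i => by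
      have e : ∑ l, (k i l : ℚ) * r l = ∑ j, ((z i j : ℤ) : ℚ) / n j := by
        simp only [r, z, mul_sum]
        rw [sum_comm]
        refine sum_congr rfl fun j _ => ?_
        push_cast; rw [sum_div]
        exact sum_congr rfl fun l _ => by ring
      rw [e]
      exact den_sum (fun j => z i j) n i hn0 ((hz i i).2 rfl)
        (fun j hj => small j _ (fun h => hj ((hz i j).1 h).symm) (hzB i j)) hcop
    hv := fun i => by
      rw [hkv]
      have := hs i
      positivity
    hc := fun i => by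
      have hqr : (q i : ℝ) * n i = Pn := by exact_mod_cast hqP i
      have hn' : (n i : ℝ) ≠ 0 := by exact_mod_cast (hn0 i).ne'
      have hs' : (s i : ℝ) ≠ 0 := by exact_mod_cast (hs i).ne'
      rw [hc2, hkv]
      simp only [ρ, t]
      have := P.hc i
      field_simp
      linear_combination -hqr
    hlow := by
      have h1 : lam ^ 2 * (∑ i, P.c i ^ 2) / (1 + ε) ≤ ∑ i, c i ^ 2 := by
        rw [mul_sum, sum_div]
        refine sum_le_sum fun i _ => ?_
        rw [hc2]
        exact div_le_div_of_nonneg_left (by positivity) (by linarith [(hρ i).1]) (hρ i).2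
      have h2 : 1 - η₁ ≤ lam ^ 2 * S := by
        rw [hlam2, one_div_mul_eq_div, le_div_iff₀ hM]
        rcases le_total S 1 with h | h
        · rw [max_eq_right h]; linarith [P.hlow]
        · rw [max_eq_left h]; nlinarith
      have hε1 : ε ≤ η₁ := by rw [hε]; exact div_le_self hη₁pos.le (by linarith)
      have h3 : 1 - η ≤ (1 - η₁) / (1 + ε) := by
        rw [le_div_iff₀ (by linarith)]
        nlinarith
      calc 1 - η ≤ (1 - η₁) / (1 + ε) := h3
        _ ≤ lam ^ 2 * S / (1 + ε) := div_le_div_of_nonneg_right h2 (by linarith)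
        _ = 2 * (lam ^ 2 * (∑ i, P.c i ^ 2) / (1 + ε)) := by rw [hS]; ring
        _ ≤ _ := by linarith
    hupp := by
      have h1 : ∑ i, c i ^ 2 ≤ lam ^ 2 * ∑ i, P.c i ^ 2 := by
        rw [mul_sum]
        refine sum_le_sum fun i _ => ?_
        rw [hc2]
        exact div_le_self (by positivity) (hρ i).1
      calc 2 * ∑ i, c i ^ 2 ≤ lam ^ 2 * S := by rw [hS]; linarith
        _ ≤ 1 := by rw [hlam2, one_div_mul_eq_div, div_le_one hM]; exact le_max_left _ _
    hsup := fun φ => by
      have hcos : ∀ i, Real.cos (2 * Real.pi * dot (k i) φ) =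
          Real.cos (2 * Real.pi * dot (P.k i) φ) := fun i => by
        have : dot (k i) φ = (σ i : ℝ) * dot (P.k i) φ := by
          simp only [dot, k, mul_sum]
          exact sum_congr rfl fun l _ => by push_cast; ring
        rw [this]
        rcases hσ i with h | h <;> simp [h, Real.cos_neg]
      have hd : ∀ i, |c i - lam * P.c i| ≤ ε * |P.c i| := fun i => by
        have h1 := Real.one_le_sqrt.2 (hρ i).1
        have h2 : Real.sqrt (ρ i) ≤ 1 + ε :=
          (Real.sqrt_le_iff.2 ⟨by linarith, by nlinarith [(hρ i).2]⟩)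
        have hpos : 0 < Real.sqrt (ρ i) := by linarith
        have e : c i - lam * P.c i = lam * P.c i * ((1 - Real.sqrt (ρ i)) / Real.sqrt (ρ i)) := by
          simp only [c]; field_simp
        rw [e, abs_mul, abs_mul, abs_of_pos hlam0]
        have h3 : |(1 - Real.sqrt (ρ i)) / Real.sqrt (ρ i)| ≤ ε := by
          rw [abs_div, abs_of_pos hpos, div_le_iff₀ hpos, abs_of_nonpos (by linarith)]
          nlinarith
        calc lam * |P.c i| * _ ≤ 1 * |P.c i| * ε :=
              mul_le_mul (mul_le_mul_of_nonneg_right hlam1 (abs_nonneg _)) h3 (abs_nonneg _)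
                (by positivity)
          _ = _ := by ring
      set F := ∑ i, P.c i * Real.cos (2 * Real.pi * dot (P.k i) φ) with hF
      have hsum : |∑ i, c i * Real.cos (2 * Real.pi * dot (k i) φ) - lam * F| ≤
          ε * ∑ i, |P.c i| := by
        rw [hF, mul_sum, mul_sum, ← sum_sub_distrib]
        refine (abs_sum_le_sum_abs _ _).trans (sum_le_sum fun i _ => ?_)
        rw [hcos i, show c i * Real.cos (2 * Real.pi * dot (P.k i) φ) -
          lam * (P.c i * Real.cos (2 * Real.pi * dot (P.k i) φ)) =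
          (c i - lam * P.c i) * Real.cos (2 * Real.pi * dot (P.k i) φ) by ring, abs_mul]
        exact le_trans (mul_le_of_le_one_right (abs_nonneg _) (Real.abs_cos_le_one _)) (hd i)
      have h1 : |lam * (2 * F)| ≤ 1 + η₁ := by
        rw [abs_mul, abs_of_pos hlam0]
        nlinarith [P.hsup φ, abs_nonneg (2 * F)]
      have h2 : ε * C ≤ η₁ := by
        rw [hε, div_mul_eq_mul_div, div_le_iff₀ (by linarith)]; nlinarith
      rw [abs_le] at hsum h1 ⊢
      constructor <;> nlinarith }⟩

end Vale.Agent.P110.Flat
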