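import Mathlib

/-!
Ultraflat real Littlewood polynomials: shared definitions and the interfaces between the parts.
See `scratch/P110/PROOF.md` on the branch of helper28 for the argument.
-/

namespace Vale.Agent.P110.Flat

open Finset
open scoped BigOperators

/-- `exp (2 π i x)`. -/
noncomputable def ee (x : ℝ) : ℂ := Complex.exp (2 * Real.pi * x * Complex.I)

/-- The trigonometric sum with coefficients `y` on `{0, ..., N-1}`. -/
noncomputable def trig (N : ℕ) (y : ℕ → ℝ) (θ : ℝ) : ℂ :=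
  ∑ n ∈ range N, (y n : ℂ) * ee (n * θ)

/-- Real coefficients bounded by `1 + c` whose trigonometric sum is flat up to `c`. -/
def FlatReal (c : ℝ) : Prop :=
  ∃ N₀ : ℕ, ∀ N, N₀ ≤ N → ∃ y : ℕ → ℝ, (∀ n, n < N → |y n| ≤ 1 + c) ∧
    ∀ θ : ℝ, |‖trig N y θ‖ - Real.sqrt N| ≤ c * Real.sqrt N

/-- The pairing of an integer frequency vector with a point. -/
def dot {d : ℕ} (k : Fin d → ℤ) (φ : Fin d → ℝ) : ℝ := ∑ i, (k i : ℝ) * φ i

/-- A bounded real profile with mean square near one and pairwise independent frequencies. -/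
structure Profile (η : ℝ) where
  d : ℕ
  K : ℕ
  k : Fin K → Fin d → ℤ
  c : Fin K → ℝ
  hk : ∀ i, k i ≠ 0
  hpair : ∀ i j, i ≠ j → ∀ a b : ℤ, (∀ l, a * k i l + b * k j l = 0) → a = 0 ∧ b = 0
  hc : ∀ i, c i ≠ 0
  hlow : 1 - η ≤ 2 * ∑ i, c i ^ 2
  hsup : ∀ φ : Fin d → ℝ, |2 * ∑ i, c i * Real.cos (2 * Real.pi * dot (k i) φ)| ≤ 1 + η

/-- The disjoint frequency intervals swept by the pieces. `σ` false is the mirror image. -/
structure Layout (η : ℝ) where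
  d : ℕ
  K : ℕ
  E : ℕ
  hE : 0 < E
  k : Fin K → Fin d → ℤ
  c : Fin K → ℝ
  r : Fin d → ℚ
  q : Fin K → ℕ
  v : Fin d → ℝ
  β : Fin E → Fin d → ℝ
  hq : ∀ i, Odd (q i)
  hden : ∀ i, (∑ l, (k i l : ℚ) * r l).den = q i
  hv : ∀ i, 0 < dot (k i) v
  hc : ∀ i, c i ^ 2 = (q i : ℝ) * dot (k i) v
  hlow : 1 - η ≤ 2 * ∑ i, c i ^ 2
  hsup : ∀ φ : Fin d → ℝ, |2 * ∑ i, c i * Real.cos (2 * Real.pi * dot (k i) φ)| ≤ 1 + η
  hdisj : ∀ i i' e e' (b b' : ℕ) (σ σ' : Bool), b < q i → b' < q i' →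
    (σ, i, e, b) ≠ (σ', i', e', b') →
    ∀ x ∈ Set.Ioo (0 : ℝ) (dot (k i) v / E), ∀ x' ∈ Set.Ioo (0 : ℝ) (dot (k i') v / E), ∀ z : ℤ,
      (if σ then (1 : ℝ) else -1) * ((b : ℝ) / q i + dot (k i) (β e) + x) -
        (if σ' then (1 : ℝ) else -1) * ((b' : ℝ) / q i' + dot (k i') (β e') + x') ≠ z

/-- An almost regular hypergraph in the sense of the matching lemma: a finite family of edges, each
choosing one vertex in each of `K` classes (repetitions allowed). -/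
structure NearlyRegular {K : ℕ} {α ι : Type} [DecidableEq α] [Fintype ι] (V : Fin K → Finset α)
    (H : ι → Fin K → α) (n : ℕ) (D η : ℝ) : Prop where
  hmem : ∀ e i, H e i ∈ V i
  hcard : ∀ i, |((V i).card : ℝ) - n| ≤ η * n
  hdeg : ∀ i, ∑ x ∈ V i, |((univ.filter fun e => H e i = x).card : ℝ) - D| ≤ η * D * n
  hcodeg : ∀ i j, i ≠ j → ∀ x y,
    ((univ.filter fun e => H e i = x ∧ H e j = y).card : ℝ) ≤ η * D

/-- The arithmetic of a profile: pairwise coprime moduli `n i`, a rational direction `r` with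
denominators `q i = P / n i`, and a speed `v` with `c i ^ 2 = q i * (k i · v)`. -/
structure Arith (η : ℝ) where
  d : ℕ
  K : ℕ
  hK : 2 ≤ K
  k : Fin K → Fin d → ℤ
  c : Fin K → ℝ
  n : Fin K → ℕ
  P : ℕ
  q : Fin K → ℕ
  r : Fin d → ℚ
  v : Fin d → ℝ
  hpair : ∀ i j, i ≠ j → ∀ a b : ℤ, (∀ l, a * k i l + b * k j l = 0) → a = 0 ∧ b = 0
  hn : ∀ i, Odd (n i) ∧ 1 < n i
  hcop : ∀ i j, i ≠ j → Nat.Coprime (n i) (n j)
  hP : P = ∏ i, n i
  hqP : ∀ i, q i * n i = P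
  hsurj : ∀ i, ∃ u : Fin d → ℤ, ((∑ l, k i l * u l : ℤ) : ZMod (n i)) = 1
  hden : ∀ i, (∑ l, (k i l : ℚ) * r l).den = q i
  hv : ∀ i, 0 < dot (k i) v
  hc : ∀ i, c i ^ 2 = (q i : ℝ) * dot (k i) v
  hlow : 1 - η ≤ 2 * ∑ i, c i ^ 2
  hupp : 2 * ∑ i, c i ^ 2 ≤ 1
  hsup : ∀ φ : Fin d → ℝ, |2 * ∑ i, c i * Real.cos (2 * Real.pi * dot (k i) φ)| ≤ 1 + η

/-- The vertices of class `i`: residues modulo `n i * G` over the starts in the cell. -/
def verts {η : ℝ} (A : Arith η) (G : ℕ) (S : Fin A.K → Finset ℕ) (i : Fin A.K) : Finset ℕ :=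
  (range (A.n i * G)).filter fun x => x % G ∈ S i

/-- The vertex of class `i` hit by the shift `j`. -/
def hit {η : ℝ} (A : Arith η) (G : ℕ) (j : Fin A.d → Fin (A.P * G)) (i : Fin A.K) : ℕ :=
  ((∑ l, A.k i l * ((j l : ℕ) : ℤ)) % ((A.n i * G : ℕ) : ℤ)).toNat

/-- Random zones, realised: starts of blocks in a cell with `G` units, exclusive between the classes
and their mirror images, such that the shifts hitting starts in every class form a nearly regular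
hypergraph. -/
structure Zones {η : ℝ} (A : Arith η) (γ η' D₀ : ℝ) where
  G : ℕ
  hG : 0 < G
  hPG : Nat.Coprime A.P G
  L : Fin A.K → ℕ
  S : Fin A.K → Finset ℕ
  hS : ∀ i, ∀ y ∈ S i, y < G
  hL : ∀ i, L i ≤ G
  hdisj : ∀ i i', ∀ y ∈ S i, ∀ y' ∈ S i', ∀ σ σ' : Bool, (σ, i, y) ≠ (σ', i', y') →
    ∀ x ∈ Set.Ioo (0 : ℝ) (L i), ∀ x' ∈ Set.Ioo (0 : ℝ) (L i'), ∀ z : ℤ,
      (if σ then (1 : ℝ) else -1) * ((y : ℝ) + x) -
        (if σ' then (1 : ℝ) else -1) * ((y' : ℝ) + x') ≠ (z : ℝ) * G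
  num : ℕ
  hnum : 0 < num
  hlen : ∀ i, (1 - γ) * (A.c i ^ 2 * (A.n i : ℝ) * G) ≤ (num : ℝ) * L i
  D : ℝ
  hD : D₀ ≤ D
  hreg : NearlyRegular (ι := {j : Fin A.d → Fin (A.P * G) // ∀ i, hit A G j i % G ∈ S i})
    (verts A G S) (fun j => hit A G j.1) num D η'

end Vale.Agent.P110.Flat
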