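import Vale.Agent.P110.Flat.Defs

/-!
Fresnel integrals: uniform bounds, the full value, tails, and integrals of quadratic phases.
-/

namespace Vale.Agent.P110.Flat

open MeasureTheory Filter Topology intervalIntegral

theorem norm_ee (x : ℝ) : ‖ee x‖ = 1 := by
  rw [ee, Complex.norm_exp]
  simp

theorem continuous_ee : Continuous ee := by
  unfold ee
  fun_prop

theorem ee_add (x y : ℝ) : ee (x + y) = ee x * ee y := by
  rw [ee, ee, ee, ← Complex.exp_add]
  congr 1
  push_cast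
  ring

theorem norm_gauss_le_one {β : ℂ} (hβ : 0 ≤ β.re) (x : ℝ) :
    ‖Complex.exp (-β * (x : ℂ) ^ 2)‖ ≤ 1 := by
  rw [Complex.norm_exp, Real.exp_le_one_iff, ← Complex.ofReal_pow]
  simp only [Complex.mul_re, Complex.neg_re, Complex.neg_im, Complex.ofReal_re, Complex.ofReal_im]
  nlinarith [sq_nonneg x, mul_nonneg hβ (sq_nonneg x)]

theorem continuous_gauss (β : ℂ) : Continuous fun x : ℝ => Complex.exp (-β * (x : ℂ) ^ 2) := by
  fun_prop

theorem gauss_integral_far {β : ℂ} (hβ : 0 ≤ β.re) (hβ0 : β ≠ 0) {a b : ℝ} (ha : 0 < a)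
    (hab : a ≤ b) : ‖∫ x in a..b, Complex.exp (-β * (x : ℂ) ^ 2)‖ ≤ 1 / (‖β‖ * a) := by
  have hpos : ∀ x ∈ Set.uIcc a b, (0 : ℝ) < x := fun x hx => by
    rw [Set.uIcc_of_le hab] at hx; linarith [hx.1]
  set g : ℝ → ℂ := fun x => Complex.exp (-β * (x : ℂ) ^ 2) * (-2 * β * (x : ℂ))⁻¹ with hg
  set k : ℝ → ℂ := fun x => Complex.exp (-β * (x : ℂ) ^ 2) * (2 * β * (x : ℂ) ^ 2)⁻¹ with hk
  have hd : ∀ x ∈ Set.uIcc a b,
      HasDerivAt g (Complex.exp (-β * (x : ℂ) ^ 2) + k x) x := by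
    intro x hx
    have hx0 : (x : ℂ) ≠ 0 := by exact_mod_cast (hpos x hx).ne'
    have h1 : HasDerivAt (fun z : ℝ => (z : ℂ)) 1 x := by
      simpa using (hasDerivAt_id x).ofReal_comp
    have h2 := ((h1.fun_pow 2).const_mul (-β)).cexp.fun_mul
      ((h1.const_mul (-2 * β)).fun_inv (by simp [hβ0, hx0]))
    refine h2.congr_deriv ?_
    simp only [hk]
    field_simp
    ring
  have hkc : ContinuousOn k (Set.uIcc a b) := by
    refine (continuous_gauss β).continuousOn.mul (ContinuousOn.inv₀ (by fun_prop) fun x hx => ?_)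
    have hx0 : (x : ℂ) ≠ 0 := by exact_mod_cast (hpos x hx).ne'
    simp [hβ0, hx0]
  have key := integral_eq_sub_of_hasDerivAt hd
    (((continuous_gauss β).continuousOn.add hkc).intervalIntegrable)
  rw [integral_add ((continuous_gauss β).intervalIntegrable _ _) hkc.intervalIntegrable] at key
  have hb : 0 < b := lt_of_lt_of_le ha hab
  have hn : 0 < ‖β‖ := norm_pos_iff.2 hβ0
  have gb : ∀ x : ℝ, 0 < x → ‖g x‖ ≤ 1 / (2 * ‖β‖ * x) := fun x hx => by
    simp only [hg, norm_mul, norm_inv, norm_neg, Complex.norm_real, Real.norm_eq_abs,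
      Complex.norm_ofNat, abs_of_pos hx]
    rw [one_div]
    exact mul_le_of_le_one_left (by positivity) (norm_gauss_le_one hβ x)
  have kb : ‖∫ x in a..b, k x‖ ≤ ∫ x in a..b, (2 * ‖β‖)⁻¹ * (x ^ 2)⁻¹ := by
    have hc : ContinuousOn (fun x : ℝ => (2 * ‖β‖)⁻¹ * (x ^ 2)⁻¹) (Set.uIcc a b) :=
      continuousOn_const.mul (ContinuousOn.inv₀ (by fun_prop) fun x hx =>
        pow_ne_zero _ (hpos x hx).ne')
    refine norm_integral_le_of_norm_le hab ?_ hc.intervalIntegrable
    refine Eventually.of_forall fun x hx => ?_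
    simp only [hk, norm_mul, norm_inv, norm_pow, Complex.norm_real, Real.norm_eq_abs,
      Complex.norm_ofNat, sq_abs]
    refine (mul_le_of_le_one_left (by positivity) (norm_gauss_le_one hβ x)).trans (le_of_eq ?_)
    rw [mul_inv]
  have ki : ∫ x in a..b, (2 * ‖β‖)⁻¹ * (x ^ 2)⁻¹ = (2 * ‖β‖)⁻¹ * (1 / a - 1 / b) := by
    rw [intervalIntegral.integral_const_mul]
    congr 1
    have hd' : ∀ x ∈ Set.uIcc a b, HasDerivAt (fun x : ℝ => -x⁻¹) (x ^ 2)⁻¹ x := fun x hx => by
      simpa using (hasDerivAt_inv (hpos x hx).ne').fun_neg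
    rw [integral_eq_sub_of_hasDerivAt hd' ((ContinuousOn.inv₀ (by fun_prop) fun x hx =>
      pow_ne_zero _ (hpos x hx).ne').intervalIntegrable)]
    ring
  have := gb a ha
  have := gb b hb
  have e : ∫ x in a..b, Complex.exp (-β * (x : ℂ) ^ 2) = g b - g a - ∫ x in a..b, k x := by
    linear_combination key
  rw [e]
  refine ((norm_sub_le _ _).trans (add_le_add (norm_sub_le _ _) (kb.trans_eq ki))).trans ?_
  have : (1 : ℝ) / (‖β‖ * a) =
      1 / (2 * ‖β‖ * b) + 1 / (2 * ‖β‖ * a) + (2 * ‖β‖)⁻¹ * (1 / a - 1 / b) := by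
    field_simp
    ring
  linarith

/-- The parameter of the Fresnel integral: `exp (-frβ x²) = ee (x²)`. -/
noncomputable def frβ : ℂ := -(2 * Real.pi * Complex.I)

theorem gauss_frβ (x : ℝ) : Complex.exp (-frβ * (x : ℂ) ^ 2) = ee (x ^ 2) := by
  rw [ee, frβ]
  congr 1
  push_cast
  ring

theorem norm_frβ : ‖frβ‖ = 2 * Real.pi := by
  simp [frβ, abs_of_pos Real.pi_pos]

theorem fresnel_far {a b : ℝ} (ha : 0 < a) (hab : a ≤ b) :
    ‖∫ x in a..b, ee (x ^ 2)‖ ≤ 1 / (2 * Real.pi * a) := by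
  have h := gauss_integral_far (β := frβ) (by simp [frβ]) (by simp [frβ, Real.pi_ne_zero]) ha hab
  simpa only [gauss_frβ, norm_frβ] using h

/-- The Fresnel integral from `0`. -/
noncomputable def fres (u : ℝ) : ℂ := ∫ x in (0 : ℝ)..u, ee (x ^ 2)

theorem continuous_ee_sq : Continuous fun x : ℝ => ee (x ^ 2) := continuous_ee.comp (by fun_prop)

theorem fres_neg (u : ℝ) : fres (-u) = -fres u := by
  have h := intervalIntegral.integral_comp_neg (fun x : ℝ => ee (x ^ 2)) (a := 0) (b := u)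
  simp only [neg_sq, neg_zero] at h
  rw [fres, fres, h, intervalIntegral.integral_symm]

theorem fres_sub (a b : ℝ) : fres b - fres a = ∫ x in a..b, ee (x ^ 2) :=
  integral_interval_sub_left (continuous_ee_sq.intervalIntegrable _ _)
    (continuous_ee_sq.intervalIntegrable _ _)

theorem norm_fres_le_of_nonneg {u : ℝ} (hu : 0 ≤ u) : ‖fres u‖ ≤ 2 := by
  have h0 : ∀ v : ℝ, 0 ≤ v → ‖fres v‖ ≤ v := fun v hv => by
    have := norm_integral_le_of_norm_le_const (a := (0 : ℝ)) (b := v) (C := 1)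
      (f := fun x => ee (x ^ 2)) fun x _ => (norm_ee _).le
    simpa [fres, abs_of_nonneg hv] using this
  rcases le_total u 1 with h | h
  · linarith [h0 u hu]
  · have h1 := fresnel_far one_pos h
    rw [← fres_sub] at h1
    have h2 := norm_le_norm_add_norm_sub' (fres u) (fres 1)
    have h3 := h0 1 zero_le_one
    have : (1 : ℝ) / (2 * Real.pi * 1) ≤ 1 := by
      rw [div_le_one (by positivity)]; linarith [Real.pi_gt_three]
    linarith

theorem norm_fres_le (u : ℝ) : ‖fres u‖ ≤ 2 := by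
  rcases le_total 0 u with h | h
  · exact norm_fres_le_of_nonneg h
  · have := norm_fres_le_of_nonneg (neg_nonneg.2 h)
    rwa [fres_neg, norm_neg] at this

theorem fresnel_bound (a b : ℝ) : ‖∫ x in a..b, ee (x ^ 2)‖ ≤ 4 := by
  rw [← fres_sub]
  exact (norm_sub_le _ _).trans (by linarith [norm_fres_le a, norm_fres_le b])

/-- The value of the full Fresnel integral. -/
noncomputable def fresFull : ℂ := ((Real.pi : ℂ) / frβ) ^ (1 / 2 : ℂ)

theorem norm_fresFull : ‖fresFull‖ = (Real.sqrt 2)⁻¹ := by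
  have hne : (Real.pi : ℂ) / frβ ≠ 0 := by simp [frβ, Real.pi_ne_zero]
  rw [fresFull, Complex.norm_cpow_of_ne_zero hne, norm_div, norm_frβ, Complex.norm_real,
    Real.norm_eq_abs, abs_of_pos Real.pi_pos]
  simp only [Complex.div_ofNat_re, Complex.one_re, Complex.div_ofNat_im, Complex.one_im, zero_div,
    mul_zero, Real.exp_zero, div_one]
  rw [show Real.pi / (2 * Real.pi) = (2 : ℝ)⁻¹ by field_simp, ← Real.sqrt_eq_rpow, Real.sqrt_inv]

theorem gauss_symm_near {β : ℂ} (hβ : 0 < β.re) {R : ℝ} (hR : 0 < R) :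
    ‖(∫ x in (-R)..R, Complex.exp (-β * (x : ℂ) ^ 2)) - ((Real.pi : ℂ) / β) ^ (1 / 2 : ℂ)‖ ≤
      2 / (‖β‖ * R) := by
  have hβ0 : β ≠ 0 := fun h => by simp [h] at hβ
  have hint : Integrable fun x : ℝ => Complex.exp (-β * (x : ℂ) ^ 2) :=
    integrable_cexp_neg_mul_sq hβ
  have hlim : Tendsto (fun S : ℝ => ∫ x in (-S)..S, Complex.exp (-β * (x : ℂ) ^ 2)) atTop
      (𝓝 (((Real.pi : ℂ) / β) ^ (1 / 2 : ℂ))) := by
    rw [← integral_gaussian_complex hβ]
    exact intervalIntegral_tendsto_integral hint tendsto_neg_atTop_atBot tendsto_id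
  refine le_of_tendsto ((tendsto_const_nhds.sub hlim).norm) ?_
  filter_upwards [eventually_ge_atTop R] with S hS
  have hc := continuous_gauss β
  have e1 : (∫ x in (-S)..S, Complex.exp (-β * (x : ℂ) ^ 2)) =
      (∫ x in (-S)..(-R), Complex.exp (-β * (x : ℂ) ^ 2)) +
      (∫ x in (-R)..R, Complex.exp (-β * (x : ℂ) ^ 2)) +
      ∫ x in R..S, Complex.exp (-β * (x : ℂ) ^ 2) := by
    rw [integral_add_adjacent_intervals (hc.intervalIntegrable _ _) (hc.intervalIntegrable _ _),
      integral_add_adjacent_intervals (hc.intervalIntegrable _ _) (hc.intervalIntegrable _ _)]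
  have e2 : (∫ x in (-S)..(-R), Complex.exp (-β * (x : ℂ) ^ 2)) =
      ∫ x in R..S, Complex.exp (-β * (x : ℂ) ^ 2) := by
    rw [← intervalIntegral.integral_comp_neg]
    simp
  rw [e1, e2, show ∀ A B : ℂ, B - (A + B + A) = -(A + A) from fun A B => by ring, norm_neg]
  have := gauss_integral_far hβ.le hβ0 hR hS
  refine (norm_add_le _ _).trans ?_
  have : 2 / (‖β‖ * R) = 1 / (‖β‖ * R) + 1 / (‖β‖ * R) := by ring
  linarith

theorem fresnel_symm {R : ℝ} (hR : 0 < R) :
    ‖(∫ x in (-R)..R, ee (x ^ 2)) - fresFull‖ ≤ 1 / (Real.pi * R) := by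
  set b : ℕ → ℂ := fun n => ((1 / (n + 1) : ℝ) : ℂ) + frβ with hb
  have hbt : Tendsto b atTop (𝓝 frβ) := by
    have h1 : Tendsto (fun n : ℕ => ((1 / (n + 1) : ℝ) : ℂ)) atTop (𝓝 ((0 : ℝ) : ℂ)) :=
      (Complex.continuous_ofReal.tendsto 0).comp tendsto_one_div_add_atTop_nhds_zero_nat
    have h5 := h1.add_const frβ
    rwa [Complex.ofReal_zero, zero_add] at h5
  have hbre : ∀ n, 0 < (b n).re := fun n => by
    have : (b n).re = 1 / (n + 1) := by
      rw [hb, Complex.add_re, Complex.ofReal_re]; simp [frβ]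
    rw [this]; positivity
  have hI : Continuous fun β : ℂ => ∫ x in (-R)..R, Complex.exp (-β * (x : ℂ) ^ 2) :=
    continuous_parametric_intervalIntegral_of_continuous' (by fun_prop) _ _
  have hP : ContinuousAt (fun β : ℂ => ((Real.pi : ℂ) / β) ^ (1 / 2 : ℂ)) frβ := by
    refine ContinuousAt.cpow (continuousAt_const.div continuousAt_id ?_) continuousAt_const ?_
    · simp [frβ, Real.pi_ne_zero]
    · rw [Complex.mem_slitPlane_iff]
      right
      simp [frβ, Complex.div_im, Real.pi_ne_zero]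
  have h1 := (((hI.tendsto frβ).comp hbt).sub (hP.tendsto.comp hbt)).norm
  have h2 : Tendsto (fun n => 2 / (‖b n‖ * R)) atTop (𝓝 (1 / (Real.pi * R))) := by
    have h3 := tendsto_const_nhds (x := (2 : ℝ)).div ((hbt.norm).mul_const R)
      (by rw [norm_frβ]; positivity)
    rw [norm_frβ] at h3
    rwa [show 1 / (Real.pi * R) = 2 / (2 * Real.pi * R) by field_simp]
  have h4 := le_of_tendsto_of_tendsto' h1 h2 fun n => gauss_symm_near (hbre n) hR
  simpa only [Function.comp_def, gauss_frβ, fresFull] using h4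

/-- The tail `∫_u^∞ ee (x²)`. -/
noncomputable def tail (u : ℝ) : ℂ := fresFull / 2 - fres u

theorem tail_sub (a b : ℝ) : tail a - tail b = ∫ x in a..b, ee (x ^ 2) := by
  rw [← fres_sub, tail, tail]; ring

theorem tail_neg (u : ℝ) : tail (-u) = fresFull - tail u := by
  rw [tail, tail, fres_neg]; ring

theorem norm_tail_le (u : ℝ) : ‖tail u‖ ≤ 3 := by
  refine (norm_sub_le _ _).trans ?_
  have h1 := norm_fres_le u
  have : ‖fresFull / 2‖ ≤ 1 := by
    rw [norm_div, norm_fresFull, Complex.norm_ofNat, div_le_one two_pos]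
    have : 1 ≤ Real.sqrt 2 := Real.one_le_sqrt.2 (by norm_num)
    linarith [inv_le_one_of_one_le₀ this]
  linarith

theorem norm_tail_far {u : ℝ} (hu : 0 < u) : ‖tail u‖ ≤ 1 / (2 * Real.pi * u) := by
  have h := fresnel_symm hu
  have e : (∫ x in (-u)..u, ee (x ^ 2)) - fresFull = -(2 * tail u) := by
    rw [← fres_sub, fres_neg, tail]; ring
  rw [e, norm_neg, norm_mul, Complex.norm_ofNat] at h
  have : 1 / (2 * Real.pi * u) = (1 / (Real.pi * u)) / 2 := by field_simp
  linarith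

/-- The tail written from its endpoint: `∫_0^∞ ee (x² + 2 u x)`. -/
noncomputable def raw (u : ℝ) : ℂ := ee (-u ^ 2) * tail u

theorem norm_raw (u : ℝ) : ‖raw u‖ = ‖tail u‖ := by
  rw [raw, norm_mul, norm_ee, one_mul]

theorem hasDerivAt_raw (u : ℝ) :
    HasDerivAt raw (-(4 * Real.pi * Complex.I) * u * raw u - 1) u := by
  have h1 : HasDerivAt (fun u : ℝ => ee (-u ^ 2))
      (ee (-u ^ 2) * (2 * Real.pi * ((-(2 * u) : ℝ) : ℂ) * Complex.I)) u := by
    have h0 : HasDerivAt (fun u : ℝ => -u ^ 2) (-(2 * u)) u := by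
      simpa using ((hasDerivAt_id u).fun_pow 2).fun_neg
    have := ((h0.ofReal_comp.const_mul (2 * (Real.pi : ℂ))).mul_const Complex.I).cexp
    exact this
  have h2 : HasDerivAt tail (-ee (u ^ 2)) u :=
    (integral_hasDerivAt_right (continuous_ee_sq.intervalIntegrable _ _)
      (continuous_ee_sq.stronglyMeasurableAtFilter _ _)
      continuous_ee_sq.continuousAt).const_sub (fresFull / 2)
  refine (h1.fun_mul h2).congr_deriv ?_
  have e : ee (-u ^ 2) * ee (u ^ 2) = 1 := by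
    rw [← ee_add]; simp [ee]
  rw [raw]
  push_cast
  linear_combination (-1) * e

theorem raw_lipschitz {u v : ℝ} (hu : 0 ≤ u) (hv : 0 ≤ v) : ‖raw u - raw v‖ ≤ 3 * |u - v| := by
  have hd : ∀ x ∈ Set.Ici (0 : ℝ), ‖-(4 * Real.pi * Complex.I) * x * raw x - 1‖ ≤ 3 := by
    intro x hx
    refine (norm_sub_le _ _).trans ?_
    rw [norm_one]
    rcases eq_or_lt_of_le (show (0 : ℝ) ≤ x from hx) with h | h
    · subst h; simp
    · have h1 := norm_tail_far h
      simp only [norm_mul, norm_neg, Complex.norm_ofNat, Complex.norm_I, Complex.norm_real,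
        Real.norm_eq_abs, abs_of_pos Real.pi_pos, abs_of_pos h, mul_one, norm_raw]
      have h2 : 4 * Real.pi * x * ‖tail x‖ ≤ 4 * Real.pi * x * (1 / (2 * Real.pi * x)) :=
        mul_le_mul_of_nonneg_left h1 (by positivity)
      have h3 : 4 * Real.pi * x * (1 / (2 * Real.pi * x)) = 2 := by field_simp; ring
      linarith
  have := (convex_Ici (0 : ℝ)).norm_image_sub_le_of_norm_hasDerivWithin_le
    (fun x _ => (hasDerivAt_raw x).hasDerivWithinAt) hd (Set.mem_Ici.2 hv) (Set.mem_Ici.2 hu)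
  simpa [Real.norm_eq_abs] using this

/-- A quadratic phase over an interval, by completing the square. -/
theorem quad_integral {A : ℝ} (hA : 0 < A) (B a b : ℝ) :
    ∫ x in a..b, ee (A * x ^ 2 + B * x) = ((Real.sqrt A)⁻¹ : ℂ) * ee (-(B ^ 2) / (4 * A)) *
      (tail (Real.sqrt A * a + B / (2 * Real.sqrt A)) -
        tail (Real.sqrt A * b + B / (2 * Real.sqrt A))) := by
  have hs : Real.sqrt A ≠ 0 := (Real.sqrt_pos.2 hA).ne'
  have e : ∀ x : ℝ, ee (A * x ^ 2 + B * x) = ee (-(B ^ 2) / (4 * A)) *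
      ee ((Real.sqrt A * x + B / (2 * Real.sqrt A)) ^ 2) := fun x => by
    rw [← ee_add]
    congr 1
    have h2 : Real.sqrt A ^ 2 = A := Real.sq_sqrt hA.le
    field_simp
    rw [h2]
    ring
  rw [intervalIntegral.integral_congr (fun x _ => e x), intervalIntegral.integral_const_mul,
    tail_sub, intervalIntegral.integral_comp_mul_add (fun x => ee (x ^ 2)) hs]
  rw [Complex.real_smul]
  push_cast
  ring

theorem quad_integral_le {A : ℝ} (hA : 0 < A) (B a b : ℝ) :
    ‖∫ x in a..b, ee (A * x ^ 2 + B * x)‖ ≤ 4 / Real.sqrt A := by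
  rw [quad_integral hA, tail_sub, norm_mul, norm_mul, norm_ee, mul_one, norm_inv,
    Complex.norm_real, Real.norm_eq_abs, abs_of_pos (Real.sqrt_pos.2 hA), inv_mul_eq_div]
  exact div_le_div_of_nonneg_right (fresnel_bound _ _) (Real.sqrt_nonneg _)

theorem quad_integral_far {A : ℝ} (hA : 0 < A) (B : ℝ) {a b : ℝ} (hab : a ≤ b)
    (h : 0 < 2 * A * a + B) :
    ‖∫ x in a..b, ee (A * x ^ 2 + B * x)‖ ≤ 1 / (Real.pi * (2 * A * a + B)) := by
  have hs : 0 < Real.sqrt A := Real.sqrt_pos.2 hA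
  have hw : Real.sqrt A * a + B / (2 * Real.sqrt A) = (2 * A * a + B) / (2 * Real.sqrt A) := by
    field_simp
    rw [Real.sq_sqrt hA.le]
    ring
  have hwb : Real.sqrt A * a + B / (2 * Real.sqrt A) ≤
      Real.sqrt A * b + B / (2 * Real.sqrt A) := by nlinarith
  rw [quad_integral hA, tail_sub, norm_mul, norm_mul, norm_ee, mul_one, norm_inv,
    Complex.norm_real, Real.norm_eq_abs, abs_of_pos hs]
  refine (mul_le_mul_of_nonneg_left (fresnel_far (by rw [hw]; positivity) hwb)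
    (by positivity)).trans (le_of_eq ?_)
  rw [hw]
  field_simp

end Vale.Agent.P110.Flat
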