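import Vale.Agent.P110.Flat.Defs

/-!
The quadratic Gauss sum: Fourier expansion of `n ↦ ee (a n² / q)` for odd `q` and `a` coprime to `q`.
-/

namespace Vale.Agent.P110.Flat

open Finset

/-- The Fourier coefficient at `b / q` of `n ↦ ee (a n² / q)`. -/
noncomputable def gaussCoeff (q : ℕ) (a : ℤ) (b : ℕ) : ℂ :=
  (q : ℂ)⁻¹ * ∑ n ∈ range q, ee ((a * n ^ 2 - b * n : ℝ) / q)

theorem stdAddChar_intCast {q : ℕ} [NeZero q] (j : ℤ) :
    ZMod.stdAddChar ((j : ℤ) : ZMod q) = ee ((j : ℝ) / q) := by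
  rw [ZMod.stdAddChar_coe, ee]
  congr 1
  push_cast
  ring

theorem sum_range_eq_sum_zmod {q : ℕ} [NeZero q] (f : ZMod q → ℂ) :
    ∑ n ∈ range q, f (n : ZMod q) = ∑ x : ZMod q, f x := by
  refine sum_bij' (fun n _ => (n : ZMod q)) (fun x _ => x.val) (fun _ _ => mem_univ _)
    (fun x _ => mem_range.2 (ZMod.val_lt x)) (fun n hn => ZMod.val_natCast_of_lt (mem_range.1 hn))
    (fun x _ => ZMod.natCast_zmod_val x) (fun _ _ => rfl)

/-- A quadratic sum over `ZMod q`. -/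
noncomputable def gaussZ {q : ℕ} [NeZero q] (a b : ZMod q) : ℂ :=
  ∑ x : ZMod q, ZMod.stdAddChar (a * x ^ 2 + b * x)

theorem norm_gaussZ {q : ℕ} [NeZero q] {a : ZMod q} (ha : IsUnit (2 * a)) (b : ZMod q) :
    ‖gaussZ a b‖ = Real.sqrt q := by
  have hprim := ZMod.isPrimitive_stdAddChar q
  set ψ := (ZMod.stdAddChar : AddChar (ZMod q) ℂ) with hψ
  have h1 : gaussZ a b * (starRingEnd ℂ) (gaussZ a b) = (q : ℂ) := by
    have e1 : gaussZ a b * (starRingEnd ℂ) (gaussZ a b) =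
        ∑ m : ZMod q, ∑ h : ZMod q, ψ (a * h ^ 2 + b * h) * ψ (m * (2 * a * h)) := by
      rw [gaussZ, map_sum, mul_sum]
      refine sum_congr rfl fun m _ => ?_
      rw [sum_mul, ← Equiv.sum_comp (Equiv.addLeft m)]
      refine sum_congr rfl fun h _ => ?_
      rw [← AddChar.map_neg_eq_conj, ← AddChar.map_add_eq_mul, ← AddChar.map_add_eq_mul]
      congr 1
      simp only [Equiv.coe_addLeft]
      ring
    rw [e1, sum_comm]
    simp_rw [← mul_sum, AddChar.sum_mulShift _ hprim]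
    rw [sum_eq_single 0 (fun h _ hh => ?_) (by simp)]
    · simp [hψ]
    · rw [if_neg (fun e => hh ((ha.mul_right_eq_zero).1 e))]
      simp
  have h2 : ‖gaussZ a b‖ ^ 2 = (q : ℝ) := by
    have := congrArg Complex.re h1
    simpa [Complex.mul_conj, Complex.sq_norm] using this
  rw [← h2, Real.sqrt_sq (norm_nonneg _)]

theorem ee_intCast_div {q : ℕ} [NeZero q] (j : ℤ) (x : ℝ) (hx : x = (j : ℝ) / q) :
    ee x = ZMod.stdAddChar ((j : ℤ) : ZMod q) := by
  rw [stdAddChar_intCast, hx]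

theorem gaussCoeff_eq {q : ℕ} [NeZero q] (a : ℤ) (b : ℕ) :
    gaussCoeff q a b = (q : ℂ)⁻¹ * gaussZ (q := q) a (-b) := by
  rw [gaussCoeff, gaussZ, ← sum_range_eq_sum_zmod]
  congr 1
  refine sum_congr rfl fun n _ => ?_
  rw [ee_intCast_div (q := q) (a * n ^ 2 - b * n) _ (by push_cast; ring)]
  congr 1
  push_cast
  ring

theorem norm_gaussCoeff {q : ℕ} (hq : Odd q) {a : ℤ} (ha : IsCoprime a q) (b : ℕ) :
    ‖gaussCoeff q a b‖ = (Real.sqrt q)⁻¹ := by
  have : NeZero q := ⟨by rintro rfl; simp at hq⟩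
  have hu : IsUnit (2 * (a : ZMod q)) := by
    have h2 : IsUnit ((2 : ℕ) : ZMod q) :=
      (ZMod.isUnit_iff_coprime 2 q).2 (Nat.coprime_two_left.2 hq)
    have h3 : IsUnit (a : ZMod q) := by
      obtain ⟨x, y, hxy⟩ := ha
      refine IsUnit.of_mul_eq_one (x : ZMod q) ?_
      have := congrArg (fun z : ℤ => (z : ZMod q)) hxy
      push_cast at this
      simp at this
      rw [mul_comm]; exact this
    exact_mod_cast h2.mul h3
  rw [gaussCoeff_eq, norm_mul, norm_gaussZ hu, norm_inv, Complex.norm_natCast,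
    inv_mul_eq_div, Real.sqrt_div_self]

theorem ee_sq_eq_sum {q : ℕ} (hq : q ≠ 0) (a : ℤ) (n : ℤ) :
    ee ((a * n ^ 2 : ℝ) / q) = ∑ b ∈ range q, gaussCoeff q a b * ee ((b * n : ℝ) / q) := by
  have : NeZero q := ⟨hq⟩
  have hprim := ZMod.isPrimitive_stdAddChar q
  rw [ee_intCast_div (q := q) (a * n ^ 2) _ (by push_cast; ring)]
  have e : ∀ b ∈ range q, gaussCoeff q a b * ee ((b * n : ℝ) / q) = (q : ℂ)⁻¹ *
      ∑ x : ZMod q, ZMod.stdAddChar ((a : ZMod q) * x ^ 2) *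
        ZMod.stdAddChar ((b : ZMod q) * ((n : ZMod q) - x)) := by
    intro b _
    rw [gaussCoeff_eq, ee_intCast_div (q := q) (b * n) _ (by push_cast; ring), mul_assoc, gaussZ,
      sum_mul]
    congr 1
    refine sum_congr rfl fun x _ => ?_
    rw [← AddChar.map_add_eq_mul, ← AddChar.map_add_eq_mul]
    congr 1
    push_cast
    ring
  rw [sum_congr rfl e, ← mul_sum,
    sum_range_eq_sum_zmod (q := q) (fun b => ∑ x : ZMod q,
      ZMod.stdAddChar ((a : ZMod q) * x ^ 2) * ZMod.stdAddChar (b * ((n : ZMod q) - x))),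
    sum_comm]
  simp_rw [← mul_sum, AddChar.sum_mulShift _ hprim]
  rw [sum_eq_single (n : ZMod q)]
  · have hqc : (q : ℂ) ≠ 0 := by exact_mod_cast hq
    simp only [sub_self, if_true, ZMod.card]
    field_simp
    push_cast
    ring_nf
  · intro x _ hx
    simp [sub_eq_zero, Ne.symm hx]
  · simp

theorem ee_neg (x : ℝ) : ee (-x) = (starRingEnd ℂ) (ee x) := by
  rw [ee, ee, ← Complex.exp_conj]
  congr 1
  simp only [map_mul, map_ofNat, Complex.conj_ofReal, Complex.conj_I]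
  push_cast
  ring

theorem gauss_expand {q : ℕ} (hq : Odd q) {a : ℤ} (ha : IsCoprime a (q : ℤ)) :
    ∃ G : ℕ → ℂ, (∀ b, b < q → ‖G b‖ = (Real.sqrt q)⁻¹) ∧
      ∀ n : ℤ, ee (-((a : ℝ) * (n : ℝ) ^ 2 / q)) =
        ∑ b ∈ range q, G b * ee (-((b : ℝ) * n / q)) := by
  refine ⟨fun b => (starRingEnd ℂ) (gaussCoeff q a b), fun b _ => ?_, fun n => ?_⟩
  · rw [Complex.norm_conj, norm_gaussCoeff hq ha]
  · have hq0 : q ≠ 0 := by rintro rfl; simp at hq
    rw [ee_neg, ee_sq_eq_sum hq0 a n, map_sum]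
    refine sum_congr rfl fun b _ => ?_
    rw [map_mul, ee_neg]

end Vale.Agent.P110.Flat
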