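import Vale.Agent.P110.Flat.Gauss
import Vale.Agent.P110.Flat.Stair

/-! Staircases, and the sum of the lines of one group. -/

namespace Vale.Agent.P110.Flat

open Finset

/-- The shape of a staircase with `R ^ 2` steps, which climbs to one in `R` of them. -/
noncomputable def shape (R i : ℕ) : ℝ :=
  min 1 (min (((i : ℝ) + 1) / R) (((R : ℝ) ^ 2 - i) / R))

/-- The mean square of the shape. -/
noncomputable def avg (R : ℕ) : ℝ := (∑ i ∈ range (R ^ 2), shape R i ^ 2) / (R : ℝ) ^ 2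

theorem shape_pos {R i : ℕ} (hi : i < R ^ 2) : 0 < shape R i := by
  have hR : 0 < R := Nat.pos_of_ne_zero fun h => by simp [h] at hi
  have hR' : (0 : ℝ) < R := Nat.cast_pos.2 hR
  have hi' : (i : ℝ) < (R : ℝ) ^ 2 := by exact_mod_cast hi
  exact lt_min one_pos (lt_min (by positivity) (div_pos (sub_pos.2 hi') hR'))

theorem shape_le_one (R i : ℕ) : shape R i ≤ 1 := min_le_left _ _

theorem avg_bounds {R : ℕ} (hR : 0 < R) : 1 - 2 / (R : ℝ) ≤ avg R ∧ avg R ≤ 1 := by
  have hR' : (0 : ℝ) < R := Nat.cast_pos.2 hR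
  constructor
  · rw [avg, le_div_iff₀ (by positivity)]
    calc (1 - 2 / (R : ℝ)) * (R : ℝ) ^ 2 = (R : ℝ) ^ 2 - 2 * R := by field_simp
      _ ≤ ∑ i ∈ range (R ^ 2), (1 - ((if i < R then (1 : ℝ) else 0) +
            if R ^ 2 - R ≤ i then (1 : ℝ) else 0)) := by
          rw [sum_sub_distrib, sum_add_distrib, sum_boole, sum_boole]
          have h1 : ((range (R ^ 2)).filter (fun i => i < R)).card ≤ R :=
            (card_le_card fun x hx => mem_range.2 (mem_filter.1 hx).2).trans_eq (card_range R)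
          have h2 : ((range (R ^ 2)).filter (fun i => R ^ 2 - R ≤ i)).card ≤ R :=
            (card_le_card (t := Ico (R ^ 2 - R) (R ^ 2)) fun x hx =>
              mem_Ico.2 ⟨(mem_filter.1 hx).2, mem_range.1 (mem_filter.1 hx).1⟩).trans
              (by rw [Nat.card_Ico]; omega)
          have h1' : ((((range (R ^ 2)).filter (fun i => i < R)).card : ℕ) : ℝ) ≤ R := by
            exact_mod_cast h1
          have h2' : ((((range (R ^ 2)).filter (fun i => R ^ 2 - R ≤ i)).card : ℕ) : ℝ) ≤ R := by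
            exact_mod_cast h2
          simp only [sum_const, card_range, nsmul_eq_mul, mul_one, Nat.cast_pow]
          linarith
      _ ≤ _ := sum_le_sum fun i hi => by
          have hp := shape_pos (mem_range.1 hi)
          rcases lt_or_ge i R with h | h
          · rw [if_pos h]; split_ifs <;> nlinarith
          rcases le_or_gt (R ^ 2 - R) i with h' | h'
          · rw [if_neg (by omega), if_pos h']; nlinarith
          have e1 : (R : ℝ) ≤ i := by exact_mod_cast h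
          have e2 : (i : ℝ) + R ≤ (R : ℝ) ^ 2 := by
            exact_mod_cast (by omega : i + R ≤ R ^ 2)
          have : shape R i = 1 := min_eq_left (le_min
            ((le_div_iff₀ hR').2 (by linarith)) ((le_div_iff₀ hR').2 (by linarith)))
          rw [if_neg (by omega), if_neg (by omega), this]; norm_num
  · rw [avg, div_le_one (by positivity)]
    refine (sum_le_sum fun i hi => pow_le_one₀ (shape_pos (mem_range.1 hi)).le
      (shape_le_one R i)).trans ?_
    simp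

theorem shape_step {R : ℕ} (hR : 0 < R) (i : ℕ) : |shape R (i + 1) - shape R i| ≤ 1 / R := by
  have h : (0 : ℝ) < 1 / (R : ℝ) := by positivity
  have e1 : (((i + 1 : ℕ) : ℝ) + 1) / R = ((i : ℝ) + 1) / R + 1 / R := by push_cast; ring
  have e2 : ((R : ℝ) ^ 2 - ((i + 1 : ℕ) : ℝ)) / R = ((R : ℝ) ^ 2 - i) / R - 1 / R := by
    push_cast; ring
  have m1 := fun a b c d : ℝ => abs_min_sub_min_le_max a b c d
  rw [shape, shape, e1, e2]
  refine (m1 _ _ _ _).trans (max_le (by simpa using h.le) ((m1 _ _ _ _).trans (max_le ?_ ?_)))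
  · rw [add_sub_cancel_left, abs_of_pos h]
  · rw [sub_sub_cancel_left, abs_neg, abs_of_pos h]

/-- The staircase of height `α` on `[t₀, t₀ + len]`. -/
noncomputable def mkStair (t₀ len start α : ℝ) (R : ℕ) (hR : 0 < R) (hlen : 0 < len) (hα : 0 < α)
    (hα2 : α ≤ 2) : Stair where
  m := R ^ 2
  hm := by positivity
  t i := t₀ + i * (len / (R : ℝ) ^ 2)
  ht i _ := by
    have : 0 < len / (R : ℝ) ^ 2 := by positivity
    push_cast; linarith
  a i := α * shape R i
  ha i hi := ⟨mul_pos hα (shape_pos hi), (mul_le_of_le_one_right hα.le (shape_le_one R i)).trans hα2⟩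
  start := start
  h := α / R
  hh := by positivity
  hstep i _ := by
    rw [← mul_sub, abs_mul, abs_of_pos hα, div_eq_mul_one_div α]
    exact mul_le_mul_of_nonneg_left (shape_step hR i) hα.le
  hfirst := by
    rw [div_eq_mul_one_div α]
    exact mul_le_mul_of_nonneg_left ((min_le_right _ _).trans ((min_le_left _ _).trans (by simp)))
      hα.le
  hlast := by
    rw [div_eq_mul_one_div α]
    refine mul_le_mul_of_nonneg_left ((min_le_right _ _).trans ((min_le_right _ _).trans ?_)) hα.le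
    have : ((R ^ 2 - 1 : ℕ) : ℝ) = (R : ℝ) ^ 2 - 1 := by
      rw [Nat.cast_sub (Nat.one_le_iff_ne_zero.2 (by positivity))]; push_cast; ring
    rw [this]; simp

theorem mkStair_spec (t₀ len start α : ℝ) (R : ℕ) (hR : 0 < R) (hlen : 0 < len) (hα : 0 < α)
    (hα2 : α ≤ 2) :
    let S := mkStair t₀ len start α R hR hlen hα hα2
    S.start = start ∧ S.h = α / R ∧ S.t 0 = t₀ ∧ S.t S.m = t₀ + len ∧
      S.lam (S.t S.m) = start + α ^ 2 * len * avg R := by
  intro S
  refine ⟨rfl, rfl, by simp [S, mkStair], ?_, ?_⟩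
  · have : (0 : ℝ) < R := Nat.cast_pos.2 hR
    simp only [S, mkStair]; push_cast; field_simp
  · have h : S.lam (S.t S.m) =
        start + ∑ j ∈ range S.m, (S.t (j + 1) - S.t j) * S.a j ^ 2 := by
      simp only [Stair.lam, Stair.step_sq]
      rw [Stair.step_upto S.ht le_rfl]; rfl
    rw [h, avg, sum_div, mul_sum]
    congr 1
    exact sum_congr rfl fun j _ => by simp only [S, mkStair]; push_cast; ring

theorem Stair.amp_le (S : Stair) {A : ℝ} (hA : 0 ≤ A) (h : ∀ i, i < S.m → S.a i ≤ A) (u : ℝ) :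
    0 ≤ S.amp u ∧ S.amp u ≤ A ∧ (u < S.t 0 ∨ S.t S.m ≤ u → S.amp u = 0) := by
  by_cases hx : ∃ i < S.m, u ∈ Set.Ico (S.t i) (S.t (i + 1))
  · obtain ⟨i, hi, hu⟩ := hx
    rw [Stair.amp, Stair.step_eq S.ht hi hu]
    exact ⟨(S.ha i hi).1.le, h i hi, fun hout => absurd hout (by
      rintro (h' | h')
      · linarith [Stair.t_mono S (Nat.zero_le i) hi.le, hu.1]
      · linarith [Stair.t_mono S (show i + 1 ≤ S.m by omega) le_rfl, hu.2])⟩
  · have h0 : S.amp u = 0 := sum_eq_zero fun j hj =>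
      Set.indicator_of_notMem (fun hu => hx ⟨j, mem_range.1 hj, hu⟩) _
    rw [h0]; exact ⟨le_rfl, hA, fun _ => rfl⟩

theorem exists_phase {z : ℂ} (hz : ‖z‖ = 1) (x : ℝ) : ∃ w : ℝ, ee (w + x) = z := by
  refine ⟨z.arg / (2 * Real.pi) - x, ?_⟩
  rw [sub_add_cancel]
  conv_rhs => rw [← Complex.norm_mul_exp_arg_mul_I z, hz]
  rw [ee, Complex.ofReal_one, one_mul]
  congr 1
  push_cast
  field_simp

/-- The lines of one group, with phases making the Gauss sum, amount to one quadratic phase. -/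
theorem group_sum : ∃ C : ℝ, 0 ≤ C ∧ ∀ (S : Stair) (s ε : ℝ), 0 < s → 0 < ε →
    ∀ (q : ℕ), Odd q → ∀ (kr : ℚ), kr.den = q →
      ∃ N₀ : ℕ, ∀ N, N₀ ≤ N → ∀ θ₀ a : ℝ, ∀ sgn : ℝ, |sgn| = 1 → ∃ w : ℕ → ℝ, ∀ n : ℕ,
        ‖∑ b ∈ range q, ee (w b - ((n : ℝ) + a) * ((b : ℝ) / q + θ₀)) *
              S.integral s N ((n : ℝ) + a) -
            ((sgn * Real.sqrt ((q : ℝ) * s) * S.amp (((n : ℝ) + a) / N) : ℝ) : ℂ) *
              ee (-((kr : ℝ) * (n : ℝ) ^ 2 + (n : ℝ) * θ₀ +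
                (N : ℝ) * s * S.prim (((n : ℝ) + a) / N)))‖ ≤
          C * Real.sqrt ((q : ℝ) * s) * Real.sqrt S.h + ε := by
  obtain ⟨ζ, hζ, C, hC⟩ := Stair.integral_approx
  refine ⟨|C|, abs_nonneg C, fun S s ε hs hε q hq kr hkr => ?_⟩
  have hq0 : 0 < Real.sqrt q := Real.sqrt_pos.2 (Nat.cast_pos.2 hq.pos)
  obtain ⟨N₀, hN₀⟩ := hC S s (ε / Real.sqrt q) hs (by positivity)
  have hcop : IsCoprime kr.num (q : ℤ) := by
    rw [Int.isCoprime_iff_nat_coprime]; simpa [hkr] using kr.reduced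
  obtain ⟨G, hG, hGsum⟩ := gauss_expand hq hcop
  refine ⟨max N₀ 1, fun N hN θ₀ a sgn hsgn => ?_⟩
  have hN' : (N : ℝ) ≠ 0 := by
    exact_mod_cast Nat.pos_iff_ne_zero.1 (le_trans (le_max_right _ _) hN)
  set ρ : ℂ := (sgn : ℂ) / ζ
  have hρ : ‖ρ‖ = 1 := by rw [norm_div, hζ, Complex.norm_real, Real.norm_eq_abs, hsgn, div_one]
  have hex : ∀ b, b < q → ∃ w : ℝ,
      ee (w + -(a * ((b : ℝ) / q + θ₀))) = (Real.sqrt q : ℂ) * G b * ρ := fun b hb => by
    refine exists_phase ?_ _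
    rw [norm_mul, norm_mul, hρ, hG b hb, Complex.norm_real, Real.norm_eq_abs, abs_of_pos hq0,
      mul_one, mul_inv_cancel₀ hq0.ne']
  choose! w hw using hex
  refine ⟨w, fun n => ?_⟩
  set u := ((n : ℝ) + a) / N
  have hI := hN₀ N (le_trans (le_max_left _ _) hN) u
  rw [show (N : ℝ) * u = (n : ℝ) + a by simp only [u]; field_simp] at hI
  have hee : ∀ x y : ℝ, ee (x + y) = ee x * ee y := fun x y => by
    rw [ee, ee, ee, ← Complex.exp_add]; push_cast; ring_nf
  have hsum : ∑ b ∈ range q, ee (w b - ((n : ℝ) + a) * ((b : ℝ) / q + θ₀)) =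
      (Real.sqrt q : ℂ) * ρ * ee (-((kr : ℝ) * (n : ℝ) ^ 2 + (n : ℝ) * θ₀)) := by
    have hkr' : (kr : ℝ) = (kr.num : ℝ) / q := by rw [Rat.cast_def, hkr]
    have key := hGsum (n : ℤ)
    push_cast at key
    rw [show -((kr : ℝ) * (n : ℝ) ^ 2 + (n : ℝ) * θ₀) =
        -((kr.num : ℝ) * (n : ℝ) ^ 2 / q) + -((n : ℝ) * θ₀) by rw [hkr']; ring,
      hee, key, sum_mul, mul_sum]
    refine sum_congr rfl fun b hb => ?_
    rw [show w b - ((n : ℝ) + a) * ((b : ℝ) / q + θ₀) =
        (w b + -(a * ((b : ℝ) / q + θ₀))) + (-((b : ℝ) * n / q) + -((n : ℝ) * θ₀)) by ring,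
      hee, hw b (mem_range.1 hb), hee]
    ring
  have hζ0 : ζ ≠ 0 := fun h => by simp [h] at hζ
  have hmain : ((sgn * Real.sqrt ((q : ℝ) * s) * S.amp u : ℝ) : ℂ) *
      ee (-((kr : ℝ) * (n : ℝ) ^ 2 + (n : ℝ) * θ₀ + (N : ℝ) * s * S.prim u)) =
      (Real.sqrt q : ℂ) * ρ * ee (-((kr : ℝ) * (n : ℝ) ^ 2 + (n : ℝ) * θ₀)) *
        (ζ * ((Real.sqrt s * S.amp u : ℝ) : ℂ) * ee (-((N : ℝ) * s * S.prim u))) := by
    rw [neg_add, hee, Real.sqrt_mul (Nat.cast_nonneg q)]
    simp only [ρ]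
    push_cast
    field_simp
  rw [← sum_mul, hsum, hmain, ← mul_sub, norm_mul, norm_mul, norm_mul, hρ, Complex.norm_real,
    Real.norm_eq_abs, abs_of_pos hq0, Real.sqrt_mul (Nat.cast_nonneg q)]
  have he1 : ∀ x, ‖ee x‖ = 1 := fun x => by rw [ee, Complex.norm_exp]; simp
  rw [he1, mul_one, mul_one]
  calc Real.sqrt q * _ ≤ Real.sqrt q * (C * Real.sqrt s * Real.sqrt S.h + ε / Real.sqrt q) :=
        mul_le_mul_of_nonneg_left hI hq0.le
    _ ≤ |C| * (Real.sqrt q * Real.sqrt s) * Real.sqrt S.h + ε := by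
        rw [mul_add, mul_div_cancel₀ _ hq0.ne']
        refine add_le_add ?_ le_rfl
        nlinarith [le_abs_self C, mul_nonneg hq0.le
          (mul_nonneg (Real.sqrt_nonneg s) (Real.sqrt_nonneg S.h))]

end Vale.Agent.P110.Flat
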