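import Vale.Agent.P110.Flat.Track
import Vale.Agent.P110.Flat.Smooth
import Vale.Agent.P110.Flat.Fresnel

/-! The holes and ramps of a track contribute little to every coefficient.

By the symmetries only `[0, 1/2]` matters. There each arc has one representative `mp j`; between
consecutive representatives lie holes (speed slope `M`, ranges at least `M δ` apart), next to each
of them two ramps (speed slope at least `σ₀ / (2 δ)`). -/

namespace Vale.Agent.P110.Flat

open MeasureTheory Finset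

namespace HoleAux

theorem abs_off_eq (c θ : ℝ) : |off c θ| = ‖((θ - c : ℝ) : UnitAddCircle)‖ := by
  rw [UnitAddCircle.norm_eq]; rfl

theorem off_add_int (m θ : ℝ) (z : ℤ) : off (m + z) θ = off m θ := by
  simp only [off]
  rw [show θ - (m + z) = θ - m - z by ring, round_sub_intCast]
  push_cast
  ring

theorem off_of_lt {m θ : ℝ} (h : |θ - m| < 1 / 2) : off m θ = θ - m := by
  rw [abs_lt] at h
  simp only [off, round_eq_zero_iff.2 (Set.mem_Ico.2 ⟨by linarith [h.1], h.2⟩), Int.cast_zero,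
    sub_zero]

theorem abs_off_zero {θ : ℝ} (h0 : 0 ≤ θ) (h1 : θ ≤ 1 / 2) : |off 0 θ| = θ := by
  rcases h1.eq_or_lt with rfl | h
  · norm_num [off, round_eq]
  · rw [off_of_lt (by rw [sub_zero, abs_of_nonneg h0]; exact h), sub_zero, abs_of_nonneg h0]

theorem measurable_off (c : ℝ) : Measurable fun θ => off c θ := by
  have : (fun θ => off c θ) = fun θ => θ - c - (⌊θ - c + 1 / 2⌋ : ℝ) := by
    funext θ; simp [off, round_eq]
  rw [this]
  fun_prop

theorem plateau_zero {r δ y : ℝ} (hδ : 0 < δ) (h : r + δ ≤ |y|) : plateau r δ y = 0 := by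
  have : (r + δ - |y|) / δ ≤ 0 := div_nonpos_of_nonpos_of_nonneg (by linarith) hδ.le
  simp [plateau, this]

theorem plateau_ramp {r δ y : ℝ} (hδ : 0 < δ) (h1 : r ≤ |y|) (h2 : |y| ≤ r + δ) :
    plateau r δ y = (r + δ - |y|) / δ := by
  rw [plateau, min_eq_right ((div_le_one hδ).2 (by linarith)),
    max_eq_right (div_nonneg (by linarith) hδ.le)]

theorem sg_not (b : Bool) : sg (!b) = -sg b := by cases b <;> simp [sg]

theorem continuous_of_lip {f : ℝ → ℝ} {L : ℝ} (h : ∀ a b, |f a - f b| ≤ L * |a - b|) :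
    Continuous f :=
  (LipschitzWith.of_dist_le' (K := L) fun a b => by simpa [Real.dist_eq] using h a b).continuous

theorem conj_ee' (a : ℝ) : starRingEnd ℂ (ee a) = ee (-a) := by
  rw [ee, ee, ← Complex.exp_conj]
  congr 1
  simp [map_ofNat]

section Quad

theorem quad_conj (A B a b : ℝ) :
    ∫ x in a..b, ee (A * x ^ 2 + B * x) = starRingEnd ℂ (∫ x in a..b, ee (-A * x ^ 2 + -B * x)) := by
  have h : ∀ x : ℝ, starRingEnd ℂ (ee (-A * x ^ 2 + -B * x)) = ee (A * x ^ 2 + B * x) := fun x => by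
    rw [conj_ee']; congr 1; ring
  simp only [intervalIntegral.intervalIntegral_eq_integral_uIoc, Complex.real_smul, map_mul,
    Complex.conj_ofReal, ← integral_conj, h]

theorem quad_le {A : ℝ} (hA : A ≠ 0) (B a b : ℝ) :
    ‖∫ x in a..b, ee (A * x ^ 2 + B * x)‖ ≤ 4 / Real.sqrt |A| := by
  rcases lt_or_gt_of_ne hA with h | h
  · rw [quad_conj, Complex.norm_conj, abs_of_neg h]
    exact quad_integral_le (neg_pos.2 h) _ _ _
  · rw [abs_of_pos h]
    exact quad_integral_le h _ _ _

theorem quad_far_le {A : ℝ} (hA : 0 < A) (B : ℝ) {a b lam : ℝ} (hab : a ≤ b) (hl : 0 < lam)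
    (h : lam ≤ 2 * A * a + B ∨ 2 * A * b + B ≤ -lam) :
    ‖∫ x in a..b, ee (A * x ^ 2 + B * x)‖ ≤ 1 / (Real.pi * lam) := by
  rcases h with h | h
  · refine (quad_integral_far hA B hab (hl.trans_le h)).trans ?_
    gcongr
  · have e : ∫ x in a..b, ee (A * x ^ 2 + B * x)
        = ∫ x in (-b)..(-a), ee (A * x ^ 2 + -B * x) := by
      rw [← intervalIntegral.integral_comp_neg]
      simp
    rw [e]
    refine (quad_integral_far hA (-B) (by linarith) (by linarith)).trans ?_
    gcongr
    linarith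

/-- On a piece where speed and correction are linear the integral is a quadratic one. -/
theorem piece_eq (N : ℕ) {τ χ : ℝ → ℝ} (hτc : Continuous τ) {a b τa s χa e ν : ℝ} (hab : a ≤ b)
    (hτ : ∀ θ ∈ Set.Icc a b, τ θ = τa + s * (θ - a))
    (hχ : ∀ θ ∈ Set.Icc a b, χ θ = χa + e * (θ - a)) :
    ‖∫ θ in a..b, target N τ χ θ * ee (-(ν * θ))‖
      = ‖∫ u in (0 : ℝ)..(b - a), ee ((N : ℝ) * s / 2 * u ^ 2 + ((N : ℝ) * τa + e - ν) * u)‖ := by
  set K : ℝ := (N : ℝ) * (∫ t in (0 : ℝ)..a, τ t) + χa - ν * a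
  have h : ∀ θ ∈ Set.uIcc a b, target N τ χ θ * ee (-(ν * θ)) = ee K *
      ee ((N : ℝ) * s / 2 * (θ - a) ^ 2 + ((N : ℝ) * τa + e - ν) * (θ - a)) := by
    rw [Set.uIcc_of_le hab]
    intro θ hθ
    have hint : ∫ t in a..θ, τ t = τa * (θ - a) + s * (θ - a) ^ 2 / 2 := by
      rw [intervalIntegral.integral_congr (g := fun t => τa + s * (t - a)) (by
        rw [Set.uIcc_of_le hθ.1]
        exact fun t ht => hτ t ⟨ht.1, ht.2.trans hθ.2⟩),
        intervalIntegral.integral_add ((by fun_prop : Continuous fun _ : ℝ => τa).intervalIntegrable _ _)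
          ((by fun_prop : Continuous fun t : ℝ => s * (t - a)).intervalIntegrable _ _),
        intervalIntegral.integral_const_mul,
        intervalIntegral.integral_comp_sub_right (fun t => t) a, integral_id]
      simp
      ring
    rw [target, ← intervalIntegral.integral_add_adjacent_intervals (hτc.intervalIntegrable 0 a)
      (hτc.intervalIntegrable a θ), hint, hχ θ hθ, ← ee_add, ← ee_add]
    congr 1
    simp only [K]
    ring
  rw [intervalIntegral.integral_congr h, intervalIntegral.integral_const_mul, norm_mul, norm_ee,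
    one_mul, intervalIntegral.integral_comp_sub_right
      (fun u => ee ((N : ℝ) * s / 2 * u ^ 2 + ((N : ℝ) * τa + e - ν) * u)) a, sub_self]

end Quad

variable (T : Track)

/-- The representative of an arc in `[0, 1/2]`. -/
noncomputable def mp (j : Fin T.n) : ℝ := |off 0 (T.mid j)|

/-- Which of an arc and its mirror image lies in `[0, 1/2]`. -/
noncomputable def sb (j : Fin T.n) : Bool := decide (0 ≤ off 0 (T.mid j))

theorem ctr_sb (j : Fin T.n) : ∃ z : ℤ, T.ctr (j, sb T j) = mp T j + z := by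
  have e : T.mid j = off 0 (T.mid j) + round (T.mid j) := by simp [off]
  by_cases h : 0 ≤ off 0 (T.mid j)
  · refine ⟨round (T.mid j), ?_⟩
    simp only [Arcs.ctr, sb, mp, h, decide_true, sg, if_true, one_mul, abs_of_nonneg h]
    exact e
  · refine ⟨-round (T.mid j), ?_⟩
    simp only [Arcs.ctr, sb, mp, h, decide_false, sg, Bool.false_eq_true, if_false,
      abs_of_neg (not_le.1 h)]
    push_cast
    linarith

theorem ctr_not_sb (j : Fin T.n) : ∃ z : ℤ, T.ctr (j, !(sb T j)) = -mp T j + z := by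
  obtain ⟨z, hz⟩ := ctr_sb T j
  refine ⟨-z, ?_⟩
  simp only [Arcs.ctr, sg_not] at hz ⊢
  push_cast
  linarith

theorem mp_sep {j k : Fin T.n} (h : j ≠ k) : T.rad j + T.rad k + T.gap ≤ |mp T j - mp T k| := by
  obtain ⟨z, hz⟩ := ctr_sb T j
  obtain ⟨z', hz'⟩ := ctr_sb T k
  have := T.hsep j k (sb T j) (sb T k) (fun e => h (Prod.ext_iff.1 e).2) (z - z')
  simp only [Arcs.ctr] at hz hz'
  rw [hz, hz'] at this
  convert this using 2
  push_cast
  ring

theorem mp_bounds (j : Fin T.n) :
    T.rad j + T.gap / 2 ≤ mp T j ∧ mp T j ≤ 1 / 2 - T.rad j - T.gap / 2 := by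
  obtain ⟨z, hz⟩ := ctr_sb T j
  obtain ⟨z', hz'⟩ := ctr_not_sb T j
  have hne : (sb T j, j) ≠ (!(sb T j), j) := by simp
  have h1 := T.hsep j j (sb T j) (!(sb T j)) hne (z - z')
  have h2 := T.hsep j j (sb T j) (!(sb T j)) hne (z - z' + 1)
  simp only [Arcs.ctr] at hz hz'
  rw [hz, hz'] at h1 h2
  have hm0 : 0 ≤ mp T j := abs_nonneg _
  have hm1 : mp T j ≤ 1 / 2 := by
    rw [mp, off, sub_zero]; exact abs_sub_round _
  push_cast at h1 h2
  constructor
  · rw [abs_of_nonneg (by linarith)] at h1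
    linarith
  · rw [abs_of_nonpos (by linarith)] at h2
    linarith

theorem mp_inj : Function.Injective (mp T) := fun j k h => by
  by_contra hne
  have := mp_sep T hne
  rw [h, sub_self, abs_zero] at this
  linarith [T.hrad j, T.hrad k, T.hgap]

theorem off_sb (j : Fin T.n) {θ : ℝ} (h0 : 0 ≤ θ) (h1 : θ ≤ 1 / 2) :
    off (T.ctr (j, sb T j)) θ = θ - mp T j := by
  obtain ⟨z, hz⟩ := ctr_sb T j
  have := mp_bounds T j
  have := T.hrad j
  have := T.hgap
  rw [hz, off_add_int, off_of_lt]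
  rw [abs_lt]
  constructor <;> linarith

theorem far_not_sb (j : Fin T.n) {θ : ℝ} (h0 : 0 ≤ θ) (h1 : θ ≤ 1 / 2) :
    T.rad j + T.δ ≤ |off (T.ctr (j, !(sb T j))) θ| := by
  obtain ⟨z, hz⟩ := ctr_not_sb T j
  obtain ⟨hl, hu⟩ := mp_bounds T j
  have := T.hrad j
  have := T.hgap
  have := T.hδgap
  rw [hz, off_add_int, off]
  rcases le_or_gt (round (θ - -mp T j)) 0 with hk | hk
  · have hk' : (round (θ - -mp T j) : ℝ) ≤ 0 := by exact_mod_cast hk
    rw [abs_of_nonneg (by linarith)]
    linarith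
  · have hk' : (1 : ℝ) ≤ (round (θ - -mp T j) : ℝ) := by exact_mod_cast hk
    rw [abs_of_nonpos (by linarith)]
    linarith

/-- Distinct arcs (or mirror arcs) do not meet. -/
theorem arc_unique {θ : ℝ} {p p' : Fin T.n × Bool} (h : |off (T.ctr p) θ| ≤ T.rad p.1)
    (h' : |off (T.ctr p') θ| ≤ T.rad p'.1) : p = p' := by
  by_contra hne
  have hs := T.hsep p.1 p'.1 p.2 p'.2
    (fun e => hne (Prod.ext (Prod.ext_iff.1 e).2 (Prod.ext_iff.1 e).1))
    (round (θ - T.ctr p') - round (θ - T.ctr p))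
  have e : sg p.2 * T.mid p.1 - sg p'.2 * T.mid p'.1
      - ((round (θ - T.ctr p') - round (θ - T.ctr p) : ℤ) : ℝ)
      = off (T.ctr p') θ - off (T.ctr p) θ := by
    simp only [off, Arcs.ctr]; push_cast; ring
  rw [e] at hs
  have := abs_sub (off (T.ctr p') θ) (off (T.ctr p) θ)
  linarith [T.hgap]

theorem free_eq_zero {θ : ℝ} {p : Fin T.n × Bool} (h : |off (T.ctr p) θ| ≤ T.rad p.1) :
    T.free θ = 0 := by
  rw [Arcs.free, sum_eq_single p, if_pos h, sub_self]
  · exact fun q _ hq => if_neg fun hh => hq (arc_unique T hh h)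
  · simp

theorem free_nonneg (θ : ℝ) : 0 ≤ T.free θ := by
  by_cases h : ∃ p : Fin T.n × Bool, |off (T.ctr p) θ| ≤ T.rad p.1
  · obtain ⟨p, hp⟩ := h
    rw [free_eq_zero T hp]
  · push Not at h
    rw [Arcs.free, sum_eq_zero fun q _ => if_neg (not_le.2 (h q)), sub_zero]
    exact zero_le_one

theorem free_le_one (θ : ℝ) : T.free θ ≤ 1 := by
  rw [Arcs.free, sub_le_self_iff]
  exact sum_nonneg fun p _ => by split_ifs <;> simp

theorem measurable_free : Measurable fun θ => T.free θ := by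
  refine measurable_const.sub (Finset.measurable_sum _ fun p _ => ?_)
  exact Measurable.ite (measurableSet_le (measurable_off _).abs measurable_const) measurable_const
    measurable_const

theorem free_integrable (a b : ℝ) : IntervalIntegrable (fun θ => T.free θ) volume a b := by
  refine intervalIntegrable_const.mono_fun' (g := fun _ => (1 : ℝ))
    (measurable_free T).aestronglyMeasurable (ae_of_all _ fun θ => ?_)
  dsimp only
  rw [Real.norm_eq_abs, abs_of_nonneg (free_nonneg T θ)]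
  exact free_le_one T θ

theorem free_reflect (u : ℝ) : T.free (1 - u) = T.free u := by
  simp only [Arcs.free]
  congr 1
  refine Fintype.sum_equiv (Equiv.prodCongr (Equiv.refl _) Equiv.boolNot) _ _ fun p => ?_
  have e : |off (T.ctr p) (1 - u)|
      = |off (T.ctr (Equiv.prodCongr (Equiv.refl _) Equiv.boolNot p)) u| := by
    have hc : T.ctr (Equiv.prodCongr (Equiv.refl _) Equiv.boolNot p) = -T.ctr p := by
      simp [Arcs.ctr, sg_not]
    rw [hc, abs_off_eq, abs_off_eq, show (1 - u - T.ctr p : ℝ) = 1 + -(u - -T.ctr p) by ring,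
      AddCircle.coe_add, AddCircle.coe_period, zero_add, AddCircle.coe_neg, norm_neg]
  rw [e]
  rfl

theorem base_eq {θ : ℝ} (h0 : 0 ≤ θ) (h1 : θ ≤ 1 / 2) :
    T.base θ = ∫ t in (0 : ℝ)..θ, T.free t := by
  rw [Arcs.base, abs_off_zero h0 h1]

theorem base_le (θ : ℝ) : T.base θ ≤ ∫ t in (0 : ℝ)..1, T.free t := by
  have h1 : |off 0 θ| ≤ 1 / 2 := by rw [off, sub_zero]; exact abs_sub_round _
  rw [Arcs.base, ← intervalIntegral.integral_add_adjacent_intervals (free_integrable T 0 |off 0 θ|)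
    (free_integrable T |off 0 θ| 1)]
  exact le_add_of_nonneg_right
    (intervalIntegral.integral_nonneg (by linarith) fun t _ => free_nonneg T t)

/-- The clear points: those at distance at least `rad + δ` from every representative. -/
def Clear (θ : ℝ) : Prop := ∀ j, T.rad j + T.δ ≤ |θ - mp T j|

theorem clear_off {θ : ℝ} (h0 : 0 ≤ θ) (h1 : θ ≤ 1 / 2) (hc : Clear T θ)
    (p : Fin T.n × Bool) : T.rad p.1 + T.δ ≤ |off (T.ctr p) θ| := by
  obtain ⟨j, σ⟩ := p
  by_cases hσ : σ = sb T j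
  · subst hσ
    rw [off_sb T j h0 h1]
    exact hc j
  · have hσ' : σ = !(sb T j) := by revert hσ; cases σ <;> cases sb T j <;> simp
    subst hσ'
    exact far_not_sb T j h0 h1

theorem clear_free {θ : ℝ} (h0 : 0 ≤ θ) (h1 : θ ≤ 1 / 2) (hc : Clear T θ) : T.free θ = 1 := by
  rw [Arcs.free, sum_eq_zero fun p _ => if_neg (not_le.2 ?_), sub_zero]
  linarith [clear_off T h0 h1 hc p, T.hδ]

theorem clear_tau {θ : ℝ} (h0 : 0 ≤ θ) (h1 : θ ≤ 1 / 2) (hc : Clear T θ) :
    T.tau θ = T.μ + T.M * T.base θ := by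
  simp [Track.tau, fun p => plateau_zero T.hδ (clear_off T h0 h1 hc p)]

theorem clear_chi {θ : ℝ} (h0 : 0 ≤ θ) (h1 : θ ≤ 1 / 2) (hc : Clear T θ)
    (w : Fin T.n → ℝ) : T.chi w θ = 0 := by
  simp [Track.chi, fun p => plateau_zero T.hδ (clear_off T h0 h1 hc p)]

theorem near_off {θ : ℝ} (h0 : 0 ≤ θ) (h1 : θ ≤ 1 / 2) {j : Fin T.n}
    (hj : |θ - mp T j| ≤ T.rad j + T.δ) {p : Fin T.n × Bool} (hp : p ≠ (j, sb T j)) :
    T.rad p.1 + T.δ ≤ |off (T.ctr p) θ| := by
  obtain ⟨k, σ⟩ := p
  by_cases hσ : σ = sb T k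
  · subst hσ
    have hkj : j ≠ k := by rintro rfl; exact hp rfl
    have := mp_sep T hkj
    have h3 : |mp T j - mp T k| ≤ |θ - mp T j| + |θ - mp T k| := by
      rw [show mp T j - mp T k = (θ - mp T k) - (θ - mp T j) by ring]
      linarith [abs_sub (θ - mp T k) (θ - mp T j)]
    rw [off_sb T k h0 h1]
    show T.rad k + T.δ ≤ _
    linarith [T.hδgap]
  · have hσ' : σ = !(sb T k) := by revert hσ; cases σ <;> cases sb T k <;> simp
    subst hσ'
    exact far_not_sb T k h0 h1

theorem near_tau {θ : ℝ} (h0 : 0 ≤ θ) (h1 : θ ≤ 1 / 2) {j : Fin T.n}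
    (hj : |θ - mp T j| ≤ T.rad j + T.δ) :
    T.tau θ = T.μ + T.M * T.base θ + plateau (T.rad j) T.δ (θ - mp T j) *
      (T.f j (sg (sb T j) * clamp (T.rad j) (θ - mp T j)) - T.μ -
        T.M * T.base (T.ctr (j, sb T j))) := by
  rw [Track.tau, sum_eq_single (j, sb T j)]
  · simp only [off_sb T j h0 h1]
  · intro p _ hp
    rw [plateau_zero T.hδ (near_off T h0 h1 hj hp), zero_mul]
  · simp

theorem near_chi {θ : ℝ} (h0 : 0 ≤ θ) (h1 : θ ≤ 1 / 2) {j : Fin T.n}
    (hj : |θ - mp T j| ≤ T.rad j + T.δ) (w : Fin T.n → ℝ) :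
    T.chi w θ = plateau (T.rad j) T.δ (θ - mp T j) * (sg (sb T j) * w j) := by
  rw [Track.chi, sum_eq_single (j, sb T j)]
  · simp only [off_sb T j h0 h1]
  · intro p _ hp
    rw [plateau_zero T.hδ (near_off T h0 h1 hj hp), zero_mul]
  · simp

theorem near_free {θ : ℝ} (h0 : 0 ≤ θ) (h1 : θ ≤ 1 / 2) {j : Fin T.n}
    (hj : |θ - mp T j| ≤ T.rad j + T.δ) (hr : T.rad j < |θ - mp T j|) : T.free θ = 1 := by
  rw [Arcs.free, sum_eq_zero fun p _ => if_neg (not_le.2 ?_), sub_zero]
  by_cases hp : p = (j, sb T j)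
  · subst hp
    rw [off_sb T j h0 h1]
    exact hr
  · linarith [near_off T h0 h1 hj hp, T.hδ]

/-- Where `free = 1` on an interval the base is linear. -/
theorem base_linear {a b θ : ℝ} (ha : 0 ≤ a) (hb : b ≤ 1 / 2) (hθ : θ ∈ Set.Icc a b)
    (hf : ∀ t ∈ Set.Ioo a b, T.free t = 1) : T.base θ = T.base a + (θ - a) := by
  have h1 : ∫ t in a..θ, T.free t = θ - a := by
    rw [intervalIntegral.integral_congr_Ioo_of_le hθ.1 (g := fun _ => (1 : ℝ))
      fun t ht => hf t ⟨ht.1, ht.2.trans_le hθ.2⟩]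
    simp
  rw [base_eq T (ha.trans hθ.1) (hθ.2.trans hb), base_eq T ha (hθ.1.trans (hθ.2.trans hb)),
    ← h1, intervalIntegral.integral_add_adjacent_intervals (free_integrable T 0 a)
      (free_integrable T a θ)]

theorem continuous_chi (w : Fin T.n → ℝ) : Continuous (T.chi w) := by
  obtain ⟨L, hL⟩ := T.chi_lipschitz
  set s : ℝ := 1 + ∑ j, |w j|
  have hs : 0 < s := by positivity
  have h : ∀ j, |w j / s| ≤ 1 := fun j => by
    rw [abs_div, abs_of_pos hs, div_le_one hs]
    linarith [single_le_sum (f := fun j => |w j|) (fun _ _ => abs_nonneg _) (mem_univ j)]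
  have e : T.chi w = fun θ => s * T.chi (fun j => w j / s) θ := by
    funext θ
    simp only [Track.chi, mul_sum]
    exact sum_congr rfl fun p _ => by field_simp
  rw [e]
  exact continuous_const.mul (continuous_of_lip (hL _ h))

theorem continuous_tau : Continuous T.tau := by
  obtain ⟨L, hL⟩ := T.tau_lipschitz
  exact continuous_of_lip hL

theorem continuous_G (N : ℕ) (w : Fin T.n → ℝ) (ν : ℝ) :
    Continuous fun θ => target N T.tau (T.chi w) θ * ee (-(ν * θ)) := by
  have h1 : Continuous fun θ => ∫ t in (0 : ℝ)..θ, T.tau t :=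
    intervalIntegral.continuous_primitive (fun a b => (continuous_tau T).intervalIntegrable a b) 0
  have := continuous_chi T w
  have := continuous_ee
  simp only [target]
  fun_prop

theorem integrable_F (N : ℕ) (w : Fin T.n → ℝ) (ν a b : ℝ) :
    IntervalIntegrable (fun θ => (T.free θ : ℂ) * (target N T.tau (T.chi w) θ * ee (-(ν * θ))))
      volume a b := by
  refine intervalIntegrable_const.mono_fun' (g := fun _ => (1 : ℝ))
    ((Complex.measurable_ofReal.comp (measurable_free T)).mul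
      (continuous_G T N w ν).measurable).aestronglyMeasurable (ae_of_all _ fun θ => ?_)
  dsimp only
  rw [norm_mul, norm_mul, target, norm_ee, norm_ee, Complex.norm_real, Real.norm_eq_abs,
    abs_of_nonneg (free_nonneg T θ), mul_one, mul_one]
  exact free_le_one T θ

/-- A piece with slope `s` where `free = 1`. -/
theorem free_piece (N : ℕ) (hN : 0 < N) (w : Fin T.n → ℝ) (ν : ℝ) {a b τa s χa e : ℝ}
    (hab : a ≤ b) (hs : s ≠ 0) (hf : ∀ t ∈ Set.Ioo a b, T.free t = 1)
    (hτ : ∀ θ ∈ Set.Icc a b, T.tau θ = τa + s * (θ - a))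
    (hχ : ∀ θ ∈ Set.Icc a b, T.chi w θ = χa + e * (θ - a)) :
    Real.sqrt N * ‖∫ θ in a..b, (T.free θ : ℂ) * (target N T.tau (T.chi w) θ * ee (-(ν * θ)))‖
      ≤ 6 / Real.sqrt |s| := by
  have hN' : (0 : ℝ) < N := by exact_mod_cast hN
  rw [intervalIntegral.integral_congr_Ioo_of_le hab
    (g := fun θ => target N T.tau (T.chi w) θ * ee (-(ν * θ)))
    fun t ht => by simp [hf t ht], piece_eq N (continuous_tau T) hab hτ hχ]
  refine (mul_le_mul_of_nonneg_left (quad_le (by positivity) _ _ _) (Real.sqrt_nonneg _)).trans ?_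
  rw [show |(N : ℝ) * s / 2| = (N : ℝ) * (|s| / 2) by
    rw [abs_div, abs_mul, abs_of_pos hN', abs_two]; ring,
    Real.sqrt_mul hN'.le, Real.sqrt_div' _ zero_le_two]
  have h2 : 4 * Real.sqrt 2 ≤ 6 := by
    nlinarith [Real.sq_sqrt (zero_le_two (α := ℝ)), Real.sqrt_nonneg (2 : ℝ)]
  have hsp : 0 < Real.sqrt |s| := Real.sqrt_pos.2 (abs_pos.2 hs)
  have hNp : 0 < Real.sqrt (N : ℝ) := Real.sqrt_pos.2 hN'
  field_simp
  linarith

/-- A ramp. -/
theorem ramp_le (N : ℕ) (hN : 0 < N) (w : Fin T.n → ℝ) (ν : ℝ) (j : Fin T.n) (right : Bool) :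
    Real.sqrt N * ‖∫ θ in (if right then mp T j + T.rad j else mp T j - T.rad j - T.δ)..
        (if right then mp T j + T.rad j + T.δ else mp T j - T.rad j),
        (T.free θ : ℂ) * (target N T.tau (T.chi w) θ * ee (-(ν * θ)))‖
      ≤ 9 * Real.sqrt (T.δ / T.σ₀) := by
  obtain ⟨hl, hu⟩ := mp_bounds T j
  have hr := T.hrad j
  have hδ := T.hδ
  have hg := T.hδgap
  set y : ℝ := if right then T.rad j else -T.rad j with hy
  set D : ℝ := T.f j (sg (sb T j) * y) - T.μ - T.M * T.base (T.ctr (j, sb T j)) with hD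
  set o : ℝ := if right then -1 else 1 with ho
  have hD0 : T.σ₀ ≤ D := by
    have hyr : |sg (sb T j) * y| ≤ T.rad j := by
      have : |sg (sb T j)| = 1 := by cases sb T j <;> simp [sg]
      rw [abs_mul, this, one_mul, hy]
      cases right <;> simp [abs_of_pos hr]
    have := (T.hfRange j _ hyr).1
    have := mul_le_mul_of_nonneg_left (base_le T (T.ctr (j, sb T j))) T.hM.le
    linarith
  set a : ℝ := if right then mp T j + T.rad j else mp T j - T.rad j - T.δ with ha
  set b : ℝ := if right then mp T j + T.rad j + T.δ else mp T j - T.rad j with hb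
  have hba : b = a + T.δ := by rw [ha, hb]; cases right <;> simp
  have ha0 : 0 ≤ a := by rw [ha]; cases right <;> simp <;> linarith
  have hb1 : b ≤ 1 / 2 := by rw [hb]; cases right <;> simp <;> linarith
  have hab : a ≤ b := by linarith
  have hdist : ∀ θ ∈ Set.Icc a b, |θ - mp T j| = (if right then θ - mp T j else mp T j - θ) ∧
      T.rad j ≤ |θ - mp T j| ∧ |θ - mp T j| ≤ T.rad j + T.δ ∧
      clamp (T.rad j) (θ - mp T j) = y := by
    intro θ hθ
    rw [ha, hb] at hθ
    cases right <;> simp only [Bool.false_eq_true, if_false, if_true, hy] at hθ ⊢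
    · obtain ⟨h1, h2⟩ := hθ
      rw [abs_of_nonpos (by linarith)]
      refine ⟨by ring, by linarith, by linarith, ?_⟩
      rw [clamp, min_eq_right (by linarith), max_eq_left (by linarith)]
    · obtain ⟨h1, h2⟩ := hθ
      rw [abs_of_nonneg (by linarith)]
      refine ⟨rfl, by linarith, by linarith, ?_⟩
      rw [clamp, min_eq_left (by linarith), max_eq_right (by linarith)]
  have hpl : ∀ θ ∈ Set.Icc a b, plateau (T.rad j) T.δ (θ - mp T j)
      = (if right then 1 else 0) + o / T.δ * (θ - a) := by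
    intro θ hθ
    obtain ⟨e, h1, h2, _⟩ := hdist θ hθ
    rw [plateau_ramp hδ h1 h2, e, ha, ho]
    cases right <;> simp <;> field_simp <;> ring
  have hf : ∀ t ∈ Set.Ioo a b, T.free t = 1 := fun t ht => by
    obtain ⟨e, h1, h2, _⟩ := hdist t ⟨ht.1.le, ht.2.le⟩
    refine near_free T (ha0.trans ht.1.le) (ht.2.le.trans hb1) h2 ?_
    rw [e]
    rw [ha, hb] at ht
    cases right <;> simp at ht ⊢ <;> linarith [ht.1, ht.2]
  have hτ : ∀ θ ∈ Set.Icc a b, T.tau θ
      = (T.μ + T.M * T.base a + (if right then 1 else 0) * D) + (T.M + o / T.δ * D) * (θ - a) := by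
    intro θ hθ
    obtain ⟨_, _, h2, hcl⟩ := hdist θ hθ
    rw [near_tau T (ha0.trans hθ.1) (hθ.2.trans hb1) h2, hcl, hpl θ hθ,
      base_linear T ha0 hb1 hθ hf, ← hD]
    ring
  have hχ : ∀ θ ∈ Set.Icc a b, T.chi w θ = (if right then 1 else 0) * (sg (sb T j) * w j)
      + (o / T.δ * (sg (sb T j) * w j)) * (θ - a) := by
    intro θ hθ
    rw [near_chi T (ha0.trans hθ.1) (hθ.2.trans hb1) (hdist θ hθ).2.2.1, hpl θ hθ]
    ring
  have hslope : T.σ₀ / (2 * T.δ) ≤ |T.M + o / T.δ * D| := by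
    have hM : T.M ≤ T.σ₀ / (2 * T.δ) := by
      rw [le_div_iff₀ (by positivity)]; linarith [T.hslope]
    have h1 : T.σ₀ / T.δ ≤ D / T.δ := div_le_div_of_nonneg_right hD0 hδ.le
    have h2 : T.σ₀ / T.δ = 2 * (T.σ₀ / (2 * T.δ)) := by field_simp
    have := T.hM
    rw [ho]
    cases right
    · refine le_trans ?_ (le_abs_self _)
      simp only [Bool.false_eq_true, if_false, div_mul_eq_mul_div, one_mul]
      linarith
    · refine le_trans ?_ (neg_le_abs _)
      simp only [if_true, div_mul_eq_mul_div, neg_mul, one_mul, neg_div]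
      linarith
  have hpos : 0 < T.σ₀ / (2 * T.δ) := by have := T.hσ₀; positivity
  refine (free_piece T N hN w ν hab (abs_pos.1 (hpos.trans_le hslope)) hf hτ hχ).trans ?_
  refine (div_le_div_of_nonneg_left (by norm_num) (Real.sqrt_pos.2 hpos)
    (Real.sqrt_le_sqrt hslope)).trans ?_
  have e : T.σ₀ / (2 * T.δ) = (2 * (T.δ / T.σ₀))⁻¹ := by
    have := T.hσ₀
    field_simp
  rw [e, Real.sqrt_inv, div_inv_eq_mul, Real.sqrt_mul zero_le_two]
  have h2 : Real.sqrt 2 ≤ 3 / 2 := by
    rw [Real.sqrt_le_left (by norm_num)]; norm_num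
  nlinarith [Real.sqrt_nonneg (T.δ / T.σ₀)]

/-- An arc with its two ramps. -/
theorem arc_le (N : ℕ) (hN : 0 < N) (w : Fin T.n → ℝ) (ν : ℝ) (j : Fin T.n) :
    Real.sqrt N * ‖∫ θ in (mp T j - T.rad j - T.δ)..(mp T j + T.rad j + T.δ),
        (T.free θ : ℂ) * (target N T.tau (T.chi w) θ * ee (-(ν * θ)))‖
      ≤ 18 * Real.sqrt (T.δ / T.σ₀) := by
  have h1 := ramp_le T N hN w ν j false
  have h2 := ramp_le T N hN w ν j true
  simp only [Bool.false_eq_true, if_false, if_true] at h1 h2
  obtain ⟨hl, hu⟩ := mp_bounds T j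
  have hr := T.hrad j
  have := T.hgap
  have h3 : ∫ θ in (mp T j - T.rad j)..(mp T j + T.rad j),
      (T.free θ : ℂ) * (target N T.tau (T.chi w) θ * ee (-(ν * θ))) = 0 := by
    rw [intervalIntegral.integral_congr (g := fun _ => (0 : ℂ))]
    · simp
    · intro θ hθ
      rw [Set.uIcc_of_le (by linarith)] at hθ
      have hz : T.free θ = 0 := by
        refine free_eq_zero T (p := (j, sb T j)) ?_
        rw [off_sb T j (by linarith [hθ.1]) (by linarith [hθ.2]), abs_le]
        show -T.rad j ≤ _ ∧ _ ≤ T.rad j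
        constructor <;> linarith [hθ.1, hθ.2]
      simp [hz]
  rw [← intervalIntegral.integral_add_adjacent_intervals
      (integrable_F T N w ν _ (mp T j + T.rad j)) (integrable_F T N w ν _ _),
    ← intervalIntegral.integral_add_adjacent_intervals
      (integrable_F T N w ν _ (mp T j - T.rad j)) (integrable_F T N w ν _ _), h3, add_zero]
  refine (mul_le_mul_of_nonneg_left (norm_add_le _ _) (Real.sqrt_nonneg _)).trans ?_
  linarith

section Order

/-- The arcs ordered by their representatives. -/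
noncomputable def arcAt (i : Fin T.n) : Fin T.n := Tuple.sort (mp T) i

theorem mp_strictMono : StrictMono fun i => mp T (arcAt T i) :=
  (Tuple.monotone_sort (mp T)).strictMono_of_injective
    ((mp_inj T).comp (Tuple.sort (mp T)).injective)

theorem mp_gap {i k : Fin T.n} (h : i < k) :
    mp T (arcAt T i) + T.rad (arcAt T i) + T.rad (arcAt T k) + T.gap ≤ mp T (arcAt T k) := by
  have hlt : mp T (arcAt T i) < mp T (arcAt T k) := mp_strictMono T h
  have := mp_sep T (j := arcAt T i) (k := arcAt T k) (fun e => hlt.ne (by rw [e]))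
  rw [abs_of_neg (by linarith)] at this
  linarith

/-- The right end of the hole `k`. -/
noncomputable def hi (k : ℕ) : ℝ :=
  if h : k < T.n then mp T (arcAt T ⟨k, h⟩) - T.rad (arcAt T ⟨k, h⟩) - T.δ else 1 / 2

/-- The left end of the hole `k`. -/
noncomputable def lo : ℕ → ℝ
  | 0 => 0
  | k + 1 => if h : k < T.n then mp T (arcAt T ⟨k, h⟩) + T.rad (arcAt T ⟨k, h⟩) + T.δ else 1 / 2

theorem lo_nonneg : ∀ k, 0 ≤ lo T k
  | 0 => le_rfl
  | k + 1 => by
    simp only [lo]
    split_ifs with h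
    · have := mp_bounds T (arcAt T ⟨k, h⟩)
      linarith [T.hrad (arcAt T ⟨k, h⟩), T.hgap, T.hδ]
    · norm_num

theorem hi_le (k : ℕ) : hi T k ≤ 1 / 2 := by
  simp only [hi]
  split_ifs with h
  · have := mp_bounds T (arcAt T ⟨k, h⟩)
    linarith [T.hrad (arcAt T ⟨k, h⟩), T.hgap, T.hδ]
  · exact le_rfl

theorem lo_le_hi {k : ℕ} (hk : k ≤ T.n) : lo T k ≤ hi T k := by
  have := T.hδgap
  cases k with
  | zero =>
    simp only [lo, hi]
    split_ifs with h
    · have := mp_bounds T (arcAt T ⟨0, h⟩)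
      linarith
    · norm_num
  | succ k =>
    have hk' : k < T.n := hk
    simp only [lo, hi, dif_pos hk']
    split_ifs with h
    · have := mp_gap T (i := ⟨k, hk'⟩) (k := ⟨k + 1, h⟩) (Nat.lt_succ_self k)
      linarith
    · have := mp_bounds T (arcAt T ⟨k, hk'⟩)
      linarith

theorem hi_add_le {k : ℕ} (hk : k < T.n) : hi T k + T.δ ≤ lo T (k + 1) := by
  simp only [hi, lo, dif_pos hk]
  linarith [T.hrad (arcAt T ⟨k, hk⟩), T.hδ]

theorem lo_mono {i k : ℕ} (hik : i ≤ k) (hk : k ≤ T.n) : lo T i ≤ lo T k := by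
  induction k, hik using Nat.le_induction with
  | base => exact le_rfl
  | succ k _ ih =>
    exact (ih (by omega)).trans ((lo_le_hi T (by omega)).trans
      (by linarith [hi_add_le T (show k < T.n by omega), T.hδ]))

theorem hole_clear {k : ℕ} (hk : k ≤ T.n) {θ : ℝ} (hθ : θ ∈ Set.Icc (lo T k) (hi T k)) :
    Clear T θ := by
  intro j
  obtain ⟨i, rfl⟩ := (Tuple.sort (mp T)).surjective j
  show T.rad (arcAt T i) + T.δ ≤ |θ - mp T (arcAt T i)|
  have := T.hδgap
  by_cases hik : (i : ℕ) < k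
  · refine le_trans ?_ (le_abs_self _)
    obtain ⟨k, rfl⟩ : ∃ k', k = k' + 1 := ⟨k - 1, by omega⟩
    have hk' : k < T.n := hk
    have h1 := hθ.1
    simp only [lo, dif_pos hk'] at h1
    rcases (Nat.lt_succ_iff.1 hik).eq_or_lt with h | h
    · have : i = ⟨k, hk'⟩ := Fin.ext h
      subst this
      linarith
    · have := mp_gap T (i := i) (k := ⟨k, hk'⟩) h
      linarith [T.hrad (arcAt T ⟨k, hk'⟩), T.hδ]
  · refine le_trans ?_ (neg_le_abs _)
    have hk' : k < T.n := lt_of_le_of_lt (not_lt.1 hik) i.2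
    have h2 := hθ.2
    simp only [hi, dif_pos hk'] at h2
    rcases (not_lt.1 hik).eq_or_lt with h | h
    · have : i = ⟨k, hk'⟩ := Fin.ext h.symm
      subst this
      linarith
    · have := mp_gap T (i := ⟨k, hk'⟩) (k := i) h
      linarith [T.hrad (arcAt T ⟨k, hk'⟩), T.hδ]

/-- The speeds in distinct holes are separated. -/
theorem base_hi_lo {i k : ℕ} (hik : i < k) (hk : k ≤ T.n) :
    T.base (hi T i) + T.δ ≤ T.base (lo T k) := by
  have hi' : i < T.n := lt_of_lt_of_le hik hk
  set j := arcAt T ⟨i, hi'⟩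
  obtain ⟨hl, hu⟩ := mp_bounds T j
  have hr := T.hrad j
  have hδ := T.hδ
  have hg := T.hδgap
  have e : hi T i = mp T j - T.rad j - T.δ := by simp only [hi, dif_pos hi']; rfl
  have h0 : 0 ≤ hi T i := (lo_nonneg T i).trans (lo_le_hi T hi'.le)
  have hle : hi T i + T.δ ≤ lo T k := (hi_add_le T hi').trans (lo_mono T hik hk)
  have hk2 : lo T k ≤ 1 / 2 := (lo_le_hi T hk).trans (hi_le T k)
  have hone : ∀ t ∈ Set.Ioo (hi T i) (hi T i + T.δ), T.free t = 1 := fun t ht => by
    rw [e] at ht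
    refine near_free T (by linarith [ht.1]) (by linarith [ht.2]) (j := j) ?_ ?_ <;>
      rw [abs_of_neg (by linarith [ht.2])] <;> linarith [ht.1, ht.2]
  rw [← base_linear T h0 (hle.trans hk2) (θ := hi T i + T.δ) ⟨by linarith, le_rfl⟩ hone |>.trans
    (by ring : T.base (hi T i) + (hi T i + T.δ - hi T i) = T.base (hi T i) + T.δ),
    base_eq T (by linarith) (hle.trans hk2), base_eq T ((by linarith : (0 : ℝ) ≤ hi T i + T.δ).trans hle) hk2,
    ← intervalIntegral.integral_add_adjacent_intervals (free_integrable T 0 (hi T i + T.δ))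
      (free_integrable T (hi T i + T.δ) (lo T k))]
  exact le_add_of_nonneg_right (intervalIntegral.integral_nonneg hle fun t _ => free_nonneg T t)

theorem hole_le (N : ℕ) (hN : 0 < N) (w : Fin T.n → ℝ) (ν : ℝ) {k : ℕ} (hk : k ≤ T.n) :
    Real.sqrt N * ‖∫ θ in (lo T k)..(hi T k),
        (T.free θ : ℂ) * (target N T.tau (T.chi w) θ * ee (-(ν * θ)))‖ ≤ 6 / Real.sqrt T.M ∧
      ∀ d, 0 < d → (ν / N + d ≤ T.μ + T.M * T.base (lo T k) ∨
          T.μ + T.M * T.base (hi T k) ≤ ν / N - d) →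
        Real.sqrt N * ‖∫ θ in (lo T k)..(hi T k),
          (T.free θ : ℂ) * (target N T.tau (T.chi w) θ * ee (-(ν * θ)))‖ ≤ 1 / (d * Real.sqrt N) := by
  have hab := lo_le_hi T hk
  have ha0 := lo_nonneg T k
  have hb1 := hi_le T k
  have hcl : ∀ θ ∈ Set.Icc (lo T k) (hi T k), Clear T θ := fun θ hθ => hole_clear T hk hθ
  have hf : ∀ t ∈ Set.Ioo (lo T k) (hi T k), T.free t = 1 := fun t ht =>
    clear_free T (ha0.trans ht.1.le) (ht.2.le.trans hb1) (hcl t ⟨ht.1.le, ht.2.le⟩)
  have hτ : ∀ θ ∈ Set.Icc (lo T k) (hi T k),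
      T.tau θ = (T.μ + T.M * T.base (lo T k)) + T.M * (θ - lo T k) := fun θ hθ => by
    rw [clear_tau T (ha0.trans hθ.1) (hθ.2.trans hb1) (hcl θ hθ), base_linear T ha0 hb1 hθ hf]
    ring
  have hχ : ∀ θ ∈ Set.Icc (lo T k) (hi T k), T.chi w θ = 0 + 0 * (θ - lo T k) := fun θ hθ => by
    rw [clear_chi T (ha0.trans hθ.1) (hθ.2.trans hb1) (hcl θ hθ)]
    ring
  constructor
  · simpa [abs_of_pos T.hM] using free_piece T N hN w ν hab T.hM.ne' hf hτ hχ
  · intro d hd hcase
    have hN' : (0 : ℝ) < N := by exact_mod_cast hN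
    have hbb : T.base (hi T k) = T.base (lo T k) + (hi T k - lo T k) :=
      base_linear T ha0 hb1 ⟨hab, le_rfl⟩ hf
    rw [intervalIntegral.integral_congr_Ioo_of_le hab
      (g := fun θ => target N T.tau (T.chi w) θ * ee (-(ν * θ)))
      fun t ht => by simp [hf t ht], piece_eq N (continuous_tau T) hab hτ hχ]
    have hA : 0 < (N : ℝ) * T.M / 2 := by have := T.hM; positivity
    refine (mul_le_mul_of_nonneg_left (quad_far_le hA _ (lam := (N : ℝ) * d) (sub_nonneg.2 hab)
      (by positivity) ?_) (Real.sqrt_nonneg _)).trans ?_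
    · have e : (N : ℝ) * (ν / N) = ν := by field_simp
      rcases hcase with h | h
      · left
        have := mul_le_mul_of_nonneg_left h hN'.le
        rw [mul_add, e] at this
        linarith
      · right
        have := mul_le_mul_of_nonneg_left h hN'.le
        rw [mul_sub, e, hbb] at this
        nlinarith
    · have hs : 0 < Real.sqrt (N : ℝ) := Real.sqrt_pos.2 hN'
      have hpi : 1 ≤ Real.pi := by linarith [Real.pi_gt_three]
      rw [mul_one_div, div_le_div_iff₀ (by positivity) (by positivity)]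
      have := Real.mul_self_sqrt hN'.le
      nlinarith [mul_nonneg (sub_nonneg.2 hpi) (mul_nonneg hN'.le hd.le)]

end Order

/-- Half a period. -/
theorem half_le (N : ℕ) (hN : 0 < N) (w : Fin T.n → ℝ) (ν : ℝ) :
    Real.sqrt N * ‖∫ θ in (0 : ℝ)..(1 / 2),
        (T.free θ : ℂ) * (target N T.tau (T.chi w) θ * ee (-(ν * θ)))‖
      ≤ 6 / Real.sqrt T.M + 18 * T.n * Real.sqrt (T.δ / T.σ₀)
        + (T.n + 1) * (1 / (T.M * T.δ / 3 * Real.sqrt N)) := by
  set F : ℝ → ℂ := fun θ => (T.free θ : ℂ) * (target N T.tau (T.chi w) θ * ee (-(ν * θ)))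
  set d := T.M * T.δ / 3 with hd
  have hd0 : 0 < d := by have := T.hM; have := T.hδ; positivity
  set g : ℕ → ℝ := fun k => Real.sqrt N * ‖∫ θ in (lo T k)..(hi T k), F θ‖
  set small : ℝ := 1 / (d * Real.sqrt N) with hsmall
  have hsmall0 : 0 ≤ small := by positivity
  have hholes : ∑ k ∈ range (T.n + 1), g k ≤ 6 / Real.sqrt T.M + (T.n + 1) * small := by
    by_cases hex : ∃ k0 ∈ range (T.n + 1), ¬ (ν / N + d ≤ T.μ + T.M * T.base (lo T k0) ∨
        T.μ + T.M * T.base (hi T k0) ≤ ν / N - d)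
    · obtain ⟨k0, hk0, hbad⟩ := hex
      push Not at hbad
      refine le_trans (sum_le_sum (g := fun k => (if k = k0 then 6 / Real.sqrt T.M else 0) + small)
        fun k hk => ?_) ?_
      · have hkn : k ≤ T.n := Nat.lt_succ_iff.1 (mem_range.1 hk)
        have hk0n : k0 ≤ T.n := Nat.lt_succ_iff.1 (mem_range.1 hk0)
        by_cases he : k = k0
        · subst he
          rw [if_pos rfl]
          linarith [(hole_le T N hN w ν hkn).1]
        · rw [if_neg he, zero_add]
          refine (hole_le T N hN w ν hkn).2 d hd0 ?_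
          have hδM : T.M * T.δ = 3 * d := by rw [hd]; ring
          rcases lt_or_gt_of_ne he with h | h
          · right
            have := mul_le_mul_of_nonneg_left (base_hi_lo T h hk0n) T.hM.le
            rw [mul_add, hδM] at this
            linarith
          · left
            have := mul_le_mul_of_nonneg_left (base_hi_lo T h hkn) T.hM.le
            rw [mul_add, hδM] at this
            linarith
      · rw [sum_add_distrib, sum_ite_eq' (range (T.n + 1)) k0, if_pos hk0, sum_const, card_range,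
          nsmul_eq_mul]
        push_cast
        exact le_rfl
    · push Not at hex
      refine le_trans (sum_le_sum (g := fun _ => small) fun k hk =>
        (hole_le T N hN w ν (Nat.lt_succ_iff.1 (mem_range.1 hk))).2 d hd0 ?_) ?_
      · exact hex k hk
      · rw [sum_const, card_range, nsmul_eq_mul]
        push_cast
        linarith [div_nonneg (by norm_num : (0 : ℝ) ≤ 6) (Real.sqrt_nonneg T.M)]
  have hchain : ∀ k ≤ T.n, Real.sqrt N * ‖∫ θ in (0 : ℝ)..(hi T k), F θ‖
      ≤ ∑ i ∈ range (k + 1), g i + k * (18 * Real.sqrt (T.δ / T.σ₀)) := by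
    intro k
    induction k with
    | zero => intro _; simp [g, lo]
    | succ k ih =>
      intro hk
      have hk' : k < T.n := hk
      have harc := arc_le T N hN w ν (arcAt T ⟨k, hk'⟩)
      have e1 : hi T k = mp T (arcAt T ⟨k, hk'⟩) - T.rad (arcAt T ⟨k, hk'⟩) - T.δ := by
        simp only [hi, dif_pos hk']
      have e2 : lo T (k + 1) = mp T (arcAt T ⟨k, hk'⟩) + T.rad (arcAt T ⟨k, hk'⟩) + T.δ := by
        simp only [lo, dif_pos hk']
      rw [← e1, ← e2] at harc
      have e := intervalIntegral.integral_add_adjacent_intervals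
        (integrable_F T N w ν 0 (hi T k)) (integrable_F T N w ν (hi T k) (lo T (k + 1)))
      rw [← intervalIntegral.integral_add_adjacent_intervals
        (integrable_F T N w ν 0 (lo T (k + 1))) (integrable_F T N w ν (lo T (k + 1)) _), ← e,
        sum_range_succ]
      refine (mul_le_mul_of_nonneg_left (norm_add₃_le) (Real.sqrt_nonneg _)).trans ?_
      have := ih (by omega)
      simp only [g, F] at this ⊢
      push_cast
      rw [mul_add, mul_add]
      linarith
  have h := hchain T.n le_rfl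
  have e : hi T T.n = 1 / 2 := by simp [hi]
  rw [e] at h
  linarith

/-- The second half of the period is the conjugate of the first. -/
theorem norm_second_half (N : ℕ) (w : Fin T.n → ℝ) (ν : ℝ) :
    ‖∫ θ in (1 / 2 : ℝ)..1, (T.free θ : ℂ) * (target N T.tau (T.chi w) θ * ee (-(ν * θ)))‖
      = ‖∫ θ in (0 : ℝ)..(1 / 2),
          (T.free θ : ℂ) * (target N T.tau (T.chi w) θ * ee (-(ν * θ)))‖ := by
  set Ψ : ℝ → ℝ := fun x => ∫ t in (0 : ℝ)..x, T.tau t
  set K : ℂ := ee ((N : ℝ) * Ψ 1 - ν)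
  have hτ : ∀ t, T.tau (1 - t) = T.tau t := fun t => by
    rw [sub_eq_add_neg, add_comm, T.tau_periodic, T.tau_even]
  have hΨ : ∀ u, Ψ (1 - u) = Ψ 1 - Ψ u := fun u => by
    have h1 := intervalIntegral.integral_add_adjacent_intervals
      ((continuous_tau T).intervalIntegrable (μ := volume) 0 (1 - u))
      ((continuous_tau T).intervalIntegrable (μ := volume) (1 - u) 1)
    have h2 : ∫ t in (1 - u)..1, T.tau t = Ψ u := by
      have := intervalIntegral.integral_comp_sub_left (a := (0 : ℝ)) (b := u) T.tau 1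
      rw [sub_zero] at this
      rw [← this]
      simp only [hτ, Ψ]
    simp only [Ψ] at h1 h2 ⊢
    linarith
  have hF : ∀ u, (T.free (1 - u) : ℂ) * (target N T.tau (T.chi w) (1 - u) * ee (-(ν * (1 - u))))
      = K * starRingEnd ℂ ((T.free u : ℂ) * (target N T.tau (T.chi w) u * ee (-(ν * u)))) := by
    intro u
    have hc : T.chi w (1 - u) = -T.chi w u := by
      rw [sub_eq_add_neg, add_comm, T.chi_periodic, T.chi_odd]
    simp only [map_mul, Complex.conj_ofReal, target, conj_ee', free_reflect]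
    rw [hc, show (∫ t in (0 : ℝ)..(1 - u), T.tau t) = Ψ 1 - Ψ u from hΨ u]
    simp only [K]
    rw [mul_left_comm (ee ((N : ℝ) * Ψ 1 - ν))]
    congr 1
    rw [← ee_add, ← ee_add, ← ee_add]
    congr 1
    simp only [Ψ]
    ring
  have hc : ∫ u in (0 : ℝ)..(1 / 2), starRingEnd ℂ
        ((T.free u : ℂ) * (target N T.tau (T.chi w) u * ee (-(ν * u))))
      = starRingEnd ℂ (∫ u in (0 : ℝ)..(1 / 2),
          (T.free u : ℂ) * (target N T.tau (T.chi w) u * ee (-(ν * u)))) := by
    rw [intervalIntegral.integral_of_le (by norm_num), intervalIntegral.integral_of_le (by norm_num)]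
    exact integral_conj
  have hrefl := intervalIntegral.integral_comp_sub_left (a := (0 : ℝ)) (b := 1 / 2)
    (fun θ => (T.free θ : ℂ) * (target N T.tau (T.chi w) θ * ee (-(ν * θ)))) 1
  rw [sub_zero, show (1 : ℝ) - 1 / 2 = 1 / 2 by norm_num] at hrefl
  rw [← hrefl]
  simp only [hF]
  rw [intervalIntegral.integral_const_mul, hc, norm_mul, norm_ee, one_mul, Complex.norm_conj]

end HoleAux

namespace Track

/-- In a hole the speed is `μ + M · base`, whose slope is `±M`, and its ranges over different holes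
of a half period are at least `M δ` apart; on a ramp its slope is at least `σ₀ / (2 δ)` and `chi` is
linear. So at most two holes can be stationary. -/
theorem hole_bound : ∃ C : ℝ, ∀ (T : Track) (ε : ℝ), 0 < ε → ∃ N₀ : ℕ, ∀ N, N₀ ≤ N →
    ∀ (w : Fin T.n → ℝ) (ν : ℝ),
      Real.sqrt N * ‖∫ θ in (0 : ℝ)..1,
          (T.free θ : ℂ) * (target N T.tau (T.chi w) θ * ee (-(ν * θ)))‖ ≤
        C / Real.sqrt T.M + C * T.n * Real.sqrt (T.δ / T.σ₀) + ε := by
  refine ⟨36, fun T ε hε => ?_⟩
  set d := T.M * T.δ / 3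
  have hd : 0 < d := by have := T.hM; have := T.hδ; positivity
  set X : ℝ := 2 * (T.n + 1) / (d * ε)
  have hX : 0 ≤ X := by positivity
  refine ⟨⌈X ^ 2⌉₊ + 1, fun N hN w ν => ?_⟩
  have hN0 : 0 < N := by omega
  have hN' : X ^ 2 ≤ N := (Nat.le_ceil _).trans (by exact_mod_cast Nat.le_of_succ_le hN)
  have hsq : X ≤ Real.sqrt N := Real.le_sqrt_of_sq_le hN'
  have hs : 0 < Real.sqrt (N : ℝ) := Real.sqrt_pos.2 (by exact_mod_cast hN0)
  have hsmall : 2 * (((T.n : ℝ) + 1) * (1 / (d * Real.sqrt N))) ≤ ε := by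
    rw [div_le_iff₀ (by positivity)] at hsq
    rw [← mul_assoc, mul_one_div, div_le_iff₀ (by positivity)]
    linarith
  have h1 := HoleAux.half_le T N hN0 w ν
  have h2 := HoleAux.norm_second_half T N w ν
  rw [← intervalIntegral.integral_add_adjacent_intervals (HoleAux.integrable_F T N w ν 0 (1 / 2))
    (HoleAux.integrable_F T N w ν (1 / 2) 1)]
  refine (mul_le_mul_of_nonneg_left (norm_add_le _ _) hs.le).trans ?_
  rw [h2, mul_add]
  have h0 : 0 ≤ 6 / Real.sqrt T.M := div_nonneg (by norm_num) (Real.sqrt_nonneg _)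
  have e : (36 : ℝ) / Real.sqrt T.M = 6 * (6 / Real.sqrt T.M) := by ring
  rw [e]
  linarith

end Track

end Vale.Agent.P110.Flat
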