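import Vale.Agent.P110.Flat.NibbleExp

/-! One round of the semi-random method for nearly regular partite hypergraphs. -/

namespace Vale.Agent.P110.Flat.Nib

open Finset

variable {K : ℕ} {α ι : Type} [DecidableEq α] [DecidableEq ι]

/-- Edges of `E` through the vertex `x` of class `i`. -/
def inc (H : ι → Fin K → α) (E : Finset ι) (i : Fin K) (x : α) : Finset ι :=
  E.filter fun e => H e i = x

/-- Edges meeting `e` in a class other than `i`. -/
def nbrOff (H : ι → Fin K → α) (E : Finset ι) (i : Fin K) (e : ι) : Finset ι :=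
  (univ.erase i).biUnion fun j => inc H E j (H e j)

/-- Edges meeting `e`. -/
def nbr (H : ι → Fin K → α) (E : Finset ι) (e : ι) : Finset ι :=
  univ.biUnion fun j => inc H E j (H e j)

/-- Near regularity of the edge set `E` on the vertex classes `V`, with real parameters. -/
structure NR (H : ι → Fin K → α) (V : Fin K → Finset α) (E : Finset ι) (n D η : ℝ) : Prop where
  mem : ∀ e ∈ E, ∀ i, H e i ∈ V i
  card : ∀ i, |((V i).card : ℝ) - n| ≤ η * n
  deg : ∀ i, ∑ x ∈ V i, |((inc H E i x).card : ℝ) - D| ≤ η * D * n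
  codeg : ∀ i j, i ≠ j → ∀ x y, ((inc H E i x ∩ inc H E j y).card : ℝ) ≤ η * D

omit [DecidableEq ι] in
theorem mem_inc {H : ι → Fin K → α} {E : Finset ι} {i : Fin K} {x : α} {e : ι} :
    e ∈ inc H E i x ↔ e ∈ E ∧ H e i = x := by simp [inc]

omit [DecidableEq ι] in
theorem inc_subset (H : ι → Fin K → α) (E : Finset ι) (i : Fin K) (x : α) : inc H E i x ⊆ E :=
  Finset.filter_subset _ _

theorem nbrOff_subset (H : ι → Fin K → α) (E : Finset ι) (i : Fin K) (e : ι) :
    nbrOff H E i e ⊆ E :=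
  Finset.biUnion_subset.2 fun j _ => inc_subset H E j _

theorem nbr_subset (H : ι → Fin K → α) (E : Finset ι) (e : ι) : nbr H E e ⊆ E :=
  Finset.biUnion_subset.2 fun j _ => inc_subset H E j _

omit [DecidableEq ι] in
theorem card_E_eq {H : ι → Fin K → α} {V : Fin K → Finset α} {E : Finset ι}
    (hm : ∀ e ∈ E, ∀ i, H e i ∈ V i) (i : Fin K) :
    (E.card : ℝ) = ∑ x ∈ V i, ((inc H E i x).card : ℝ) := by
  exact_mod_cast Finset.card_eq_sum_card_fiberwise (f := fun e => H e i) (fun e he => hm e he i)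

omit [DecidableEq ι] in
theorem sum_fiber {H : ι → Fin K → α} {V : Fin K → Finset α} {E : Finset ι}
    (hm : ∀ e ∈ E, ∀ i, H e i ∈ V i) (i : Fin K) (g : ι → ℝ) :
    ∑ x ∈ V i, ∑ e ∈ inc H E i x, g e = ∑ e ∈ E, g e :=
  Finset.sum_fiberwise_of_maps_to (g := fun e => H e i) (fun e he => hm e he i) g

variable {H : ι → Fin K → α} {V : Fin K → Finset α} {E : Finset ι} {n D η : ℝ}

/-- The deterministic estimate on the number of competitors of an edge. -/
theorem nbrOff_card (hNR : NR H V E n D η) (hD : 0 ≤ η * D) (i : Fin K) (e : ι) :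
    |((nbrOff H E i e).card : ℝ) - ((K : ℝ) - 1) * D| ≤
      (K : ℝ) ^ 2 * (η * D) + ∑ j ∈ univ.erase i, |((inc H E j (H e j)).card : ℝ) - D| := by
  set s := (univ : Finset (Fin K)).erase i with hs
  set A := fun j => inc H E j (H e j) with hA
  have hcard : (s.card : ℝ) = (K : ℝ) - 1 := by
    have hK : 1 ≤ K := Nat.one_le_iff_ne_zero.2 fun h => (Fin.cast h i).elim0
    rw [hs, Finset.card_erase_of_mem (Finset.mem_univ i), Finset.card_univ, Fintype.card_fin,
      Nat.cast_sub hK]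
    simp
  have hsub : ∑ j ∈ s, ((A j).card : ℝ) - ((K : ℝ) - 1) * D = ∑ j ∈ s, (((A j).card : ℝ) - D) := by
    rw [Finset.sum_sub_distrib, Finset.sum_const, nsmul_eq_mul, hcard]
  have habs : |∑ j ∈ s, (((A j).card : ℝ) - D)| ≤ ∑ j ∈ s, |((A j).card : ℝ) - D| :=
    Finset.abs_sum_le_sum_abs _ _
  have hup : ((nbrOff H E i e).card : ℝ) ≤ ∑ j ∈ s, ((A j).card : ℝ) := by
    have := Finset.card_biUnion_le (s := s) (t := A)
    exact_mod_cast this
  have hlow : ∑ j ∈ s, ((A j).card : ℝ) ≤ ((nbrOff H E i e).card : ℝ) + (K : ℝ) ^ 2 * (η * D) := by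
    refine (sum_card_le_card_biUnion_add s A).trans ?_
    gcongr
    · exact le_of_eq rfl
    calc ∑ j ∈ s, ∑ k ∈ s.erase j, ((A j ∩ A k).card : ℝ)
        ≤ ∑ j ∈ s, ∑ k ∈ s.erase j, η * D := Finset.sum_le_sum fun j _ =>
          Finset.sum_le_sum fun k hk => hNR.codeg j k (Finset.ne_of_mem_erase hk).symm _ _
      _ ≤ ∑ j ∈ (univ : Finset (Fin K)), ∑ k ∈ (univ : Finset (Fin K)), η * D := by
          refine (Finset.sum_le_sum fun j _ => Finset.sum_le_sum_of_subset_of_nonneg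
            (Finset.subset_univ _) fun _ _ _ => hD).trans ?_
          exact Finset.sum_le_sum_of_subset_of_nonneg (Finset.subset_univ _)
            fun _ _ _ => Finset.sum_nonneg fun _ _ => hD
      _ = (K : ℝ) ^ 2 * (η * D) := by simp; ring
  have hKD : 0 ≤ (K : ℝ) ^ 2 * (η * D) := mul_nonneg (sq_nonneg _) hD
  obtain ⟨h1, h2⟩ := abs_le.1 habs
  rw [abs_le]
  constructor <;> linarith

variable {θ ζ : ℝ}

/-- Expected deviation of the new degrees in one class. -/
theorem deg_round (hNR : NR H V E n D η) (hdeg : ∀ i x, ((inc H E i x).card : ℝ) ≤ 2 * D)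
    (hn : 0 < n) (hη0 : 0 ≤ η) (hη1 : η ≤ 1) (hD : 1 ≤ D) (hθ0 : 0 < θ) (hθ1 : θ ≤ 1)
    (hζ0 : 0 < ζ) (hζ : η ≤ ζ ^ 4) (hζ1 : ζ ≤ 1) (hDζ : 1 / D ≤ ζ ^ 2) (i : Fin K) :
    Ex E (θ / D) (fun S => ∑ x ∈ V i,
        |(∑ e ∈ inc H E i x, ind (nbrOff H E i e) S) - Real.exp (-(((K : ℝ) - 1) * θ)) * D|) ≤
      (18 * (K : ℝ) ^ 2 + 1) * ζ ^ 2 * D * n := by
  set p := θ / D with hp
  set ρ := Real.exp (-(((K : ℝ) - 1) * θ)) with hρ
  have hD0 : 0 < D := by linarith
  have hp0 : 0 ≤ p := by positivity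
  have hp1 : p ≤ 1 := (div_le_one hD0).2 (by linarith)
  have hpD : p * D = θ := by rw [hp]; field_simp
  have hK : (1 : ℝ) ≤ K := by
    exact_mod_cast Nat.one_le_iff_ne_zero.2 fun h => (Fin.cast h i).elim0
  have hρ1 : ρ ≤ 1 := Real.exp_le_one_iff.2 (by nlinarith)
  have hρ0 : 0 < ρ := Real.exp_pos _
  have hηD : 0 ≤ η * D := by positivity
  have hV : ∀ j, ((V j).card : ℝ) ≤ 2 * n := fun j => by
    have := abs_le.1 (hNR.card j); nlinarith
  have hE : (E.card : ℝ) ≤ 4 * D * n := by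
    rw [card_E_eq hNR.mem i]
    calc ∑ x ∈ V i, ((inc H E i x).card : ℝ) ≤ ∑ x ∈ V i, 2 * D :=
          Finset.sum_le_sum fun x _ => hdeg i x
      _ = (V i).card * (2 * D) := by simp
      _ ≤ (2 * n) * (2 * D) := by gcongr; exact hV i
      _ = 4 * D * n := by ring
  have hnb : ∀ e, ((nbrOff H E i e).card : ℝ) ≤ 2 * (K : ℝ) * D := by
    intro e
    have h := Finset.card_biUnion_le (s := (univ : Finset (Fin K)).erase i)
      (t := fun j => inc H E j (H e j))
    have h' : ((nbrOff H E i e).card : ℝ) ≤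
        ∑ j ∈ (univ : Finset (Fin K)).erase i, ((inc H E j (H e j)).card : ℝ) := by
      unfold nbrOff; exact_mod_cast h
    refine h'.trans ?_
    calc ∑ j ∈ (univ : Finset (Fin K)).erase i, ((inc H E j (H e j)).card : ℝ)
        ≤ ∑ j ∈ (univ : Finset (Fin K)).erase i, 2 * D := Finset.sum_le_sum fun j _ => hdeg j _
      _ ≤ ∑ j ∈ (univ : Finset (Fin K)), 2 * D :=
          Finset.sum_le_sum_of_subset_of_nonneg (Finset.subset_univ _) fun _ _ _ => by positivity
      _ = 2 * (K : ℝ) * D := by simp; ring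
  set v : ℝ := 4 * (K : ℝ) ^ 2 * ζ ^ 4 * D ^ 2 with hv
  set t : ℝ := 2 * (K : ℝ) * D * ζ ^ 2 with ht
  have htpos : 0 < t := by positivity
  have hvar : ∀ x, p * ∑ a ∈ inc H E i x, ∑ b ∈ inc H E i x,
      ((nbrOff H E i a ∩ nbrOff H E i b).card : ℝ) ≤ v := by
    intro x
    set A := inc H E i x with hA
    have hb : ∀ a, ∑ b ∈ A, ((nbrOff H E i a ∩ nbrOff H E i b).card : ℝ) ≤
        2 * (K : ℝ) * D * ((K : ℝ) * (η * D)) := by
      intro a
      have hcount : ∀ f : ι, ((A.filter fun b => f ∈ nbrOff H E i b).card : ℝ) ≤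
          (K : ℝ) * (η * D) := by
        intro f
        have hsub : (A.filter fun b => f ∈ nbrOff H E i b) ⊆
            ((univ : Finset (Fin K)).erase i).biUnion fun j => A ∩ inc H E j (H f j) := by
          intro b hb
          simp only [Finset.mem_filter, nbrOff, Finset.mem_biUnion] at hb
          obtain ⟨hbA, j, hj, hf⟩ := hb
          refine Finset.mem_biUnion.2 ⟨j, hj, Finset.mem_inter.2 ⟨hbA, ?_⟩⟩
          exact mem_inc.2 ⟨(mem_inc.1 hbA).1, ((mem_inc.1 hf).2).symm⟩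
        have := (Finset.card_le_card hsub).trans Finset.card_biUnion_le
        have h' : ((A.filter fun b => f ∈ nbrOff H E i b).card : ℝ) ≤
            ∑ j ∈ (univ : Finset (Fin K)).erase i, ((A ∩ inc H E j (H f j)).card : ℝ) := by
          exact_mod_cast this
        refine h'.trans ?_
        calc ∑ j ∈ (univ : Finset (Fin K)).erase i, ((A ∩ inc H E j (H f j)).card : ℝ)
            ≤ ∑ j ∈ (univ : Finset (Fin K)).erase i, η * D := Finset.sum_le_sum fun j hj =>
              hNR.codeg i j (Finset.ne_of_mem_erase hj).symm x _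
          _ ≤ ∑ j ∈ (univ : Finset (Fin K)), η * D :=
              Finset.sum_le_sum_of_subset_of_nonneg (Finset.subset_univ _) fun _ _ _ => hηD
          _ = (K : ℝ) * (η * D) := by simp
      have hswap : ∑ b ∈ A, ((nbrOff H E i a ∩ nbrOff H E i b).card : ℝ) =
          ∑ f ∈ nbrOff H E i a, ((A.filter fun b => f ∈ nbrOff H E i b).card : ℝ) := by
        simp only [← Finset.filter_mem_eq_inter, Finset.card_filter]
        push_cast
        exact Finset.sum_comm
      rw [hswap]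
      calc ∑ f ∈ nbrOff H E i a, ((A.filter fun b => f ∈ nbrOff H E i b).card : ℝ)
          ≤ ∑ f ∈ nbrOff H E i a, (K : ℝ) * (η * D) := Finset.sum_le_sum fun f _ => hcount f
        _ = (nbrOff H E i a).card * ((K : ℝ) * (η * D)) := by simp
        _ ≤ 2 * (K : ℝ) * D * ((K : ℝ) * (η * D)) := by gcongr; exact hnb a
    calc p * ∑ a ∈ A, ∑ b ∈ A, ((nbrOff H E i a ∩ nbrOff H E i b).card : ℝ)
        ≤ p * ∑ a ∈ A, 2 * (K : ℝ) * D * ((K : ℝ) * (η * D)) := by
          gcongr with a _; exact hb a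
      _ = p * ((A.card : ℝ) * (2 * (K : ℝ) * D * ((K : ℝ) * (η * D)))) := by simp
      _ ≤ p * (2 * D * (2 * (K : ℝ) * D * ((K : ℝ) * (η * D)))) := by
          gcongr; exact hdeg i x
      _ = 4 * (K : ℝ) ^ 2 * η * D ^ 2 * (p * D) := by ring
      _ ≤ 4 * (K : ℝ) ^ 2 * η * D ^ 2 * 1 := by rw [hpD]; gcongr
      _ ≤ v := by rw [hv, mul_one]; gcongr
  have hper : ∀ x, Ex E p (fun S => |(∑ e ∈ inc H E i x, ind (nbrOff H E i e) S) - ρ * D|) ≤
      |(inc H E i x).card - D| + (∑ e ∈ inc H E i x, |(1 - p) ^ (nbrOff H E i e).card - ρ|) +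
        2 * (K : ℝ) * D * ζ ^ 2 := by
    intro x
    refine (Ex_abs_dev E hp0 hp1 (inc H E i x) (fun e => nbrOff H E i e)
      (fun e _ => nbrOff_subset H E i e) (ρ * D) htpos (hvar x)).trans ?_
    have h1 : v / (2 * t) + t / 2 = 2 * (K : ℝ) * D * ζ ^ 2 := by
      rw [hv, ht]; field_simp; ring
    have h2 : |(∑ e ∈ inc H E i x, (1 - p) ^ (nbrOff H E i e).card) - ρ * D| ≤
        |(inc H E i x).card - D| + ∑ e ∈ inc H E i x, |(1 - p) ^ (nbrOff H E i e).card - ρ| := by
      have heq : (∑ e ∈ inc H E i x, (1 - p) ^ (nbrOff H E i e).card) - ρ * D =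
          (∑ e ∈ inc H E i x, ((1 - p) ^ (nbrOff H E i e).card - ρ)) +
            ρ * ((inc H E i x).card - D) := by
        rw [Finset.sum_sub_distrib, Finset.sum_const, nsmul_eq_mul]; ring
      rw [heq]
      refine (abs_add_le _ _).trans ?_
      rw [abs_mul, abs_of_pos hρ0]
      have := Finset.abs_sum_le_sum_abs
        (fun e => (1 - p) ^ (nbrOff H E i e).card - ρ) (inc H E i x)
      nlinarith [abs_nonneg (((inc H E i x).card : ℝ) - D)]
    linarith
  have hedge : ∀ e, |(1 - p) ^ (nbrOff H E i e).card - ρ| ≤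
      (2 * (K : ℝ) + (K : ℝ) ^ 2) * ζ ^ 2 +
        p * ∑ j ∈ univ.erase i, |((inc H E j (H e j)).card : ℝ) - D| := by
    intro e
    have h1 := pow_approx hp0 hp1 (ν := ((K : ℝ) - 1) * θ) (by nlinarith) (nbrOff H E i e).card
    have h2 := nbrOff_card hNR hηD i e
    have h3 : |p * (nbrOff H E i e).card - ((K : ℝ) - 1) * θ| ≤ p * ((K : ℝ) ^ 2 * (η * D) +
        ∑ j ∈ univ.erase i, |((inc H E j (H e j)).card : ℝ) - D|) := by
      have : p * ((nbrOff H E i e).card : ℝ) - ((K : ℝ) - 1) * θ =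
          p * (((nbrOff H E i e).card : ℝ) - ((K : ℝ) - 1) * D) := by rw [← hpD]; ring
      rw [this, abs_mul, abs_of_nonneg hp0]
      gcongr
    have h4 : ((nbrOff H E i e).card : ℝ) * p ^ 2 ≤ 2 * (K : ℝ) * ζ ^ 2 := by
      calc ((nbrOff H E i e).card : ℝ) * p ^ 2 ≤ 2 * (K : ℝ) * D * p ^ 2 := by
            gcongr; exact hnb e
        _ = 2 * (K : ℝ) * (θ * θ) * (1 / D) := by rw [hp]; field_simp
        _ ≤ 2 * (K : ℝ) * (1 * 1) * ζ ^ 2 := by gcongr
        _ = 2 * (K : ℝ) * ζ ^ 2 := by ring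
    have h5 : p * ((K : ℝ) ^ 2 * (η * D)) ≤ (K : ℝ) ^ 2 * ζ ^ 2 := by
      calc p * ((K : ℝ) ^ 2 * (η * D)) = (K : ℝ) ^ 2 * η * (p * D) := by ring
        _ ≤ (K : ℝ) ^ 2 * η * 1 := by rw [hpD]; gcongr
        _ ≤ (K : ℝ) ^ 2 * ζ ^ 4 * 1 := by gcongr
        _ ≤ (K : ℝ) ^ 2 * ζ ^ 2 := by
            rw [mul_one]; gcongr 1
            exact pow_le_pow_of_le_one hζ0.le hζ1 (by norm_num)
    rw [mul_add] at h3
    linarith
  have hcross : ∀ j, ∑ e ∈ E, |((inc H E j (H e j)).card : ℝ) - D| ≤ 2 * D * (η * D * n) := by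
    intro j
    rw [← sum_fiber hNR.mem j (fun e => |((inc H E j (H e j)).card : ℝ) - D|)]
    calc ∑ x ∈ V j, ∑ e ∈ inc H E j x, |((inc H E j (H e j)).card : ℝ) - D|
        = ∑ x ∈ V j, (inc H E j x).card * |((inc H E j x).card : ℝ) - D| := by
          refine Finset.sum_congr rfl fun x _ => ?_
          rw [← nsmul_eq_mul, ← Finset.sum_const]
          refine Finset.sum_congr rfl fun e he => ?_
          rw [(mem_inc.1 he).2]
      _ ≤ ∑ x ∈ V j, 2 * D * |((inc H E j x).card : ℝ) - D| := by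
          gcongr with x _; exact hdeg j x
      _ ≤ 2 * D * (η * D * n) := by rw [← Finset.mul_sum]; gcongr; exact hNR.deg j
  rw [Ex_sum]
  calc ∑ x ∈ V i, Ex E p (fun S => |(∑ e ∈ inc H E i x, ind (nbrOff H E i e) S) - ρ * D|)
      ≤ ∑ x ∈ V i, (|((inc H E i x).card : ℝ) - D| +
          (∑ e ∈ inc H E i x, |(1 - p) ^ (nbrOff H E i e).card - ρ|) +
            2 * (K : ℝ) * D * ζ ^ 2) := Finset.sum_le_sum fun x _ => hper x
    _ = (∑ x ∈ V i, |((inc H E i x).card : ℝ) - D|) +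
          (∑ e ∈ E, |(1 - p) ^ (nbrOff H E i e).card - ρ|) +
            (V i).card * (2 * (K : ℝ) * D * ζ ^ 2) := by
        rw [Finset.sum_add_distrib, Finset.sum_add_distrib, sum_fiber hNR.mem i]; simp
    _ ≤ η * D * n + ((2 * (K : ℝ) + (K : ℝ) ^ 2) * ζ ^ 2 * (4 * D * n) +
          p * ((K : ℝ) * (2 * D * (η * D * n)))) + 2 * n * (2 * (K : ℝ) * D * ζ ^ 2) := by
        gcongr
        · exact hNR.deg i
        · calc ∑ e ∈ E, |(1 - p) ^ (nbrOff H E i e).card - ρ|
              ≤ ∑ e ∈ E, ((2 * (K : ℝ) + (K : ℝ) ^ 2) * ζ ^ 2 +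
                  p * ∑ j ∈ univ.erase i, |((inc H E j (H e j)).card : ℝ) - D|) :=
                Finset.sum_le_sum fun e _ => hedge e
            _ = (2 * (K : ℝ) + (K : ℝ) ^ 2) * ζ ^ 2 * E.card +
                  p * ∑ j ∈ univ.erase i, ∑ e ∈ E, |((inc H E j (H e j)).card : ℝ) - D| := by
                rw [Finset.sum_add_distrib, Finset.sum_const, nsmul_eq_mul, ← Finset.mul_sum,
                  Finset.sum_comm (s := univ.erase i)]
                ring
            _ ≤ _ := by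
                gcongr
                calc ∑ j ∈ univ.erase i, ∑ e ∈ E, |((inc H E j (H e j)).card : ℝ) - D|
                    ≤ ∑ j ∈ univ.erase i, 2 * D * (η * D * n) :=
                      Finset.sum_le_sum fun j _ => hcross j
                  _ ≤ ∑ j ∈ (univ : Finset (Fin K)), 2 * D * (η * D * n) :=
                      Finset.sum_le_sum_of_subset_of_nonneg (Finset.subset_univ _)
                        fun _ _ _ => by positivity
                  _ = (K : ℝ) * (2 * D * (η * D * n)) := by simp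
        · exact hV i
    _ = (η + (12 * (K : ℝ) + 4 * (K : ℝ) ^ 2) * ζ ^ 2 + 2 * (K : ℝ) * η * (p * D)) * D * n := by
        ring
    _ ≤ (18 * (K : ℝ) ^ 2 + 1) * ζ ^ 2 * D * n + 0 := by
        rw [hpD, add_zero]
        have h24 : η ≤ ζ ^ 2 := hζ.trans (pow_le_pow_of_le_one hζ0.le hζ1 (by norm_num))
        have hKK : (K : ℝ) ≤ (K : ℝ) ^ 2 := by nlinarith
        have h1 : 2 * (K : ℝ) * η * θ ≤ 2 * (K : ℝ) ^ 2 * ζ ^ 2 := by
          calc 2 * (K : ℝ) * η * θ ≤ 2 * (K : ℝ) ^ 2 * ζ ^ 2 * 1 := by gcongr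
            _ = _ := by ring
        gcongr ?_ * D * n
        have : (12 * (K : ℝ) + 4 * (K : ℝ) ^ 2) * ζ ^ 2 ≤ 16 * (K : ℝ) ^ 2 * ζ ^ 2 := by
          gcongr; linarith
        nlinarith
    _ = _ := add_zero _

/-- Expected deviation of the number of surviving vertices in one class. -/
theorem card_round (hNR : NR H V E n D η) (hdeg : ∀ i x, ((inc H E i x).card : ℝ) ≤ 2 * D)
    (hn : 0 < n) (hη0 : 0 ≤ η) (hη1 : η ≤ 1) (hD : 1 ≤ D) (hθ0 : 0 < θ) (hθ1 : θ ≤ 1)
    (hζ0 : 0 < ζ) (hζ : η ≤ ζ ^ 4) (hζ1 : ζ ≤ 1) (hDζ : 1 / D ≤ ζ ^ 2)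
    (hbig : 1 ≤ 4 * ζ ^ 4 * n) (i : Fin K) :
    Ex E (θ / D) (fun S => |(∑ x ∈ V i, ind (inc H E i x) S) - Real.exp (-θ) * n|) ≤
      11 * ζ ^ 2 * n := by
  set p := θ / D with hp
  have hD0 : 0 < D := by linarith
  have hp0 : 0 ≤ p := by positivity
  have hp1 : p ≤ 1 := (div_le_one hD0).2 (by linarith)
  have hpD : p * D = θ := by rw [hp]; field_simp
  have hV : ((V i).card : ℝ) ≤ 2 * n := by
    have := abs_le.1 (hNR.card i); nlinarith
  have hv : p * ∑ a ∈ V i, ∑ b ∈ V i, ((inc H E i a ∩ inc H E i b).card : ℝ) ≤ 4 * n := by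
    have h : ∀ a ∈ V i, ∑ b ∈ V i, ((inc H E i a ∩ inc H E i b).card : ℝ) =
        (inc H E i a).card := by
      intro a ha
      rw [Finset.sum_eq_single a]
      · simp
      · intro b _ hb
        have : inc H E i a ∩ inc H E i b = ∅ := by
          apply Finset.eq_empty_of_forall_notMem
          intro e he
          simp only [Finset.mem_inter, mem_inc] at he
          exact hb (he.2.2.symm.trans he.1.2)
        simp [this]
      · exact fun h => absurd ha h
    rw [Finset.sum_congr rfl h]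
    calc p * ∑ a ∈ V i, ((inc H E i a).card : ℝ) ≤ p * ∑ a ∈ V i, 2 * D := by
          gcongr with a _; exact hdeg i a
      _ = 2 * (p * D) * (V i).card := by simp; ring
      _ ≤ 2 * 1 * (2 * n) := by rw [hpD]; gcongr
      _ = 4 * n := by ring
  have ht : 0 < 4 * n * ζ ^ 2 := by positivity
  refine (Ex_abs_dev E hp0 hp1 (V i) (fun x => inc H E i x) (fun x _ => inc_subset H E i x)
    (Real.exp (-θ) * n) ht hv).trans ?_
  have h1 : 4 * n / (2 * (4 * n * ζ ^ 2)) ≤ 2 * ζ ^ 2 * n := by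
    rw [show 4 * n / (2 * (4 * n * ζ ^ 2)) = 1 / (2 * ζ ^ 2) by field_simp]
    rw [div_le_iff₀ (by positivity)]
    nlinarith
  have h24 : η ≤ ζ ^ 2 := hζ.trans (pow_le_pow_of_le_one hζ0.le hζ1 (by norm_num))
  have h2 : |(∑ x ∈ V i, (1 - p) ^ (inc H E i x).card) - Real.exp (-θ) * n| ≤
      7 * ζ ^ 2 * n := by
    have heq : (∑ x ∈ V i, (1 - p) ^ (inc H E i x).card) - Real.exp (-θ) * n =
        (∑ x ∈ V i, ((1 - p) ^ (inc H E i x).card - Real.exp (-θ))) +
          Real.exp (-θ) * ((V i).card - n) := by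
      rw [Finset.sum_sub_distrib, Finset.sum_const, nsmul_eq_mul]; ring
    rw [heq]
    refine (abs_add_le _ _).trans ?_
    have ha : |Real.exp (-θ) * ((V i).card - n)| ≤ ζ ^ 2 * n := by
      rw [abs_mul, abs_of_pos (Real.exp_pos _)]
      calc Real.exp (-θ) * |((V i).card : ℝ) - n| ≤ 1 * (η * n) := by
            gcongr
            · exact Real.exp_le_one_iff.2 (by linarith)
            · exact hNR.card i
        _ ≤ ζ ^ 2 * n := by rw [one_mul]; gcongr
    have hb : |∑ x ∈ V i, ((1 - p) ^ (inc H E i x).card - Real.exp (-θ))| ≤ 6 * ζ ^ 2 * n := by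
      refine (Finset.abs_sum_le_sum_abs _ _).trans ?_
      calc ∑ x ∈ V i, |(1 - p) ^ (inc H E i x).card - Real.exp (-θ)|
          ≤ ∑ x ∈ V i, (2 * ζ ^ 2 + p * |((inc H E i x).card : ℝ) - D|) := by
            refine Finset.sum_le_sum fun x _ => ?_
            refine (pow_approx hp0 hp1 hθ0.le _).trans ?_
            have e1 : p * ((inc H E i x).card : ℝ) - θ =
                p * (((inc H E i x).card : ℝ) - D) := by rw [← hpD]; ring
            rw [e1, abs_mul, abs_of_nonneg hp0]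
            have e2 : ((inc H E i x).card : ℝ) * p ^ 2 ≤ 2 * ζ ^ 2 := by
              calc ((inc H E i x).card : ℝ) * p ^ 2 ≤ 2 * D * p ^ 2 := by
                    gcongr; exact hdeg i x
                _ = 2 * (θ * θ) * (1 / D) := by rw [hp]; field_simp
                _ ≤ 2 * (1 * 1) * ζ ^ 2 := by gcongr
                _ = 2 * ζ ^ 2 := by ring
            linarith
        _ = (V i).card * (2 * ζ ^ 2) + p * ∑ x ∈ V i, |((inc H E i x).card : ℝ) - D| := by
            rw [Finset.sum_add_distrib, Finset.sum_const, nsmul_eq_mul, ← Finset.mul_sum]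
        _ ≤ 2 * n * (2 * ζ ^ 2) + p * (η * D * n) := by gcongr; exact hNR.deg i
        _ = 4 * ζ ^ 2 * n + θ * η * n := by rw [← hpD]; ring
        _ ≤ 4 * ζ ^ 2 * n + 1 * ζ ^ 2 * n := by gcongr
        _ ≤ 6 * ζ ^ 2 * n := by nlinarith
    linarith
  have : 4 * n * ζ ^ 2 / 2 = 2 * ζ ^ 2 * n := by ring
  linarith

end Vale.Agent.P110.Flat.Nib
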