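import Vale.Agent.P110.Flat.Defs
import Vale.Agent.P110.Flat.NibbleStep

/-! Almost perfect matchings in nearly regular partite hypergraphs (semi-random method). -/

namespace Vale.Agent.P110.Flat

open Finset

namespace Nib

variable {K : ℕ} {α ι : Type} [DecidableEq α] [DecidableEq ι]

/-- The chosen edges that meet no other chosen edge. -/
def alone (H : ι → Fin K → α) (S : Finset ι) : Finset ι :=
  S.filter fun e => ∀ e' ∈ S, e' ≠ e → ∀ j, H e j ≠ H e' j

variable {H : ι → Fin K → α} {V : Fin K → Finset α} {E : Finset ι} {n D η θ ζ : ℝ}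

theorem alone_lower {S : Finset ι} (hS : S ⊆ E) :
    ∑ e ∈ E, ((if e ∈ S then (1 : ℝ) else 0) - ∑ e' ∈ (nbr H E e).erase e,
        (if e ∈ S then (1 : ℝ) else 0) * (if e' ∈ S then (1 : ℝ) else 0)) ≤
      ((alone H S).card : ℝ) := by
  rw [alone, ← Finset.sum_boole]
  have h : ∀ f : ι → ℝ, (∀ e, e ∉ S → f e = 0) → ∑ e ∈ E, f e = ∑ e ∈ S, f e := fun f hf =>
    (Finset.sum_subset hS fun e _ he => hf e he).symm
  rw [h _ fun e he => by simp [he]]
  refine Finset.sum_le_sum fun e he => ?_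
  simp only [he, if_true, one_mul]
  split_ifs with hal
  · have : 0 ≤ ∑ e' ∈ (nbr H E e).erase e, (if e' ∈ S then (1 : ℝ) else 0) :=
      Finset.sum_nonneg fun _ _ => by positivity
    linarith
  · push Not at hal
    obtain ⟨e', he', hne, j, hj⟩ := hal
    have hmem : e' ∈ (nbr H E e).erase e := Finset.mem_erase.2
      ⟨hne, Finset.mem_biUnion.2 ⟨j, Finset.mem_univ j, mem_inc.2 ⟨hS he', hj.symm⟩⟩⟩
    have := Finset.single_le_sum (f := fun e'' => if e'' ∈ S then (1 : ℝ) else 0)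
      (fun _ _ => by positivity) hmem
    simp only [he', if_true] at this
    linarith

theorem alone_expect (hNR : NR H V E n D η) (hdeg : ∀ i x, ((inc H E i x).card : ℝ) ≤ 2 * D)
    (hη0 : 0 ≤ η) (hη1 : η ≤ 1) (_hn : 0 < n) (hD : 1 ≤ D) (hθ0 : 0 < θ) (hθ1 : θ ≤ 1) (i : Fin K) :
    θ * n * (1 - 2 * η) - 8 * (K : ℝ) * θ ^ 2 * n ≤
      Ex E (θ / D) (fun S => ((alone H S).card : ℝ)) := by
  set p := θ / D with hp
  have hD0 : 0 < D := by linarith
  have hp0 : 0 ≤ p := by positivity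
  have hp1 : p ≤ 1 := (div_le_one hD0).2 (by linarith)
  have hpD : p * D = θ := by rw [hp]; field_simp
  have hV := abs_le.1 (hNR.card i)
  have hd := hNR.deg i
  have hlow : (1 - 2 * η) * (n * D) ≤ E.card := by
    have h1 : ∑ x ∈ V i, (D - |((inc H E i x).card : ℝ) - D|) ≤ E.card := by
      rw [card_E_eq hNR.mem i]
      refine Finset.sum_le_sum fun x _ => ?_
      have := neg_abs_le (((inc H E i x).card : ℝ) - D)
      linarith
    rw [Finset.sum_sub_distrib, Finset.sum_const, nsmul_eq_mul] at h1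
    nlinarith
  have hE : (E.card : ℝ) ≤ 4 * D * n := by
    rw [card_E_eq hNR.mem i]
    calc ∑ x ∈ V i, ((inc H E i x).card : ℝ) ≤ ∑ x ∈ V i, 2 * D :=
          Finset.sum_le_sum fun x _ => hdeg i x
      _ = (V i).card * (2 * D) := by simp
      _ ≤ (2 * n) * (2 * D) := by gcongr; nlinarith
      _ = 4 * D * n := by ring
  refine le_trans ?_ (Ex_mono E hp0 hp1 fun S hS => alone_lower (H := H) hS)
  rw [Ex_sum]
  have hterm : ∀ e ∈ E, p - 2 * (K : ℝ) * D * p ^ 2 ≤ Ex E p (fun S =>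
      (if e ∈ S then (1 : ℝ) else 0) - ∑ e' ∈ (nbr H E e).erase e,
        (if e ∈ S then (1 : ℝ) else 0) * (if e' ∈ S then (1 : ℝ) else 0)) := by
    intro e he
    rw [Ex_sub, Ex_mem E p he, Ex_sum]
    have h : ∀ e' ∈ (nbr H E e).erase e, Ex E p (fun S =>
        (if e ∈ S then (1 : ℝ) else 0) * (if e' ∈ S then (1 : ℝ) else 0)) = p ^ 2 := fun e' he' =>
      Ex_mem_mem E p he (nbr_subset H E e (Finset.mem_of_mem_erase he'))
        (Finset.ne_of_mem_erase he').symm
    rw [Finset.sum_congr rfl h, Finset.sum_const, nsmul_eq_mul]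
    have hc : (((nbr H E e).erase e).card : ℝ) ≤ 2 * (K : ℝ) * D := by
      calc (((nbr H E e).erase e).card : ℝ) ≤ (nbr H E e).card := by
            exact_mod_cast Finset.card_erase_le
        _ ≤ ∑ j : Fin K, ((inc H E j (H e j)).card : ℝ) := by
            unfold nbr; exact_mod_cast Finset.card_biUnion_le
        _ ≤ ∑ _j : Fin K, 2 * D := Finset.sum_le_sum fun j _ => hdeg j _
        _ = 2 * (K : ℝ) * D := by simp; ring
    gcongr
  refine le_trans ?_ (Finset.sum_le_sum hterm)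
  rw [Finset.sum_const, nsmul_eq_mul]
  calc θ * n * (1 - 2 * η) - 8 * (K : ℝ) * θ ^ 2 * n
      = p * ((1 - 2 * η) * (n * D)) - 2 * (K : ℝ) * D * p ^ 2 * (4 * D * n) := by
        rw [← hpD]; ring
    _ ≤ p * E.card - 2 * (K : ℝ) * D * p ^ 2 * E.card := by gcongr
    _ = E.card * (p - 2 * (K : ℝ) * D * p ^ 2) := by ring

/-- One round, assuming all degrees are at most twice the average. -/
theorem round (hK : 2 ≤ K) (hNR : NR H V E n D η)
    (hdeg : ∀ i x, ((inc H E i x).card : ℝ) ≤ 2 * D) (hη0 : 0 ≤ η) (hη1 : η ≤ 1) (hn : 0 < n)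
    (hD : 1 ≤ D) (hθ0 : 0 < θ) (hθ1 : θ ≤ 1) (hζ0 : 0 < ζ) (hζ : η ≤ ζ ^ 4) (hζ1 : ζ ≤ 1)
    (hDζ : 1 / D ≤ ζ ^ 2) (hbig : 1 ≤ 4 * ζ ^ 4 * n) :
    let C1 : ℝ := (K : ℝ) * (18 * (K : ℝ) ^ 2 + 12)
    ∃ M : Finset ι, ∃ V' : Fin K → Finset α, ∃ E' : Finset ι, M ⊆ E ∧ E' ⊆ E ∧
      (∀ e ∈ M, ∀ e' ∈ M, e ≠ e' → ∀ i, H e i ≠ H e' i) ∧
      (∀ e ∈ M, ∀ e' ∈ E', ∀ i, H e i ≠ H e' i) ∧
      (∀ e ∈ E', ∀ i, H e i ∈ V' i) ∧
      θ * n - (8 * (K : ℝ) * θ ^ 2 + (C1 + 2) * ζ) * n ≤ (M.card : ℝ) ∧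
      (∀ i, |((V' i).card : ℝ) - Real.exp (-θ) * n| ≤ (8 * (K : ℝ) + 4 + C1) * ζ * n) ∧
      (∀ i, ∑ x ∈ V' i, |((inc H E' i x).card : ℝ) - Real.exp (-(((K : ℝ) - 1) * θ)) * D| ≤
        (8 * (K : ℝ) + 4 + C1) * ζ * D * n) := by
  intro C1
  set p := θ / D with hp
  set ρ := Real.exp (-(((K : ℝ) - 1) * θ)) with hρ
  have hD0 : 0 < D := by linarith
  have hp0 : 0 ≤ p := by positivity
  have hp1 : p ≤ 1 := (div_le_one hD0).2 (by linarith)
  let i0 : Fin K := ⟨0, by omega⟩
  let dd : Fin K → Finset ι → ℝ := fun i S =>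
    ∑ x ∈ V i, |(∑ e ∈ inc H E i x, ind (nbrOff H E i e) S) - ρ * D|
  let dc : Fin K → Finset ι → ℝ := fun i S =>
    |(∑ x ∈ V i, ind (inc H E i x) S) - Real.exp (-θ) * n|
  let cost : Finset ι → ℝ := fun S =>
    (1 / ζ) * ∑ i, ((1 / D) * dd i S + dc i S) - ((alone H S).card : ℝ)
  have hζ2 : ζ ^ 2 ≤ ζ := by nlinarith
  have hEcost : Ex E p cost ≤ C1 * ζ * n - θ * n + (8 * (K : ℝ) * θ ^ 2 + 2 * ζ) * n := by
    have h1 : Ex E p cost = (1 / ζ) * ∑ i, ((1 / D) * Ex E p (dd i) + Ex E p (dc i)) -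
        Ex E p (fun S => ((alone H S).card : ℝ)) := by
      simp only [cost]
      rw [Ex_sub, Ex_const_mul, Ex_sum]
      simp only [Ex_add, Ex_const_mul]
    have h2 : ∀ i, (1 / D) * Ex E p (dd i) + Ex E p (dc i) ≤
        (18 * (K : ℝ) ^ 2 + 12) * ζ ^ 2 * n := by
      intro i
      have ha := deg_round hNR hdeg hn hη0 hη1 hD hθ0 hθ1 hζ0 hζ hζ1 hDζ i
      have hb := card_round hNR hdeg hn hη0 hη1 hD hθ0 hθ1 hζ0 hζ hζ1 hDζ hbig i
      have : (1 / D) * Ex E p (dd i) ≤ (18 * (K : ℝ) ^ 2 + 1) * ζ ^ 2 * n := by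
        rw [one_div_mul_eq_div, div_le_iff₀ hD0]
        calc Ex E p (dd i) ≤ _ := ha
          _ = _ := by ring
      calc (1 / D) * Ex E p (dd i) + Ex E p (dc i)
          ≤ (18 * (K : ℝ) ^ 2 + 1) * ζ ^ 2 * n + 11 * ζ ^ 2 * n := add_le_add this hb
        _ = _ := by ring
    have h3 : (1 / ζ) * ∑ i, ((1 / D) * Ex E p (dd i) + Ex E p (dc i)) ≤ C1 * ζ * n := by
      calc (1 / ζ) * ∑ i, ((1 / D) * Ex E p (dd i) + Ex E p (dc i))
          ≤ (1 / ζ) * ∑ _i : Fin K, (18 * (K : ℝ) ^ 2 + 12) * ζ ^ 2 * n := by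
            gcongr with i _; exact h2 i
        _ = C1 * ζ * n := by simp [C1]; field_simp
    have h4 := alone_expect hNR hdeg hη0 hη1 hn hD hθ0 hθ1 i0
    have h5 : θ * η * n ≤ ζ * n := by
      calc θ * η * n ≤ 1 * ζ ^ 4 * n := by gcongr
        _ ≤ ζ * n := by
          rw [one_mul]; gcongr
          exact pow_le_of_le_one hζ0.le hζ1 (by norm_num)
    rw [h1]
    linarith
  obtain ⟨S, hSE, hS⟩ := exists_le_Ex E hp0 hp1 cost
  have hpos : ∀ i, 0 ≤ (1 / D) * dd i S + dc i S := fun i => by positivity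
  have hpos' : 0 ≤ (1 / ζ) * ∑ i, ((1 / D) * dd i S + dc i S) :=
    mul_nonneg (by positivity) (Finset.sum_nonneg fun i _ => hpos i)
  have hM1 : ∀ e ∈ alone H S, ∀ e' ∈ alone H S, e ≠ e' → ∀ i, H e i ≠ H e' i := by
    intro e he e' he' hne
    exact (Finset.mem_filter.1 he).2 e' (Finset.mem_filter.1 he').1 hne.symm
  have hM2 : ((alone H S).card : ℝ) ≤ 2 * n := by
    have hle : (alone H S).card ≤ (V i0).card := by
      refine Finset.card_le_card_of_injOn (fun e => H e i0)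
        (fun e he => hNR.mem e (hSE (Finset.mem_filter.1 he).1) i0) ?_
      intro e he e' he' h
      by_contra hne
      exact hM1 e he e' he' hne i0 h
    have := abs_le.1 (hNR.card i0)
    have hle' : ((alone H S).card : ℝ) ≤ (V i0).card := by exact_mod_cast hle
    nlinarith
  have hcost : (1 / ζ) * ∑ i, ((1 / D) * dd i S + dc i S) - ((alone H S).card : ℝ) ≤
      C1 * ζ * n - θ * n + (8 * (K : ℝ) * θ ^ 2 + 2 * ζ) * n := hS.trans hEcost
  have hC1 : 0 ≤ C1 := by positivity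
  have herr : ∀ i, (1 / D) * dd i S + dc i S ≤ (8 * (K : ℝ) + 4 + C1) * ζ * n := by
    intro i
    have h1 := Finset.single_le_sum (f := fun i => (1 / D) * dd i S + dc i S)
      (fun j _ => hpos j) (Finset.mem_univ i)
    have h2 : θ ^ 2 ≤ 1 := by nlinarith
    have h3 : (1 / ζ) * ∑ i, ((1 / D) * dd i S + dc i S) ≤ (8 * (K : ℝ) + 4 + C1) * n := by
      have : C1 * ζ * n ≤ C1 * 1 * n := by gcongr
      have : 8 * (K : ℝ) * θ ^ 2 * n ≤ 8 * (K : ℝ) * 1 * n := by gcongr
      have : ζ * n ≤ 1 * n := by gcongr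
      have : 0 ≤ θ * n := by positivity
      linarith
    rw [one_div_mul_eq_div, div_le_iff₀ hζ0] at h3
    calc (1 / D) * dd i S + dc i S ≤ ∑ i, ((1 / D) * dd i S + dc i S) := h1
      _ ≤ (8 * (K : ℝ) + 4 + C1) * n * ζ := h3
      _ = _ := by ring
  let V' : Fin K → Finset α := fun i => (V i).filter fun x => Disjoint (inc H E i x) S
  let E' : Finset ι := E.filter fun e => Disjoint (nbr H E e) S
  refine ⟨alone H S, V', E', (Finset.filter_subset _ _).trans hSE, Finset.filter_subset _ _, hM1,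
    ?_, ?_, ?_, ?_, ?_⟩
  · intro e he e' he' i h
    have he'' := (Finset.mem_filter.1 he).1
    exact Finset.disjoint_left.1 (Finset.mem_filter.1 he').2
      (Finset.mem_biUnion.2 ⟨i, Finset.mem_univ i, mem_inc.2 ⟨hSE he'', h⟩⟩) he''
  · intro e he i
    obtain ⟨heE, hd⟩ := Finset.mem_filter.1 he
    refine Finset.mem_filter.2 ⟨hNR.mem e heE i, Finset.disjoint_of_subset_left ?_ hd⟩
    exact fun f hf => Finset.mem_biUnion.2 ⟨i, Finset.mem_univ i, hf⟩
  · linarith
  · intro i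
    have h1 : ((V' i).card : ℝ) = ∑ x ∈ V i, ind (inc H E i x) S := by
      simp only [V', ind, Finset.sum_boole]
    have h2 : 0 ≤ (1 / D) * dd i S := by positivity
    have := herr i
    rw [h1]
    change dc i S ≤ _
    linarith
  · intro i
    have h2 : 0 ≤ dc i S := abs_nonneg _
    have h3 : dd i S ≤ (8 * (K : ℝ) + 4 + C1) * ζ * D * n := by
      have := herr i
      have h4 : (1 / D) * dd i S ≤ (8 * (K : ℝ) + 4 + C1) * ζ * n := by linarith
      rw [one_div_mul_eq_div, div_le_iff₀ hD0] at h4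
      linarith
    refine le_trans ?_ h3
    refine le_trans ?_ (Finset.sum_le_sum_of_subset_of_nonneg
      (show V' i ⊆ V i from Finset.filter_subset _ _) fun _ _ _ => abs_nonneg _)
    refine le_of_eq (Finset.sum_congr rfl fun x hx => ?_)
    have hdisj := (Finset.mem_filter.1 hx).2
    have hset : inc H E' i x = (inc H E i x).filter fun e => Disjoint (nbrOff H E i e) S := by
      ext e
      have hnbr : nbr H E e = inc H E i (H e i) ∪ nbrOff H E i e := by
        rw [nbr, ← Finset.insert_erase (Finset.mem_univ i), Finset.biUnion_insert, nbrOff]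
      simp only [E', mem_inc, Finset.mem_filter, hnbr, Finset.disjoint_union_left]
      constructor
      · rintro ⟨⟨h1, _, h2⟩, h3⟩
        exact ⟨⟨h1, h3⟩, h2⟩
      · rintro ⟨⟨h1, h3⟩, h2⟩
        exact ⟨⟨h1, by rw [h3]; exact hdisj, h2⟩, h3⟩
    simp only [hset, ind, Finset.sum_boole]

/-- Removing the edges through vertices of excessive degree. -/
theorem prune (hNR : NR H V E n D η) (hη0 : 0 ≤ η) (hn : 0 ≤ n) (hD : 0 ≤ D) :
    ∃ E1 : Finset ι, E1 ⊆ E ∧ (∀ i x, ((inc H E1 i x).card : ℝ) ≤ 2 * D) ∧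
      NR H V E1 n D ((1 + 2 * (K : ℝ)) * η) := by
  have hKη : η ≤ (1 + 2 * (K : ℝ)) * η := le_mul_of_one_le_left hη0 (by
    have : (0 : ℝ) ≤ K := by positivity
    linarith)
  set E1 := E.filter fun e => ∀ j, ((inc H E j (H e j)).card : ℝ) ≤ 2 * D with hE1
  have hsub : E1 ⊆ E := Finset.filter_subset _ _
  have hinc : ∀ i x, inc H E1 i x ⊆ inc H E i x := fun i x =>
    Finset.filter_subset_filter _ hsub
  have hlost : ((E \ E1).card : ℝ) ≤ 2 * (K : ℝ) * (η * D * n) := by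
    have h1 : E \ E1 ⊆ (univ : Finset (Fin K)).biUnion fun j =>
        ((V j).filter fun x => 2 * D < ((inc H E j x).card : ℝ)).biUnion (inc H E j) := by
      intro e he
      rw [Finset.mem_sdiff, hE1, Finset.mem_filter, not_and] at he
      obtain ⟨heE, hj⟩ := he
      have := hj heE
      push Not at this
      obtain ⟨j, hj⟩ := this
      exact Finset.mem_biUnion.2 ⟨j, Finset.mem_univ j, Finset.mem_biUnion.2 ⟨H e j,
        Finset.mem_filter.2 ⟨hNR.mem e heE j, hj⟩, mem_inc.2 ⟨heE, rfl⟩⟩⟩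
    have h2 : ((E \ E1).card : ℝ) ≤ ∑ j : Fin K,
        ∑ x ∈ (V j).filter (fun x => 2 * D < ((inc H E j x).card : ℝ)),
          ((inc H E j x).card : ℝ) := by
      have := (Finset.card_le_card h1).trans (Finset.card_biUnion_le.trans
        (Finset.sum_le_sum fun j _ => Finset.card_biUnion_le))
      exact_mod_cast this
    refine h2.trans ?_
    calc ∑ j : Fin K, ∑ x ∈ (V j).filter (fun x => 2 * D < ((inc H E j x).card : ℝ)),
          ((inc H E j x).card : ℝ)
        ≤ ∑ j : Fin K, 2 * (η * D * n) := by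
          refine Finset.sum_le_sum fun j _ => ?_
          calc ∑ x ∈ (V j).filter (fun x => 2 * D < ((inc H E j x).card : ℝ)),
                ((inc H E j x).card : ℝ)
              ≤ ∑ x ∈ (V j).filter (fun x => 2 * D < ((inc H E j x).card : ℝ)),
                2 * |((inc H E j x).card : ℝ) - D| := by
                refine Finset.sum_le_sum fun x hx => ?_
                have := (Finset.mem_filter.1 hx).2
                have := le_abs_self (((inc H E j x).card : ℝ) - D)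
                linarith
            _ ≤ ∑ x ∈ V j, 2 * |((inc H E j x).card : ℝ) - D| :=
                Finset.sum_le_sum_of_subset_of_nonneg (Finset.filter_subset _ _)
                  fun _ _ _ => by positivity
            _ ≤ 2 * (η * D * n) := by rw [← Finset.mul_sum]; gcongr; exact hNR.deg j
      _ = _ := by simp; ring
  refine ⟨E1, hsub, ?_, ⟨fun e he => hNR.mem e (hsub he), ?_, ?_, ?_⟩⟩
  · intro i x
    rcases (inc H E1 i x).eq_empty_or_nonempty with h | ⟨e, he⟩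
    · simp [h]; linarith
    · have hd := (Finset.mem_filter.1 (mem_inc.1 he).1).2 i
      rw [(mem_inc.1 he).2] at hd
      exact le_trans (by exact_mod_cast Finset.card_le_card (hinc i x)) hd
  · intro i
    exact (hNR.card i).trans (mul_le_mul_of_nonneg_right hKη hn)
  · intro i
    have h1 : ∀ x ∈ V i, |((inc H E1 i x).card : ℝ) - D| ≤ |((inc H E i x).card : ℝ) - D| +
        (((inc H E i x).card : ℝ) - (inc H E1 i x).card) := by
      intro x _
      have : ((inc H E1 i x).card : ℝ) ≤ (inc H E i x).card := by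
        exact_mod_cast Finset.card_le_card (hinc i x)
      have := le_abs_self (((inc H E i x).card : ℝ) - D)
      have := neg_abs_le (((inc H E i x).card : ℝ) - D)
      rw [abs_le]; constructor <;> linarith
    refine (Finset.sum_le_sum h1).trans ?_
    rw [Finset.sum_add_distrib, Finset.sum_sub_distrib, ← card_E_eq hNR.mem i,
      ← card_E_eq (fun e he => hNR.mem e (hsub he)) i]
    have : ((E \ E1).card : ℝ) = E.card - E1.card := Finset.cast_card_sdiff hsub
    have := hNR.deg i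
    linarith
  · intro i j hij x y
    refine le_trans ?_ ((hNR.codeg i j hij x y).trans (mul_le_mul_of_nonneg_right hKη hD))
    exact_mod_cast Finset.card_le_card (Finset.inter_subset_inter (hinc i x) (hinc j y))

/-- The number of vertices is large when codegrees are small. -/
theorem large_n (hK : 2 ≤ K) (hNR : NR H V E n D η) (hη : η ≤ 1 / 4) (hη0 : 0 ≤ η) (hn : 0 < n)
    (hD : 0 < D) : 1 ≤ 8 * η * n := by
  let i : Fin K := ⟨0, by omega⟩
  let j : Fin K := ⟨1, by omega⟩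
  have hij : i ≠ j := by simp [i, j, Fin.ext_iff]
  have hV : ∀ l, ((V l).card : ℝ) ≤ 2 * n := fun l => by
    have := abs_le.1 (hNR.card l); nlinarith
  have h1 : ∀ x, ((inc H E i x).card : ℝ) ≤ 2 * n * (η * D) := by
    intro x
    have hsub : inc H E i x ⊆ (V j).biUnion fun y => inc H E i x ∩ inc H E j y := fun e he =>
      Finset.mem_biUnion.2 ⟨H e j, hNR.mem e (mem_inc.1 he).1 j,
        Finset.mem_inter.2 ⟨he, mem_inc.2 ⟨(mem_inc.1 he).1, rfl⟩⟩⟩
    have h' : ((inc H E i x).card : ℝ) ≤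
        ∑ y ∈ V j, ((inc H E i x ∩ inc H E j y).card : ℝ) := by
      exact_mod_cast (Finset.card_le_card hsub).trans Finset.card_biUnion_le
    calc ((inc H E i x).card : ℝ) ≤ ∑ y ∈ V j, η * D :=
          h'.trans (Finset.sum_le_sum fun y _ => hNR.codeg i j hij x y)
      _ = (V j).card * (η * D) := by simp
      _ ≤ 2 * n * (η * D) := by gcongr; exact hV j
  have h2 : ∑ x ∈ V i, (D - |((inc H E i x).card : ℝ) - D|) ≤
      ∑ x ∈ V i, 2 * n * (η * D) := by
    refine Finset.sum_le_sum fun x _ => ?_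
    have := h1 x
    have := neg_abs_le (((inc H E i x).card : ℝ) - D)
    linarith
  rw [Finset.sum_sub_distrib, Finset.sum_const, Finset.sum_const, nsmul_eq_mul,
    nsmul_eq_mul] at h2
  have h3 := abs_le.1 (hNR.card i)
  have h4 := hNR.deg i
  have h5 : (n * D) / 2 ≤ 4 * η * n * (n * D) := by
    have : ((V i).card : ℝ) * (2 * n * (η * D)) ≤ 2 * n * (2 * n * (η * D)) := by
      gcongr; exact hV i
    have : (n - η * n) * D ≤ (V i).card * D := by gcongr; linarith
    have : η * (n * D) ≤ 1 / 4 * (n * D) := by gcongr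
    nlinarith
  have hnD : 0 < n * D := by positivity
  nlinarith

/-- One round of the method. -/
theorem step (hK : 2 ≤ K) {θ : ℝ} (hθ0 : 0 < θ) (hθ1 : θ ≤ 1) {η' : ℝ} (hη' : 0 < η') :
    ∃ η > 0, ∃ D₀ : ℝ, ∀ {α ι : Type} [DecidableEq α] [DecidableEq ι] (H : ι → Fin K → α)
      (V : Fin K → Finset α) (E : Finset ι) (n D : ℝ), 0 < n → D₀ ≤ D → NR H V E n D η →
      ∃ M : Finset ι, ∃ V' : Fin K → Finset α, ∃ E' : Finset ι, M ⊆ E ∧ E' ⊆ E ∧
        (∀ e ∈ M, ∀ e' ∈ M, e ≠ e' → ∀ i, H e i ≠ H e' i) ∧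
        (∀ e ∈ M, ∀ e' ∈ E', ∀ i, H e i ≠ H e' i) ∧
        θ * (1 - (8 * (K : ℝ) + 1) * θ) * n ≤ (M.card : ℝ) ∧
        NR H V' E' (Real.exp (-θ) * n) (Real.exp (-(((K : ℝ) - 1) * θ)) * D) η' := by
  set C1 : ℝ := (K : ℝ) * (18 * (K : ℝ) ^ 2 + 12) with hC1
  set C2 : ℝ := 8 * (K : ℝ) + 4 + C1 with hC2
  have hC1p : 0 ≤ C1 := by positivity
  have hC2p : 1 ≤ C2 := by
    have : (0 : ℝ) ≤ K := by positivity
    linarith
  set ζ : ℝ := min (min 1 (η' * Real.exp (-(K : ℝ)) / C2)) (θ ^ 2 / (C1 + 2)) with hζdef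
  have hζ0 : 0 < ζ := by
    rw [hζdef]; refine lt_min (lt_min one_pos ?_) ?_ <;> positivity
  have hζ1 : ζ ≤ 1 := (min_le_left _ _).trans (min_le_left _ _)
  have hζa : C2 * ζ ≤ η' * Real.exp (-(K : ℝ)) := by
    have h : ζ ≤ η' * Real.exp (-(K : ℝ)) / C2 := (min_le_left _ _).trans (min_le_right _ _)
    rw [le_div_iff₀ (by linarith)] at h; linarith
  have hζb : (C1 + 2) * ζ ≤ θ ^ 2 := by
    have h : ζ ≤ θ ^ 2 / (C1 + 2) := min_le_right _ _
    rw [le_div_iff₀ (by linarith)] at h; linarith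
  refine ⟨ζ ^ 4 / (4 * (1 + 2 * (K : ℝ))), by positivity, 1 / ζ ^ 2, ?_⟩
  intro α ι _ _ H V E n D hn hD hNR
  have hD1 : 1 ≤ D := by
    refine le_trans ?_ hD
    rw [le_div_iff₀ (by positivity)]
    nlinarith
  have hDζ : 1 / D ≤ ζ ^ 2 := by
    rw [div_le_iff₀ (by linarith)]
    rw [div_le_iff₀ (by positivity)] at hD
    linarith
  set η := ζ ^ 4 / (4 * (1 + 2 * (K : ℝ))) with hηdef
  obtain ⟨E1, hE1, hdeg, hNR1⟩ := prune hNR (by positivity) hn.le (by linarith)
  have hη1 : (1 + 2 * (K : ℝ)) * η = ζ ^ 4 / 4 := by rw [hηdef]; field_simp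
  rw [hη1] at hNR1
  have hζ4 : ζ ^ 4 ≤ 1 := pow_le_one₀ hζ0.le hζ1
  have hbig := large_n hK hNR1 (by linarith) (by positivity) hn (by linarith)
  have hbig' : 1 ≤ 4 * ζ ^ 4 * n := by
    have : 0 ≤ ζ ^ 4 * n := by positivity
    linarith
  obtain ⟨M, V', E', hM, hE', hmatch, havoid, hmem, hMcard, hVcard, hVdeg⟩ :=
    round hK hNR1 hdeg (by positivity) (by linarith) hn hD1 hθ0 hθ1 hζ0
      (by have : 0 ≤ ζ ^ 4 := by positivity
          linarith) hζ1 hDζ hbig'
  set ρ := Real.exp (-(((K : ℝ) - 1) * θ)) with hρ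
  have hKθ : (K : ℝ) * θ ≤ K := by
    have := mul_le_mul_of_nonneg_left hθ1 (Nat.cast_nonneg K : (0 : ℝ) ≤ K); linarith
  have hK1 : (1 : ℝ) ≤ K := by exact_mod_cast (by omega : 1 ≤ K)
  have hprod : Real.exp (-(K : ℝ)) ≤ ρ * Real.exp (-θ) := by
    rw [hρ, ← Real.exp_add]; apply Real.exp_le_exp.2; linarith
  have hρle : ρ ≤ 1 := Real.exp_le_one_iff.2 (by nlinarith)
  have hθle : Real.exp (-θ) ≤ 1 := Real.exp_le_one_iff.2 (by linarith)
  have hρ0 : 0 < ρ := Real.exp_pos _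
  have hθe : 0 < Real.exp (-θ) := Real.exp_pos _
  refine ⟨M, V', E', hM.trans hE1, hE'.trans hE1, hmatch, havoid, ?_, ⟨hmem, ?_, ?_, ?_⟩⟩
  · refine le_trans ?_ hMcard
    have : (C1 + 2) * ζ * n ≤ θ ^ 2 * n := by gcongr
    nlinarith
  · intro i
    refine (hVcard i).trans ?_
    calc C2 * ζ * n ≤ η' * Real.exp (-(K : ℝ)) * n := by gcongr
      _ ≤ η' * (1 * Real.exp (-θ)) * n := by
          gcongr; exact hprod.trans (by gcongr)
      _ = _ := by ring
  · intro i
    refine (hVdeg i).trans ?_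
    calc C2 * ζ * D * n ≤ η' * Real.exp (-(K : ℝ)) * D * n := by gcongr
      _ ≤ η' * (ρ * Real.exp (-θ)) * D * n := by gcongr
      _ = _ := by ring
  · intro i j hij x y
    have h1 : ((inc H E' i x ∩ inc H E' j y).card : ℝ) ≤ ζ ^ 4 / 4 * D := by
      refine le_trans ?_ (hNR1.codeg i j hij x y)
      exact_mod_cast Finset.card_le_card (Finset.inter_subset_inter
        (Finset.filter_subset_filter _ hE') (Finset.filter_subset_filter _ hE'))
    refine h1.trans ?_
    calc ζ ^ 4 / 4 * D ≤ C2 * ζ * D := by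
          gcongr
          have h4 : ζ ^ 4 ≤ ζ := pow_le_of_le_one hζ0.le hζ1 (by norm_num)
          have : ζ ≤ C2 * ζ := le_mul_of_one_le_left hζ0.le hC2p
          linarith
      _ ≤ η' * Real.exp (-(K : ℝ)) * D := by gcongr
      _ ≤ η' * (ρ * 1) * D := by gcongr; exact hprod.trans (by gcongr)
      _ = _ := by ring

/-- Iterating the rounds. -/
theorem iterate (hK : 2 ≤ K) {θ : ℝ} (hθ0 : 0 < θ) (hθ1 : θ ≤ 1) (T : ℕ) :
    ∃ η > 0, ∃ D₀ : ℝ, ∀ {α ι : Type} [DecidableEq α] [DecidableEq ι] (H : ι → Fin K → α)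
      (V : Fin K → Finset α) (E : Finset ι) (n D : ℝ), 0 < n → D₀ ≤ D → NR H V E n D η →
      ∃ M : Finset ι, M ⊆ E ∧ (∀ e ∈ M, ∀ e' ∈ M, e ≠ e' → ∀ i, H e i ≠ H e' i) ∧
        θ * (1 - (8 * (K : ℝ) + 1) * θ) * (∑ t ∈ range T, Real.exp (-θ) ^ t) * n ≤
          (M.card : ℝ) := by
  induction T with
  | zero =>
    refine ⟨1, one_pos, 1, fun H V E n D _ _ _ => ⟨∅, Finset.empty_subset _, ?_, ?_⟩⟩ <;> simp
  | succ T ih =>
    obtain ⟨ηT, hηT, DT, hT⟩ := ih
    obtain ⟨η, hη, D0, hstep⟩ := step hK hθ0 hθ1 hηT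
    set ρ := Real.exp (-(((K : ℝ) - 1) * θ)) with hρ
    refine ⟨η, hη, max D0 (DT / ρ), ?_⟩
    intro α ι _ _ H V E n D hn hD hNR
    obtain ⟨M1, V', E', hM1, hE', hm1, havoid, hc1, hNR'⟩ :=
      hstep H V E n D hn ((le_max_left _ _).trans hD) hNR
    have hDT : DT ≤ ρ * D := by
      have h := (le_max_right _ _).trans hD
      rw [div_le_iff₀ (Real.exp_pos _)] at h; linarith
    obtain ⟨M2, hM2, hm2, hc2⟩ :=
      hT H V' E' (Real.exp (-θ) * n) (ρ * D) (by positivity) hDT hNR'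
    have hdisj : Disjoint M1 M2 := by
      refine Finset.disjoint_left.2 fun e he he' => ?_
      exact havoid e he e (hM2 he') ⟨0, by omega⟩ rfl
    refine ⟨M1 ∪ M2, Finset.union_subset hM1 (hM2.trans hE'), ?_, ?_⟩
    · intro e he e' he' hne i
      rcases Finset.mem_union.1 he with he | he <;> rcases Finset.mem_union.1 he' with he' | he'
      · exact hm1 e he e' he' hne i
      · exact havoid e he e' (hM2 he') i
      · exact (havoid e' he' e (hM2 he) i).symm
      · exact hm2 e he e' he' hne i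
    · rw [Finset.card_union_of_disjoint hdisj, Nat.cast_add, geom_sum_succ]
      linarith

end Nib

theorem exists_matching (K : ℕ) (hK : 0 < K) (γ : ℝ) (hγ : 0 < γ) : ∃ η > 0, ∃ D₀ : ℝ,
    ∀ {α ι : Type} [DecidableEq α] [Fintype ι] (V : Fin K → Finset α) (H : ι → Fin K → α) (n : ℕ)
      (D : ℝ),
      0 < n → D₀ ≤ D → NearlyRegular V H n D η →
      ∃ M : Finset ι, (∀ e ∈ M, ∀ e' ∈ M, e ≠ e' → ∀ i, H e i ≠ H e' i) ∧ (1 - γ) * n ≤ (M.card : ℝ) := by
  classical
  rcases (show K = 1 ∨ 2 ≤ K by omega) with hK1 | hK2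
  · subst hK1
    refine ⟨γ / 2, by positivity, 1, ?_⟩
    intro α ι _ _ V H n D hn hD h
    set W := (V 0).filter (fun x => ∃ e, H e 0 = x) with hW
    choose f hf using fun x : {x // x ∈ W} => (Finset.mem_filter.1 x.2).2
    refine ⟨W.attach.image f, ?_, ?_⟩
    · intro e he e' he' hne i
      obtain ⟨x, -, rfl⟩ := Finset.mem_image.1 he
      obtain ⟨y, -, rfl⟩ := Finset.mem_image.1 he'
      rw [Subsingleton.elim i 0, hf, hf]
      exact fun h => hne (congrArg f (Subtype.ext h))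
    · have hinj : Function.Injective f := fun x y hxy => Subtype.ext (by rw [← hf x, ← hf y, hxy])
      rw [Finset.card_image_of_injective _ hinj, Finset.card_attach]
      have h1 : ∑ x ∈ V 0, (if ∃ e, H e 0 = x then (0 : ℝ) else D) ≤
          ∑ x ∈ V 0, |((univ.filter fun e => H e 0 = x).card : ℝ) - D| := by
        refine Finset.sum_le_sum fun x _ => ?_
        split_ifs with he
        · positivity
        · have : (univ.filter fun e => H e 0 = x) = ∅ := by
            rw [Finset.filter_eq_empty_iff]; exact fun e _ h => he ⟨e, h⟩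
          rw [this]; simp [abs_of_pos (by linarith : (0 : ℝ) < D)]
      have h2 : ∑ x ∈ V 0, (if ∃ e, H e 0 = x then (0 : ℝ) else D) =
          (((V 0).card : ℝ) - W.card) * D := by
        rw [hW, Finset.sum_ite, Finset.sum_const_zero, zero_add, Finset.sum_const, nsmul_eq_mul]
        have := Finset.card_filter_add_card_filter_not (s := V 0) (fun x => ∃ e, H e 0 = x)
        have h' : (((V 0).filter fun x => ∃ e, H e 0 = x).card : ℝ) +
            ((V 0).filter fun x => ¬∃ e, H e 0 = x).card = (V 0).card := by exact_mod_cast this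
        rw [← h']; ring
      have h3 := h.hdeg 0
      have h4 := abs_le.1 (h.hcard 0)
      have h5 : (((V 0).card : ℝ) - W.card) * D ≤ (γ / 2 * n) * D := by
        calc _ ≤ γ / 2 * D * n := (h2 ▸ h1).trans h3
          _ = _ := by ring
      have h6 := le_of_mul_le_mul_right h5 (by linarith)
      linarith
  · set C : ℝ := 8 * (K : ℝ) + 1 with hC
    have hC1 : 1 ≤ C := by
      have : (0 : ℝ) ≤ K := by positivity
      linarith
    set g : ℝ := min γ 1 with hg
    have hg0 : 0 < g := lt_min hγ one_pos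
    have hg1 : g ≤ 1 := min_le_right _ _
    set θ : ℝ := g / (2 * C) with hθ
    have hθ0 : 0 < θ := by positivity
    have hθ1 : θ ≤ 1 := by rw [hθ, div_le_one (by positivity)]; linarith
    have hCθ : C * θ = g / 2 := by rw [hθ]; field_simp
    have he1 : Real.exp (-θ) < 1 := Real.exp_lt_one_iff.2 (by linarith)
    obtain ⟨T, hT⟩ := exists_pow_lt_of_lt_one (by positivity : 0 < g / 2) he1
    obtain ⟨η, hη, D0, hit⟩ := Nib.iterate hK2 hθ0 hθ1 T
    refine ⟨η, hη, D0, ?_⟩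
    intro α ι _ _ V H n D hn hD h
    have hNR : Nib.NR H V univ (n : ℝ) D η := by
      refine ⟨fun e _ => h.hmem e, h.hcard, h.hdeg, fun i j hij x y => ?_⟩
      simp only [Nib.inc, ← Finset.filter_and]
      exact h.hcodeg i j hij x y
    obtain ⟨M, -, hM, hcard⟩ := hit H V univ (n : ℝ) D (by exact_mod_cast hn) hD hNR
    refine ⟨M, hM, le_trans ?_ hcard⟩
    rw [← hC]
    set s := ∑ t ∈ range T, Real.exp (-θ) ^ t with hs
    have hgeo : (1 - Real.exp (-θ)) * s = 1 - Real.exp (-θ) ^ T := by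
      rw [hs]; exact mul_neg_geom_sum (Real.exp (-θ)) T
    have hs0 : 0 ≤ s := Finset.sum_nonneg fun _ _ => by positivity
    have hle : 1 - Real.exp (-θ) ≤ θ := by linarith [Real.add_one_le_exp (-θ)]
    have h1 : 1 - g / 2 ≤ θ * s := by
      have : (1 - Real.exp (-θ)) * s ≤ θ * s := mul_le_mul_of_nonneg_right hle hs0
      linarith
    have h2 : (1 - γ) ≤ θ * (1 - C * θ) * s := by
      have hgg : g ≤ γ := min_le_left _ _
      rw [hCθ]
      calc 1 - γ ≤ (1 - g / 2) * (1 - g / 2) := by nlinarith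
        _ ≤ θ * s * (1 - g / 2) := mul_le_mul_of_nonneg_right h1 (by linarith)
        _ = θ * (1 - g / 2) * s := by ring
    exact mul_le_mul_of_nonneg_right h2 (Nat.cast_nonneg n)

end Vale.Agent.P110.Flat
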