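import Vale.Agent.P110.Flat.Defs

/-!
Random zones in a cell (first and second moments).

The cell `ZMod G` is cut in superblocks of length `M`, paired with their mirror images. Every pair
draws uniformly an outcome `(class i, side, offset < L i, copy < q i)`; the starts of class `i` are
then the progression of step `L i` with the drawn offset in the drawn side. So a position away from
the ends of its superblock is a start of class `i` with probability exactly `q i / T`, independently
for positions in different pairs, and one sample has all the second moments small.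
-/

namespace Vale.Agent.P110.Flat

open Finset
open scoped BigOperators

namespace Zone

section moments

variable {B : ℕ} {O : Type} [Fintype O] [DecidableEq O]

/-- The indicator of a finset. -/
def ind (a : Finset O) (o : O) : ℝ := if o ∈ a then 1 else 0

omit [Fintype O] in
lemma ind_nonneg (a : Finset O) (o : O) : 0 ≤ ind a o := by
  unfold ind; split_ifs <;> norm_num

omit [Fintype O] in
lemma ind_le_one (a : Finset O) (o : O) : ind a o ≤ 1 := by
  unfold ind; split_ifs <;> norm_num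

omit [Fintype O] in
lemma ind_sq (a : Finset O) (o : O) : ind a o * ind a o = ind a o := by
  unfold ind; split_ifs <;> norm_num

/-- Events in distinct coordinates are independent. -/
lemma sum_prod_ind [Nonempty O] {α : Type} (s : Finset α) (t : α → Fin B) (ht : Set.InjOn t s)
    (a : α → Finset O) :
    ∑ ω : Fin B → O, ∏ x ∈ s, ind (a x) (ω (t x)) =
      (Fintype.card O : ℝ) ^ B * ∏ x ∈ s, ((a x).card : ℝ) / Fintype.card O := by
  classical
  have hT : (Fintype.card O : ℝ) ≠ 0 := by exact_mod_cast Fintype.card_ne_zero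
  have h1 : ∀ ω : Fin B → O, ∏ x ∈ s, ind (a x) (ω (t x)) =
      ∏ b, ∏ x ∈ s.filter (fun x => t x = b), ind (a x) (ω b) := by
    intro ω
    rw [← prod_fiberwise s t fun x => ind (a x) (ω (t x))]
    exact prod_congr rfl fun b _ => prod_congr rfl fun x hx => by rw [(mem_filter.1 hx).2]
  have h2 : ∀ b, ∑ o, ∏ x ∈ s.filter (fun x => t x = b), ind (a x) o =
      (Fintype.card O : ℝ) * ∏ x ∈ s.filter (fun x => t x = b),
        ((a x).card : ℝ) / Fintype.card O := by
    intro b
    rcases (s.filter fun x => t x = b).eq_empty_or_nonempty with h | ⟨x, hx⟩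
    · simp [h]
    · have h : s.filter (fun x => t x = b) = {x} := eq_singleton_iff_unique_mem.2 ⟨hx, fun z hz =>
        ht (mem_filter.1 hz).1 (mem_filter.1 hx).1 ((mem_filter.1 hz).2.trans (mem_filter.1 hx).2.symm)⟩
      simp only [h, prod_singleton, ind, sum_boole, filter_mem_eq_inter, univ_inter]
      field_simp
  rw [sum_congr rfl fun ω _ => h1 ω,
    ← Fintype.prod_sum (fun b o => ∏ x ∈ s.filter (fun x => t x = b), ind (a x) o),
    prod_congr rfl fun b _ => h2 b, prod_mul_distrib, prod_const, card_univ, Fintype.card_fin,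
    prod_fiberwise]

lemma sum_prod_const [Nonempty O] {α : Type} (s : Finset α) (t : α → Fin B) (ht : Set.InjOn t s)
    (a : α → Finset O) (p : α → ℝ) (hp : ∀ x ∈ s, ((a x).card : ℝ) / Fintype.card O = p x) :
    ∑ ω : Fin B → O, ∏ x ∈ s, ind (a x) (ω (t x)) =
      (Fintype.card O : ℝ) ^ B * ∏ x ∈ s, p x := by
  rw [sum_prod_ind s t ht a, prod_congr rfl hp]

variable {Y : Type} [Fintype Y] [DecidableEq Y] {K : ℕ}
  (t : Y → Fin B) (ev : Fin K → Y → Finset O)

/-- The starts of class `i`. -/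
def starts (ω : Fin B → O) (i : Fin K) : Finset Y :=
  univ.filter fun y => ω (t y) ∈ ev i y

/-- The indicator of a shift with hits `a` being an edge, centred given the vertex of class `i`. -/
def cen (p : Fin K → ℝ) (i : Fin K) (a : Fin K → Y) (ω : Fin B → O) : ℝ :=
  ind (ev i (a i)) (ω (t (a i))) *
    (∏ j ∈ univ.erase i, ind (ev j (a j)) (ω (t (a j))) - ∏ j ∈ univ.erase i, p j)

omit [Fintype O] [Fintype Y] [DecidableEq Y] in
lemma cen_abs {p : Fin K → ℝ} (hp0 : ∀ j, 0 ≤ p j) (hp1 : ∀ j, p j ≤ 1) (i : Fin K)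
    (a : Fin K → Y) (ω : Fin B → O) : |cen t ev p i a ω| ≤ 1 := by
  have a1 : 0 ≤ ∏ j ∈ univ.erase i, p j := prod_nonneg fun j _ => hp0 j
  have a2 : ∏ j ∈ univ.erase i, p j ≤ 1 := prod_le_one (fun j _ => hp0 j) fun j _ => hp1 j
  have b1 : 0 ≤ ∏ j ∈ univ.erase i, ind (ev j (a j)) (ω (t (a j))) :=
    prod_nonneg fun j _ => ind_nonneg _ _
  have b2 : ∏ j ∈ univ.erase i, ind (ev j (a j)) (ω (t (a j))) ≤ 1 :=
    prod_le_one (fun j _ => ind_nonneg _ _) fun j _ => ind_le_one _ _
  rw [cen, abs_mul, abs_of_nonneg (ind_nonneg _ _)]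
  exact mul_le_one₀ (ind_le_one _ _) (abs_nonneg _) (abs_le.2 ⟨by linarith, by linarith⟩)

omit [Fintype Y] [DecidableEq Y] in
/-- Two shifts in general position with a common vertex are uncorrelated. -/
lemma cen_mul_sum [Nonempty O] (p : Fin K → ℝ) (i : Fin K) (a a' : Fin K → Y) (h0 : a i = a' i)
    (hev : ∀ j, ((ev j (a j)).card : ℝ) / Fintype.card O = p j ∧
      ((ev j (a' j)).card : ℝ) / Fintype.card O = p j)
    (h1 : Function.Injective fun j => t (a j)) (h2 : Function.Injective fun j => t (a' j))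
    (h3 : ∀ j l, j ≠ i → l ≠ i → t (a j) ≠ t (a' l)) :
    ∑ ω : Fin B → O, cen t ev p i a ω * cen t ev p i a' ω = 0 := by
  classical
  let pt : Fin K × Bool → Y := fun x => bif x.2 then a' x.1 else a x.1
  let full : Finset (Fin K × Bool) := univ.erase (i, true)
  have hinj : Set.InjOn (fun x => t (pt x)) full := by
    rintro ⟨j, b⟩ hj ⟨l, b'⟩ hl he
    simp only [full, coe_erase, coe_univ, Set.mem_sdiff, Set.mem_univ, Set.mem_singleton_iff,
      true_and, Prod.mk.injEq, not_and] at hj hl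
    cases b <;> cases b' <;> simp only [pt, cond_true, cond_false] at he
    · rw [h1 he]
    · exfalso
      have hl' : l ≠ i := fun h => hl h rfl
      by_cases hji : j = i
      · rw [hji, h0] at he; exact hl' (h2 he).symm
      · exact h3 j l hji hl' he
    · exfalso
      have hj' : j ≠ i := fun h => hj h rfl
      by_cases hli : l = i
      · rw [hli, h0] at he; exact hj' (h2 he)
      · exact h3 l j hli hj' he.symm
    · rw [h2 he]
  let s1 : Finset (Fin K × Bool) := (univ.erase i) ×ˢ {false}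
  let s2 : Finset (Fin K × Bool) := (univ.erase i) ×ˢ {true}
  let s0 : Finset (Fin K × Bool) := {(i, false)}
  have d01 : Disjoint s0 s1 := by simp [s0, s1]
  have d02 : Disjoint s0 s2 := by simp [s0, s2]
  have d12 : Disjoint (s0 ∪ s1) s2 := by
    rw [disjoint_left]; rintro ⟨j, b⟩; simp [s0, s1, s2]; aesop
  have hs : ∀ s, s ⊆ full → ∑ ω : Fin B → O, ∏ x ∈ s, ind (ev x.1 (pt x)) (ω (t (pt x))) =
      (Fintype.card O : ℝ) ^ B * ∏ x ∈ s, p x.1 := fun s hsub =>
    sum_prod_const s (fun x => t (pt x)) (hinj.mono (coe_subset.2 hsub)) (fun x => ev x.1 (pt x))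
      (fun x => p x.1) (by
        rintro ⟨j, b⟩ _
        cases b
        · exact (hev j).1
        · exact (hev j).2)
  have e1 : ∀ ω : Fin B → O, cen t ev p i a ω * cen t ev p i a' ω =
      ∏ x ∈ s0 ∪ s1 ∪ s2, ind (ev x.1 (pt x)) (ω (t (pt x)))
      - (∏ j ∈ univ.erase i, p j) * ∏ x ∈ s0 ∪ s1, ind (ev x.1 (pt x)) (ω (t (pt x)))
      - (∏ j ∈ univ.erase i, p j) * ∏ x ∈ s0 ∪ s2, ind (ev x.1 (pt x)) (ω (t (pt x)))
      + (∏ j ∈ univ.erase i, p j) ^ 2 * ∏ x ∈ s0, ind (ev x.1 (pt x)) (ω (t (pt x))) := by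
    intro ω
    rw [prod_union d12, prod_union d01, prod_union d02]
    simp only [s0, s1, s2, prod_singleton, prod_product, pt, cond_true, cond_false, cen, ← h0]
    linear_combination ((∏ j ∈ univ.erase i, ind (ev j (a j)) (ω (t (a j)))) - ∏ j ∈ univ.erase i, p j) *
      ((∏ j ∈ univ.erase i, ind (ev j (a' j)) (ω (t (a' j)))) - ∏ j ∈ univ.erase i, p j) *
      ind_sq (ev i (a i)) (ω (t (a i)))
  have f0 : s0 ⊆ full := by simp [s0, full]
  have f1 : s0 ∪ s1 ⊆ full := by
    rintro ⟨j, b⟩; simp [s0, s1, full]; aesop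
  have f2 : s0 ∪ s2 ⊆ full := by
    rintro ⟨j, b⟩; simp [s0, s2, full]; aesop
  have f3 : s0 ∪ s1 ∪ s2 ⊆ full := union_subset f1 (subset_union_right.trans f2)
  simp only [e1, sum_add_distrib, sum_sub_distrib, ← mul_sum, hs _ f0, hs _ f1, hs _ f2, hs _ f3]
  rw [prod_union d12, prod_union d01, prod_union d02]
  simp only [s0, s1, s2, prod_singleton, prod_product]
  ring

end moments

/-- All fibres of a surjective homomorphism have the same size. -/
lemma card_fiber {A B : Type} [AddCommGroup A] [Fintype A] [AddCommGroup B] [Fintype B]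
    [DecidableEq B] (φ : A →+ B) (hφ : Function.Surjective φ) (b : B) :
    ((univ.filter fun a => φ a = b).card : ℝ) = (Fintype.card A : ℝ) / Fintype.card B := by
  have hsum := card_eq_sum_card_fiberwise (f := φ) (s := (univ : Finset A)) (t := (univ : Finset B))
    (fun _ _ => mem_univ _)
  have hconst : ∀ c ∈ (univ : Finset B), (univ.filter fun a => φ a = c).card =
      (univ.filter fun a => φ a = b).card := fun c _ =>
    AddMonoidHom.card_fiber_eq_of_mem_range φ (hφ c) (hφ b)
  rw [sum_congr rfl hconst, sum_const, smul_eq_mul, card_univ, card_univ] at hsum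
  have : (Fintype.card B : ℝ) ≠ 0 := by exact_mod_cast Fintype.card_ne_zero
  rw [eq_div_iff this, hsum]
  push_cast; ring

section sample

variable {V Y : Type} [AddCommGroup V] [Fintype V] [AddCommGroup Y] [Fintype Y] [DecidableEq Y]
  {B : ℕ} {O : Type} [Fintype O] [DecidableEq O] [Nonempty O] {K : ℕ}

/-- A sample for which the number of starts and the degrees are concentrated. -/
lemma exists_sample (φ : Fin K → V →+ Y) (h1 : ∀ j, Function.Surjective (φ j))
    (h2 : ∀ j l, j ≠ l → Function.Surjective ((φ j).prod (φ l)))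
    (hB : 0 < B) (t : Y → Fin B) (ev : Fin K → Y → Finset O) (bad : Fin K → Finset Y)
    (p : Fin K → ℝ) (hp0 : ∀ j, 0 ≤ p j) (hp1 : ∀ j, p j ≤ 1)
    (hev : ∀ j y, y ∉ bad j → ((ev j y).card : ℝ) / Fintype.card O = p j)
    (δ : ℝ) (hbad : ∀ j, ((bad j).card : ℝ) ≤ δ * Fintype.card Y)
    (hblock : ∀ b, ((univ.filter fun y => t y = b).card : ℝ) ≤ δ * Fintype.card Y)
    (ε : ℝ) (hε : 0 < ε) (hδ : (K : ℝ) * (5 * (K : ℝ) ^ 2 + 3) * δ ≤ ε ^ 2) :
    ∃ ω : Fin B → O, ∀ i,
      |((starts t ev ω i).card : ℝ) - p i * Fintype.card Y| ≤ ε * Fintype.card Y ∧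
      ∑ y, |∑ g ∈ univ.filter (fun g => φ i g = y), cen t ev p i (fun j => φ j g) ω| ≤
        ε * Fintype.card V := by
  classical
  set G : ℝ := (Fintype.card Y : ℝ) with hGdef
  set F : ℝ := (Fintype.card V : ℝ) / G with hFdef
  have hG : 0 < G := by rw [hGdef]; exact_mod_cast Fintype.card_pos
  have hV : 0 < (Fintype.card V : ℝ) := by exact_mod_cast Fintype.card_pos
  have hF : 0 < F := div_pos hV hG
  set T : ℝ := (Fintype.card O : ℝ) ^ B with hTdef
  have hT : 0 < T := pow_pos (by exact_mod_cast Fintype.card_pos) _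
  have hcardΩ : ((univ : Finset (Fin B → O)).card : ℝ) = T := by simp [hTdef]
  have hδ0 : 0 ≤ δ := by
    have := le_trans (Nat.cast_nonneg _) (hblock ⟨0, hB⟩)
    nlinarith
  set W : ℝ := δ * G * F ^ 2 with hW
  have hW0 : 0 ≤ W := by positivity
  have fib1 : ∀ i y, ((univ.filter fun g => φ i g = y).card : ℝ) = F := fun i y => by
    rw [card_fiber _ (h1 i) y]
  have fib2 : ∀ i l, i ≠ l → ∀ y y',
      ((univ.filter fun g => φ i g = y ∧ φ l g = y').card : ℝ) = (Fintype.card V : ℝ) / G ^ 2 := by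
    intro i l hil y y'
    have := card_fiber _ (h2 i l hil) (y, y')
    rw [Fintype.card_prod, Nat.cast_mul, ← sq] at this
    rw [← this]
    congr 2
    exact filter_congr fun g _ => by simp [Prod.ext_iff]
  -- shifts with hits in one pair
  let coll : Fin K → Fin K → Finset V := fun j l =>
    if j = l then ∅ else univ.filter fun g => t (φ j g) = t (φ l g)
  let cross : Fin K → Fin K → Fin K → V → Finset V := fun i j l g =>
    if j = i ∨ l = i then ∅ else univ.filter fun g' => φ i g' = φ i g ∧ t (φ l g') = t (φ j g)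
  let badg : Fin K → Finset V := fun j => univ.filter fun g => φ j g ∈ bad j
  have hbadg : ∀ j, ((badg j).card : ℝ) ≤ δ * G * F := by
    intro j
    have e : badg j = (bad j).biUnion fun y => univ.filter fun g => φ j g = y := by
      ext g; simp [badg]
    calc ((badg j).card : ℝ) ≤ ∑ y ∈ bad j, ((univ.filter fun g => φ j g = y).card : ℝ) := by
          rw [e]; exact_mod_cast card_biUnion_le
      _ = (bad j).card * F := by simp [fib1]
      _ ≤ δ * G * F := mul_le_mul_of_nonneg_right (hbad j) hF.le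
  have hcross : ∀ i j l g, ((cross i j l g).card : ℝ) ≤ δ * G * ((Fintype.card V : ℝ) / G ^ 2) := by
    intro i j l g
    by_cases h : j = i ∨ l = i
    · simp only [cross, if_pos h, card_empty, Nat.cast_zero]; positivity
    · have e : cross i j l g = (univ.filter fun y' => t y' = t (φ j g)).biUnion fun y' =>
          univ.filter fun g' => φ i g' = φ i g ∧ φ l g' = y' := by
        ext g'; simp [cross, if_neg h]; aesop
      have hli : i ≠ l := fun h' => h (Or.inr h'.symm)
      calc ((cross i j l g).card : ℝ) ≤ ∑ y' ∈ univ.filter (fun y' => t y' = t (φ j g)),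
            ((univ.filter fun g' => φ i g' = φ i g ∧ φ l g' = y').card : ℝ) := by
            rw [e]; exact_mod_cast card_biUnion_le
        _ = (univ.filter fun y' => t y' = t (φ j g)).card * ((Fintype.card V : ℝ) / G ^ 2) := by
            rw [sum_congr rfl fun y' _ => fib2 i l hli (φ i g) y', sum_const, nsmul_eq_mul]
        _ ≤ _ := mul_le_mul_of_nonneg_right (hblock _) (by positivity)
  have hcoll : ∀ j l, ((coll j l).card : ℝ) ≤ δ * G * F := by
    intro j l
    by_cases h : j = l
    · simp only [coll, if_pos h, card_empty, Nat.cast_zero]; positivity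
    · have e : coll j l = univ.biUnion fun y =>
          (univ.filter fun y' => t y = t y').biUnion fun y' =>
            univ.filter fun g => φ j g = y ∧ φ l g = y' := by
        ext g; simp [coll, if_neg h]
      have hc : ∀ y, ((univ.filter fun y' => t y = t y').card : ℝ) ≤ δ * G := fun y => by
        simpa [eq_comm] using hblock (t y)
      calc ((coll j l).card : ℝ) ≤ ∑ y : Y, (((univ.filter fun y' => t y = t y').biUnion fun y' =>
            univ.filter fun g => φ j g = y ∧ φ l g = y').card : ℝ) := by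
            rw [e]; exact_mod_cast card_biUnion_le
        _ ≤ ∑ _y : Y, δ * G * ((Fintype.card V : ℝ) / G ^ 2) := sum_le_sum fun y _ => by
            refine le_trans ((Nat.cast_le.2 card_biUnion_le).trans_eq (Nat.cast_sum _ _)) ?_
            rw [sum_congr rfl fun y' _ => fib2 j l h y y', sum_const, nsmul_eq_mul]
            exact mul_le_mul_of_nonneg_right (hc y) (by positivity)
        _ = δ * G * F := by
            rw [sum_const, card_univ, nsmul_eq_mul, ← hGdef, hFdef]; field_simp
  -- the degrees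
  let Zy : Fin K → Y → (Fin B → O) → ℝ := fun i y ω =>
    ∑ g ∈ univ.filter (fun g => φ i g = y), cen t ev p i (fun j => φ j g) ω
  let chi : Finset V → V → ℝ := fun s g => if g ∈ s then 1 else 0
  have hchi : ∀ s g, 0 ≤ chi s g := fun s g => by simp only [chi]; split_ifs <;> norm_num
  have swap : ∀ (i : Fin K) (h : V → ℝ),
      ∑ g, ∑ g' ∈ univ.filter (fun g' => φ i g' = φ i g), h g' = F * ∑ g, h g := by
    intro i h
    simp only [sum_filter]
    rw [sum_comm, mul_sum]
    refine sum_congr rfl fun g' _ => ?_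
    rw [← sum_filter, sum_const, nsmul_eq_mul]
    simp only [eq_comm (a := φ i g')]
    rw [fib1]
  have hsq : ∀ i, ∑ ω, ∑ y, Zy i y ω ^ 2 ≤ T * ((5 * (K : ℝ) ^ 2) * W) := by
    intro i
    have e1 : ∀ ω, ∑ y, Zy i y ω ^ 2 = ∑ g, ∑ g' ∈ univ.filter (fun g' => φ i g' = φ i g),
        cen t ev p i (fun j => φ j g) ω * cen t ev p i (fun j => φ j g') ω := by
      intro ω
      rw [← sum_fiberwise univ (φ i) (fun g => ∑ g' ∈ univ.filter (fun g' => φ i g' = φ i g),
        cen t ev p i (fun j => φ j g) ω * cen t ev p i (fun j => φ j g') ω)]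
      refine sum_congr rfl fun y _ => ?_
      rw [sq]
      simp only [Zy, sum_mul_sum]
      refine sum_congr rfl fun g hg => ?_
      rw [(mem_filter.1 hg).2]
    let bound : V → V → ℝ := fun g g' => ∑ j, ∑ l,
      (chi (badg j) g + chi (badg j) g' + chi (coll j l) g + chi (coll j l) g' +
        chi (cross i j l g) g')
    have hb : ∀ g, ∀ g' ∈ univ.filter (fun g' => φ i g' = φ i g),
        ∑ ω, cen t ev p i (fun j => φ j g) ω * cen t ev p i (fun j => φ j g') ω ≤
          T * bound g g' := by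
      intro g g' hg'
      have hgg : φ i g' = φ i g := (mem_filter.1 hg').2
      have hb0 : ∀ j l, 0 ≤ chi (badg j) g + chi (badg j) g' + chi (coll j l) g +
          chi (coll j l) g' + chi (cross i j l g) g' := fun j l => by
        have := hchi (badg j) g; have := hchi (badg j) g'; have := hchi (coll j l) g
        have := hchi (coll j l) g'; have := hchi (cross i j l g) g'; linarith
      by_cases hgen : (∀ j, g ∉ badg j ∧ g' ∉ badg j) ∧ (∀ j l, g ∉ coll j l ∧ g' ∉ coll j l) ∧
          ∀ j l, g' ∉ cross i j l g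
      · obtain ⟨ha, hb, hc⟩ := hgen
        rw [cen_mul_sum t ev p i (fun j => φ j g) (fun j => φ j g') hgg.symm]
        · exact mul_nonneg hT.le (sum_nonneg fun j _ => sum_nonneg fun l _ => hb0 j l)
        · exact fun j => ⟨hev j _ (by simpa [badg] using (ha j).1),
            hev j _ (by simpa [badg] using (ha j).2)⟩
        · intro j l he; by_contra hne; exact (hb j l).1 (by simpa [coll, if_neg hne] using he)
        · intro j l he; by_contra hne; exact (hb j l).2 (by simpa [coll, if_neg hne] using he)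
        · intro j l hj hl he
          exact hc j l (by simp [cross, hj, hl, hgg, he])
      · have h1' : (1 : ℝ) ≤ bound g g' := by
          have hj : ∃ j l, (1 : ℝ) ≤ chi (badg j) g + chi (badg j) g' + chi (coll j l) g +
              chi (coll j l) g' + chi (cross i j l g) g' := by
            simp only [not_and_or, not_forall, not_not] at hgen
            rcases hgen with ⟨j, h | h⟩ | ⟨j, l, h | h⟩ | ⟨j, l, h⟩
            all_goals first
              | (refine ⟨j, i, ?_⟩
                 have := hchi (badg j) g; have := hchi (badg j) g'; have := hchi (coll j i) g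
                 have := hchi (coll j i) g'; have := hchi (cross i j i g) g'
                 have he : chi (badg j) g = 1 ∨ chi (badg j) g' = 1 := by simp [chi, h]
                 rcases he with he | he <;> linarith)
              | (refine ⟨j, l, ?_⟩
                 have := hchi (badg j) g; have := hchi (badg j) g'; have := hchi (coll j l) g
                 have := hchi (coll j l) g'; have := hchi (cross i j l g) g'
                 have he : chi (coll j l) g = 1 ∨ chi (coll j l) g' = 1 ∨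
                     chi (cross i j l g) g' = 1 := by simp [chi, h]
                 rcases he with he | he | he <;> linarith)
          obtain ⟨j, l, hjl⟩ := hj
          refine le_trans hjl (le_trans ?_ (single_le_sum (fun j _ =>
            sum_nonneg fun l _ => hb0 j l) (mem_univ j)))
          exact single_le_sum (fun l _ => hb0 j l) (mem_univ l)
        refine le_trans (sum_le_sum (g := fun _ => (1 : ℝ)) fun ω _ => ?_) ?_
        · refine le_trans (le_abs_self _) ?_
          rw [abs_mul]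
          exact mul_le_one₀ (cen_abs t ev hp0 hp1 _ _ _) (abs_nonneg _) (cen_abs t ev hp0 hp1 _ _ _)
        · rw [sum_const, nsmul_eq_mul, hcardΩ]
          exact mul_le_mul_of_nonneg_left h1' hT.le
    have c1 : ∀ s : Finset V, (s.card : ℝ) ≤ δ * G * F →
        ∑ g, ∑ _g' ∈ univ.filter (fun g' => φ i g' = φ i g), chi s g ≤ W := by
      intro s hs
      calc _ = F * s.card := by
            simp only [sum_const, nsmul_eq_mul, fib1, ← mul_sum, chi, sum_boole,
              filter_mem_eq_inter, univ_inter]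
        _ ≤ F * (δ * G * F) := mul_le_mul_of_nonneg_left hs hF.le
        _ = W := by rw [hW]; ring
    have c2 : ∀ s : Finset V, (s.card : ℝ) ≤ δ * G * F →
        ∑ g, ∑ g' ∈ univ.filter (fun g' => φ i g' = φ i g), chi s g' ≤ W := by
      intro s hs
      rw [swap i (chi s), show ∑ g, chi s g = (s.card : ℝ) by
        simp only [chi, sum_boole, filter_mem_eq_inter, univ_inter], hW]
      exact le_of_le_of_eq (mul_le_mul_of_nonneg_left hs hF.le) (by ring)
    have c3 : ∀ j l, ∑ g, ∑ g' ∈ univ.filter (fun g' => φ i g' = φ i g),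
        chi (cross i j l g) g' ≤ W := by
      intro j l
      calc _ ≤ ∑ g, ((cross i j l g).card : ℝ) := sum_le_sum fun g _ => by
            simp only [chi, sum_boole]
            exact_mod_cast card_le_card fun x hx => (mem_filter.1 hx).2
        _ ≤ ∑ _g : V, δ * G * ((Fintype.card V : ℝ) / G ^ 2) := sum_le_sum fun g _ => hcross i j l g
        _ = W := by
            rw [sum_const, card_univ, nsmul_eq_mul, hW, hFdef]; field_simp
    calc ∑ ω, ∑ y, Zy i y ω ^ 2
        = ∑ g, ∑ g' ∈ univ.filter (fun g' => φ i g' = φ i g), ∑ ω,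
          cen t ev p i (fun j => φ j g) ω * cen t ev p i (fun j => φ j g') ω := by
          rw [sum_congr rfl fun ω _ => e1 ω, sum_comm]
          exact sum_congr rfl fun g _ => sum_comm
      _ ≤ ∑ g, ∑ g' ∈ univ.filter (fun g' => φ i g' = φ i g), T * bound g g' :=
          sum_le_sum fun g _ => sum_le_sum (hb g)
      _ = T * ∑ j, ∑ l, ∑ g, ∑ g' ∈ univ.filter (fun g' => φ i g' = φ i g),
          (chi (badg j) g + chi (badg j) g' + chi (coll j l) g + chi (coll j l) g' +
            chi (cross i j l g) g') := by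
          simp only [← mul_sum, bound]
          congr 1
          rw [sum_congr rfl fun g _ => sum_comm, sum_comm]
          refine sum_congr rfl fun j _ => ?_
          rw [sum_congr rfl fun g _ => sum_comm, sum_comm]
      _ ≤ T * ∑ _j : Fin K, ∑ _l : Fin K, 5 * W := by
          refine mul_le_mul_of_nonneg_left (sum_le_sum fun j _ => sum_le_sum fun l _ => ?_) hT.le
          simp only [sum_add_distrib]
          linarith [c1 _ (hbadg j), c2 _ (hbadg j), c1 _ (hcoll j l), c2 _ (hcoll j l), c3 j l]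
      _ = _ := by simp only [sum_const, card_univ, Fintype.card_fin, nsmul_eq_mul]; ring
  -- the number of starts
  have hvar : ∀ i, ∑ ω, (((starts t ev ω i).card : ℝ) - p i * G) ^ 2 ≤ T * (3 * δ * G ^ 2) := by
    intro i
    let u : Y → (Fin B → O) → ℝ := fun y ω => ind (ev i y) (ω (t y)) - p i
    have e : ∀ ω, ((starts t ev ω i).card : ℝ) - p i * G = ∑ y, u y ω := by
      intro ω
      simp only [u, starts, ind, sum_sub_distrib, sum_boole, sum_const, card_univ, nsmul_eq_mul,
        hGdef]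
      ring
    have ha : ∀ y ω, |u y ω| ≤ 1 := fun y ω => abs_le.2
      ⟨by have := ind_nonneg (ev i y) (ω (t y)); have := hp1 i; simp only [u]; linarith,
        by have := ind_le_one (ev i y) (ω (t y)); have := hp0 i; simp only [u]; linarith⟩
    let bound : Y → Y → ℝ := fun y y' => (if y ∈ bad i then 1 else 0) +
      (if y' ∈ bad i then 1 else 0) + (if t y' = t y then 1 else 0)
    have hb : ∀ y y', ∑ ω, u y ω * u y' ω ≤ T * bound y y' := by
      intro y y'
      by_cases hgen : y ∉ bad i ∧ y' ∉ bad i ∧ t y' ≠ t y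
      · obtain ⟨hy, hy', hne⟩ := hgen
        have one : ∀ z, z ∉ bad i → ∑ ω : Fin B → O, ind (ev i z) (ω (t z)) = T * p i := fun z hz => by
          simpa using sum_prod_const ({z} : Finset Y) t (by simp) (ev i) (fun _ => p i)
            (by simpa using hev i z hz)
        have hyy : y ≠ y' := fun h => hne (h ▸ rfl)
        have two : ∑ ω : Fin B → O, ind (ev i y) (ω (t y)) * ind (ev i y') (ω (t y')) =
            T * (p i * p i) := by
          simpa [hyy, sq] using sum_prod_const ({y, y'} : Finset Y) t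
            (by intro a ha b hb hab; simp at ha hb; aesop) (ev i) (fun _ => p i)
            (by simp [hev i y hy, hev i y' hy'])
        have : ∑ ω, u y ω * u y' ω = 0 := by
          simp only [u, sub_mul, mul_sub, sum_sub_distrib, two, ← sum_mul, ← mul_sum,
            one y hy, one y' hy', sum_const, nsmul_eq_mul, hcardΩ]
          ring
        rw [this]
        refine mul_nonneg hT.le ?_
        simp [bound, hy, hy', hne]
      · have h1' : 1 ≤ bound y y' := by
          simp only [bound]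
          simp only [not_and_or, not_not] at hgen
          rcases hgen with h | h | h <;> simp only [h, if_true] <;> split_ifs <;> norm_num
        refine le_trans (sum_le_sum (g := fun _ => (1 : ℝ)) fun ω _ => ?_) ?_
        · refine le_trans (le_abs_self _) ?_
          rw [abs_mul]
          exact mul_le_one₀ (ha _ _) (abs_nonneg _) (ha _ _)
        · rw [sum_const, nsmul_eq_mul, hcardΩ]
          exact mul_le_mul_of_nonneg_left h1' hT.le
    calc ∑ ω, (((starts t ev ω i).card : ℝ) - p i * G) ^ 2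
        = ∑ y, ∑ y', ∑ ω, u y ω * u y' ω := by
          simp only [e, sq, sum_mul_sum]
          rw [sum_comm]
          exact sum_congr rfl fun y _ => sum_comm
      _ ≤ ∑ y, ∑ y', T * bound y y' := sum_le_sum fun y _ => sum_le_sum fun y' _ => hb y y'
      _ ≤ T * (3 * δ * G ^ 2) := by
          simp only [← mul_sum]
          refine mul_le_mul_of_nonneg_left ?_ hT.le
          calc ∑ y, ∑ y', bound y y'
              = 2 * G * (bad i).card + ∑ y, ((univ.filter fun y' => t y' = t y).card : ℝ) := by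
                simp only [bound, sum_add_distrib, sum_const, card_univ, nsmul_eq_mul, sum_boole,
                  filter_mem_eq_inter, univ_inter, ← mul_sum, ← hGdef]
                ring
            _ ≤ 2 * G * (δ * G) + ∑ _y : Y, δ * G :=
                add_le_add (mul_le_mul_of_nonneg_left (hbad i) (by positivity))
                  (sum_le_sum fun y _ => hblock _)
            _ = _ := by rw [sum_const, card_univ, nsmul_eq_mul, ← hGdef]; ring
  let X : Fin K → (Fin B → O) → ℝ := fun i ω =>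
    ∑ y, Zy i y ω ^ 2 + F ^ 2 / G * (((starts t ev ω i).card : ℝ) - p i * G) ^ 2
  obtain ⟨ω, -, hω⟩ := exists_le_of_sum_le (univ_nonempty : (univ : Finset (Fin B → O)).Nonempty)
    (f := fun ω => ∑ i, X i ω) (g := fun _ => (K : ℝ) * (5 * (K : ℝ) ^ 2 + 3) * W) (by
      rw [sum_comm, sum_const, nsmul_eq_mul, hcardΩ]
      refine le_trans (sum_le_sum fun i _ => ?_) (le_of_eq (?_ :
        ∑ _i : Fin K, T * ((5 * (K : ℝ) ^ 2 + 3) * W) = _))
      · simp only [X, sum_add_distrib, ← mul_sum]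
        have h := mul_le_mul_of_nonneg_left (hvar i) (by positivity : 0 ≤ F ^ 2 / G)
        have e : F ^ 2 / G * (T * (3 * δ * G ^ 2)) = T * (3 * W) := by rw [hW]; field_simp
        rw [e] at h
        linarith [hsq i]
      · simp; ring)
  refine ⟨ω, fun i => ?_⟩
  have hX : X i ω ≤ ε ^ 2 * (G * F ^ 2) := by
    refine le_trans (le_trans (single_le_sum (f := fun i => X i ω) (fun j _ => ?_) (mem_univ i))
      hω) (le_of_eq_of_le ?_ (mul_le_mul_of_nonneg_right hδ (by positivity : 0 ≤ G * F ^ 2)))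
    · exact add_nonneg (sum_nonneg fun _ _ => sq_nonneg _) (by positivity)
    · rw [hW]; ring
  have hpos : 0 ≤ ∑ y, Zy i y ω ^ 2 := sum_nonneg fun _ _ => sq_nonneg _
  constructor
  · refine abs_le_of_sq_le_sq ?_ (by positivity)
    have h : F ^ 2 / G * (((starts t ev ω i).card : ℝ) - p i * G) ^ 2 ≤
        F ^ 2 / G * (ε * G) ^ 2 := by
      refine le_trans ?_ (le_of_le_of_eq hX (by field_simp))
      simp only [X]; linarith
    exact le_of_mul_le_mul_left h (by positivity)
  · refine (pow_le_pow_iff_left₀ (sum_nonneg fun _ _ => abs_nonneg _) (by positivity) two_ne_zero).1 ?_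
    refine le_trans sq_sum_le_card_mul_sum_sq ?_
    simp only [sq_abs, card_univ, ← hGdef]
    have h : ∑ y, Zy i y ω ^ 2 ≤ ε ^ 2 * (G * F ^ 2) := le_trans (by
      simp only [X]; exact le_add_of_nonneg_right (by positivity)) hX
    calc G * ∑ y, Zy i y ω ^ 2 ≤ G * (ε ^ 2 * (G * F ^ 2)) := mul_le_mul_of_nonneg_left h hG.le
      _ = (ε * Fintype.card V) ^ 2 := by rw [hFdef]; field_simp

end sample

section cell

/-- The pair of a position, before clamping. -/
def pairNo (G M B y : ℕ) : ℕ := if y < B * M then y / M else (G - 1 - y) / M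

/-- The left end of a superblock. -/
def lend (G M : ℕ) (s : Bool) (b : ℕ) : ℕ := if s then b * M else G - (b + 1) * M

variable {G M B y : ℕ}

lemma lend_spec (hM : 0 < M) (hBM : 2 * (B * M) ≤ G) (hy : y < G) (hb : pairNo G M B y < B) :
    lend G M (decide (y < B * M)) (pairNo G M B y) ≤ y ∧
      y < lend G M (decide (y < B * M)) (pairNo G M B y) + M := by
  unfold lend pairNo at *
  by_cases h : y < B * M
  · simp only [h, if_true, decide_true] at *
    have := Nat.div_add_mod' y M
    have := Nat.mod_lt y hM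
    constructor <;> omega
  · simp only [h, if_false, decide_false] at *
    have h1 : ((G - 1 - y) / M + 1) * M ≤ B * M := Nat.mul_le_mul_right M hb
    have := Nat.div_add_mod' (G - 1 - y) M
    have := Nat.mod_lt (G - 1 - y) hM
    rw [Nat.add_mul, Nat.one_mul] at *
    simp only [Bool.false_eq_true, if_false]
    constructor <;> omega

/-- Outcomes of one pair. -/
abbrev Out {K : ℕ} (L q : Fin K → ℕ) : Type := (i : Fin K) × (Bool × Fin (L i) × Fin (q i))

variable {K : ℕ} (L q : Fin K → ℕ)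

/-- The outcomes making `y` a start of class `i`. -/
def evC (G M B : ℕ) (i : Fin K) (y : ℕ) : Finset (Out L q) :=
  univ.filter fun o => o.1 = i ∧ pairNo G M B y < B ∧ o.2.1 = decide (y < B * M) ∧
    y + L o.1 ≤ lend G M (decide (y < B * M)) (pairNo G M B y) + M ∧
    ((o.2.2.1 : ℕ) = (y - lend G M (decide (y < B * M)) (pairNo G M B y)) % L o.1)

/-- The positions at which class `i` can not start. -/
def badC (G M B : ℕ) (i : Fin K) (y : ℕ) : Prop :=
  ¬ (pairNo G M B y < B ∧ y + L i ≤ lend G M (decide (y < B * M)) (pairNo G M B y) + M)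

lemma card_evC (i : Fin K) (hL : 0 < L i) (h : ¬ badC L G M B i y) :
    (evC L q G M B i y).card = q i := by
  simp only [badC, not_not] at h
  obtain ⟨h1, h2⟩ := h
  set s := decide (y < B * M)
  set w : Fin (L i) := ⟨(y - lend G M s (pairNo G M B y)) % L i, Nat.mod_lt _ hL⟩
  have e : evC L q G M B i y =
      (univ : Finset (Fin (q i))).image fun a => (⟨i, s, w, a⟩ : Out L q) := by
    ext o
    obtain ⟨j, s', o', a⟩ := o
    constructor
    · intro ho
      obtain ⟨rfl, -, e1, -, e2⟩ := (mem_filter.1 ho).2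
      have hs' : s' = s := e1
      have ho' : o' = w := Fin.ext e2
      exact mem_image.2 ⟨a, mem_univ _, by rw [hs', ho']⟩
    · intro ho
      obtain ⟨a', -, ha⟩ := mem_image.1 ho
      rw [← ha]
      exact mem_filter.2 ⟨mem_univ _, rfl, h1, rfl, h2, rfl⟩
  rw [e, card_image_of_injective _ (fun a a' h => by simpa using h), card_univ, Fintype.card_fin]

lemma card_pairNo (hM : 0 < M) (b : ℕ) :
    ((range G).filter fun y => pairNo G M B y = b).card ≤ 2 * M := by
  have hsub : (range G).filter (fun y => pairNo G M B y = b) ⊆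
      Ico (b * M) (b * M + M) ∪ (Ico (b * M) (b * M + M)).image fun r => G - 1 - r := by
    intro y hy
    obtain ⟨hy, hb⟩ := mem_filter.1 hy
    rw [mem_range] at hy
    unfold pairNo at hb
    split_ifs at hb with h
    · refine mem_union_left _ (mem_Ico.2 ?_)
      have := Nat.div_add_mod' y M
      have := Nat.mod_lt y hM
      subst hb
      constructor <;> omega
    · refine mem_union_right _ (mem_image.2 ⟨G - 1 - y, mem_Ico.2 ?_, by omega⟩)
      have := Nat.div_add_mod' (G - 1 - y) M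
      have := Nat.mod_lt (G - 1 - y) hM
      subst hb
      constructor <;> omega
  refine le_trans (card_le_card hsub) (le_trans (card_union_le _ _) ?_)
  have := card_image_le (s := Ico (b * M) (b * M + M)) (f := fun r => G - 1 - r)
  simp at this ⊢
  omega

lemma card_middle (hM : 0 < M) (hBG : G < 2 * (B * M) + 2 * M) :
    ((range G).filter fun y => ¬ pairNo G M B y < B).card ≤ 2 * M := by
  have hsub : (range G).filter (fun y => ¬ pairNo G M B y < B) ⊆ Ico (B * M) (G - B * M) := by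
    intro y hy
    obtain ⟨hy, hb⟩ := mem_filter.1 hy
    rw [mem_range] at hy
    unfold pairNo at hb
    split_ifs at hb with h
    · exact absurd ((Nat.div_lt_iff_lt_mul hM).2 h) hb
    · rw [Nat.div_lt_iff_lt_mul hM] at hb
      rw [mem_Ico]; omega
  refine le_trans (card_le_card hsub) ?_
  rw [Nat.card_Ico]; omega

lemma card_badC (hM : 0 < M) (hBM : 2 * (B * M) ≤ G) (hBG : G < 2 * (B * M) + 2 * M) (i : Fin K)
    [DecidablePred (badC L G M B i)] :
    ((range G).filter (badC L G M B i)).card ≤ 2 * B * L i + 2 * M := by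
  classical
  have hsub : (range G).filter (badC L G M B i) ⊆
      ((univ : Finset Bool) ×ˢ range B ×ˢ range (L i)).image
        (fun p => lend G M p.1 p.2.1 + M - 1 - p.2.2) ∪
        (range G).filter fun y => ¬ pairNo G M B y < B := by
    intro y hy
    obtain ⟨hy, hbad⟩ := mem_filter.1 hy
    by_cases hb : pairNo G M B y < B
    · refine mem_union_left _ (mem_image.2
        ⟨(decide (y < B * M), pairNo G M B y,
          lend G M (decide (y < B * M)) (pairNo G M B y) + M - 1 - y), ?_, ?_⟩)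
      all_goals
        have hs := lend_spec hM hBM (mem_range.1 hy) hb
        simp only [badC, not_and, hb, true_imp_iff] at hbad
      · simp only [mem_product, mem_univ, mem_range, true_and]
        exact ⟨hb, by omega⟩
      · simp only; omega
    · exact mem_union_right _ (mem_filter.2 ⟨hy, hb⟩)
  refine le_trans (card_le_card hsub) (le_trans (card_union_le _ _) ?_)
  refine Nat.add_le_add (le_trans card_image_le ?_) (card_middle hM hBG)
  simp [card_product, Nat.mul_assoc]

lemma lend_sep (hBM : 2 * (B * M) ≤ G) {b b' : ℕ} (hb : b < B) (hb' : b' < B) {τ τ' : Bool}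
    (h : ¬ (b = b' ∧ τ = τ')) :
    lend G M τ b + M ≤ lend G M τ' b' ∨ lend G M τ' b' + M ≤ lend G M τ b := by
  have h1 : b * M + M ≤ B * M := by simpa [Nat.succ_mul] using Nat.mul_le_mul_right M hb
  have h2 : b' * M + M ≤ B * M := by simpa [Nat.succ_mul] using Nat.mul_le_mul_right M hb'
  have h3 : b ≠ b' → b * M + M ≤ b' * M ∨ b' * M + M ≤ b * M := fun hne =>
    (Nat.lt_or_gt_of_ne hne).imp
      (fun h => by simpa [Nat.succ_mul] using Nat.mul_le_mul_right M h)
      (fun h => by simpa [Nat.succ_mul] using Nat.mul_le_mul_right M h)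
  cases τ <;> cases τ' <;>
    simp only [lend, Bool.false_eq_true, if_false, if_true, Nat.add_mul, Nat.one_mul] at *
  · rcases h3 (by simpa using h) with h | h <;> omega
  · omega
  · omega
  · rcases h3 (by simpa using h) with h | h <;> omega

/-- The image in the cell of the point at distance `x` after `y`. -/
def img (G : ℕ) (σ : Bool) (y : ℕ) (x : ℝ) : ℝ :=
  if σ then (y : ℝ) + x else (G : ℝ) - ((y : ℝ) + x)

lemma img_mem (hBM : 2 * (B * M) ≤ G) {b l : ℕ} (hb : b < B) (s σ : Bool)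
    (h1 : lend G M s b ≤ y) (h2 : y + l ≤ lend G M s b + M) {x : ℝ}
    (hx : x ∈ Set.Ioo (0 : ℝ) l) :
    (lend G M (s == σ) b : ℝ) < img G σ y x ∧ img G σ y x < (lend G M (s == σ) b : ℝ) + M ∧
      lend G M (s == σ) b + M ≤ G := by
  have hb1 : b * M + M ≤ B * M := by simpa [Nat.succ_mul] using Nat.mul_le_mul_right M hb
  have h1' : (lend G M s b : ℝ) ≤ y := by exact_mod_cast h1
  have h2' : (y : ℝ) + l ≤ (lend G M s b : ℝ) + M := by exact_mod_cast h2
  have hin : ∀ τ, lend G M τ b + M ≤ G := fun τ => by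
    cases τ <;> simp only [lend, Bool.false_eq_true, if_false, if_true, Nat.add_mul, Nat.one_mul] <;>
      omega
  have hc : (lend G M (!s) b : ℝ) + lend G M s b + M = G := by
    have : lend G M (!s) b + lend G M s b + M = G := by
      cases s <;> simp only [lend, Bool.not_false, Bool.not_true, Bool.false_eq_true, if_false,
        if_true, Nat.add_mul, Nat.one_mul] <;> omega
    exact_mod_cast this
  obtain ⟨x1, x2⟩ := hx
  refine (and_assoc).1 ⟨?_, hin _⟩
  cases σ
  · rw [show (s == false) = !s by cases s <;> rfl]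
    simp only [img, Bool.false_eq_true, if_false]
    constructor <;> linarith
  · rw [show (s == true) = s by cases s <;> rfl]
    simp only [img, if_true]
    constructor <;> linarith

/-- The blocks and their mirror images are exclusive. -/
lemma disjoint_blocks (hBM : 2 * (B * M) ≤ G) (b b' : ℕ) (hb : b < B) (hb' : b' < B)
    (s s' σ σ' : Bool) (y y' l l' : ℕ) (hy : lend G M s b ≤ y) (hy2 : y + l ≤ lend G M s b + M)
    (hy' : lend G M s' b' ≤ y') (hy2' : y' + l' ≤ lend G M s' b' + M)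
    (hsame : b = b' → (s == σ) = (s' == σ') → σ = σ' ∧ (y + l ≤ y' ∨ y' + l' ≤ y))
    (x : ℝ) (hx : x ∈ Set.Ioo (0 : ℝ) l) (x' : ℝ) (hx' : x' ∈ Set.Ioo (0 : ℝ) l') (z : ℤ) :
    (if σ then (1 : ℝ) else -1) * ((y : ℝ) + x) -
      (if σ' then (1 : ℝ) else -1) * ((y' : ℝ) + x') ≠ (z : ℝ) * G := by
  intro hz
  obtain ⟨p1, p2, p3⟩ := img_mem hBM hb s σ hy hy2 hx
  obtain ⟨r1, r2, r3⟩ := img_mem hBM hb' s' σ' hy' hy2' hx'
  have p3' : (lend G M (s == σ) b : ℝ) + M ≤ G := by exact_mod_cast p3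
  have r3' : (lend G M (s' == σ') b' : ℝ) + M ≤ G := by exact_mod_cast r3
  have e : ∀ (τ : Bool) (y : ℕ) (x : ℝ), (if τ then (1 : ℝ) else -1) * ((y : ℝ) + x) =
      img G τ y x - ((if τ then (0 : ℤ) else 1 : ℤ) : ℝ) * G := fun τ y x => by
    cases τ <;> simp [img]
  obtain ⟨z', hz'⟩ : ∃ z' : ℤ, img G σ y x - img G σ' y' x' = (z' : ℝ) * G := by
    refine ⟨z + (if σ then 0 else 1) - (if σ' then 0 else 1), ?_⟩
    rw [e, e] at hz
    push_cast at hz ⊢
    linear_combination hz
  have hweq : img G σ y x = img G σ' y' x' := by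
    have h0 : (0 : ℝ) ≤ (lend G M (s == σ) b : ℝ) := Nat.cast_nonneg _
    have h0' : (0 : ℝ) ≤ (lend G M (s' == σ') b' : ℝ) := Nat.cast_nonneg _
    have hG : (0 : ℝ) ≤ (G : ℝ) := Nat.cast_nonneg _
    rcases lt_trichotomy z' 0 with h | h | h
    · have : (z' : ℝ) ≤ -1 := by exact_mod_cast (show z' ≤ -1 by omega)
      nlinarith
    · subst h; simpa [sub_eq_zero] using hz'
    · have : (1 : ℝ) ≤ z' := by exact_mod_cast (show (1 : ℤ) ≤ z' by omega)
      nlinarith
  by_cases hsb : b = b' ∧ (s == σ) = (s' == σ')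
  · obtain ⟨rfl, hor⟩ := hsame hsb.1 hsb.2
    obtain ⟨x1, x2⟩ := hx
    obtain ⟨y1, y2⟩ := hx'
    rcases hor with h | h
    · have h' : (y : ℝ) + l ≤ y' := by exact_mod_cast h
      cases σ <;> simp [img] at hweq <;> linarith
    · have h' : (y' : ℝ) + l' ≤ y := by exact_mod_cast h
      cases σ <;> simp [img] at hweq <;> linarith
  · rcases lend_sep hBM hb hb' hsb with h | h
    · have h' : (lend G M (s == σ) b : ℝ) + M ≤ lend G M (s' == σ') b' := by exact_mod_cast h
      linarith
    · have h' : (lend G M (s' == σ') b' : ℝ) + M ≤ lend G M (s == σ) b := by exact_mod_cast h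
      linarith

end cell

/-- The linear form of class `i` on shifts modulo `m`. -/
def form {d : ℕ} (k : Fin d → ℤ) (m : ℕ) : (Fin d → ZMod m) →+ ZMod m where
  toFun g := ∑ l, (k l : ZMod m) * g l
  map_zero' := by simp
  map_add' g g' := by simp [mul_add, sum_add_distrib]

lemma exists_minor {η : ℝ} (A : Arith η) {i j : Fin A.K} (hij : i ≠ j) :
    ∃ l m, l ≠ m ∧ A.k i l * A.k j m - A.k i m * A.k j l ≠ 0 := by
  by_contra! h
  obtain ⟨l0, hl0⟩ : ∃ l, A.k i l ≠ 0 := by
    by_contra! h0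
    simpa [dot, h0] using A.hv i
  have hz : ∀ l, A.k j l0 * A.k i l + -A.k i l0 * A.k j l = 0 := fun l => by
    rcases eq_or_ne l0 l with rfl | hne
    · ring
    · linarith [h l0 l hne]
  exact hl0 (neg_eq_zero.1 (A.hpair i j hij _ _ hz).2)

lemma two_le_d {η : ℝ} (A : Arith η) : 2 ≤ A.d := by
  have hK := A.hK
  obtain ⟨l, m, hlm, -⟩ := exists_minor A (i := ⟨0, by omega⟩) (j := ⟨1, by omega⟩) (by simp)
  have := l.isLt; have := m.isLt
  have : (l : ℕ) ≠ m := fun h => hlm (Fin.ext h)
  omega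

lemma surj_pair {d G : ℕ} [Fact G.Prime] (k k' : Fin d → ℤ) (l m : Fin d)
    (h : (((k l * k' m - k m * k' l : ℤ)) : ZMod G) ≠ 0) :
    Function.Surjective ((form k G).prod (form k' G)) := by
  rintro ⟨a, b⟩
  set Δ : ZMod G := ((k l * k' m - k m * k' l : ℤ) : ZMod G) with hΔ
  set u := (a * k' m - b * k m) / Δ
  set w := (b * k l - a * k' l) / Δ
  refine ⟨Pi.single l u + Pi.single m w, ?_⟩
  have e : ∀ (c : Fin d → ℤ), form c G (Pi.single l u + Pi.single m w) =
      (c l : ZMod G) * u + (c m : ZMod G) * w := by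
    intro c
    rw [map_add]
    simp [form, Pi.single_apply]
  simp only [AddMonoidHom.prod_apply, e, Prod.mk.injEq]
  push_cast at hΔ
  constructor
  · simp only [u, w]; field_simp; rw [hΔ]; ring
  · simp only [u, w]; field_simp; rw [hΔ]; ring

section count

variable {η : ℝ} (A : Arith η) {G : ℕ}

lemma n_pos (i : Fin A.K) : 0 < A.n i := lt_trans one_pos (A.hn i).2

lemma P_pos : 0 < A.P := A.hP ▸ prod_pos fun i _ => n_pos A i

lemma n_dvd_P (i : Fin A.K) : A.n i ∣ A.P := ⟨A.q i, by rw [← A.hqP i]; ring⟩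

/-- The coordinates of a shift modulo `P` and modulo `G`. -/
def coord (j : Fin A.d → Fin (A.P * G)) : (Fin A.d → ZMod A.P) × (Fin A.d → ZMod G) :=
  (fun l => ((j l : ℕ) : ZMod A.P), fun l => ((j l : ℕ) : ZMod G))

lemma coord_bij [NeZero G] [NeZero A.P] (hPG : Nat.Coprime A.P G) :
    Function.Bijective (coord A (G := G)) := by
  rw [Fintype.bijective_iff_injective_and_card]
  refine ⟨fun j j' h => funext fun l => Fin.ext ?_, by simp [mul_pow]⟩
  have h1 := congrFun (congrArg Prod.fst h) l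
  have h2 := congrFun (congrArg Prod.snd h) l
  simp only [coord, ZMod.natCast_eq_natCast_iff] at h1 h2
  exact ((Nat.modEq_and_modEq_iff_modEq_mul hPG).1 ⟨h1, h2⟩).eq_of_lt_of_lt (j l).isLt (j' l).isLt

/-- The hit of class `i` modulo `n i`. -/
def modn (i : Fin A.K) : (Fin A.d → ZMod A.P) →+ ZMod (A.n i) :=
  (ZMod.castHom (n_dvd_P A i) (ZMod (A.n i))).toAddMonoidHom.comp (form (A.k i) A.P)

lemma modn_surj (i : Fin A.K) : Function.Surjective (modn A i) := by
  intro a
  obtain ⟨u, hu⟩ := A.hsurj i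
  obtain ⟨a, rfl⟩ := ZMod.intCast_surjective a
  refine ⟨fun l => ((a * u l : ℤ) : ZMod A.P), ?_⟩
  show ZMod.castHom (n_dvd_P A i) (ZMod (A.n i))
    (∑ l, (A.k i l : ZMod A.P) * ((a * u l : ℤ) : ZMod A.P)) = _
  rw [map_sum]
  simp only [map_mul, map_intCast]
  push_cast at hu ⊢
  simp only [mul_left_comm _ (a : ZMod (A.n i)), ← mul_sum, hu, mul_one]

lemma hit_lt (hG : 0 < G) (j : Fin A.d → Fin (A.P * G)) (i : Fin A.K) :
    hit A G j i < A.n i * G := by
  have hpos : (0 : ℤ) < ((A.n i * G : ℕ) : ℤ) := by exact_mod_cast Nat.mul_pos (n_pos A i) hG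
  rw [hit, Int.toNat_lt (Int.emod_nonneg _ hpos.ne')]
  exact Int.emod_lt_of_pos _ hpos

lemma hit_cast (hG : 0 < G) (j : Fin A.d → Fin (A.P * G)) (i : Fin A.K) :
    ((hit A G j i : ℕ) : ZMod G) = form (A.k i) G (coord A j).2 ∧
      ((hit A G j i : ℕ) : ZMod (A.n i)) = modn A i (coord A j).1 := by
  have hpos : (0 : ℤ) < ((A.n i * G : ℕ) : ℤ) := by exact_mod_cast Nat.mul_pos (n_pos A i) hG
  have h : ((hit A G j i : ℕ) : ℤ) =
      (∑ l, A.k i l * ((j l : ℕ) : ℤ)) % ((A.n i * G : ℕ) : ℤ) :=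
    Int.toNat_of_nonneg (Int.emod_nonneg _ hpos.ne')
  have hm : ∀ m : ℕ, m ∣ A.n i * G →
      ((hit A G j i : ℕ) : ZMod m) = ((∑ l, A.k i l * ((j l : ℕ) : ℤ) : ℤ) : ZMod m) := by
    intro m hm
    rw [← Int.cast_natCast, h, ZMod.intCast_eq_intCast_iff', Int.emod_emod_of_dvd]
    exact_mod_cast hm
  constructor
  · rw [hm G (dvd_mul_left _ _)]
    simp [form, coord]
  · rw [hm (A.n i) (dvd_mul_right _ _)]
    show _ = ZMod.castHom (n_dvd_P A i) (ZMod (A.n i))
      (∑ l, (A.k i l : ZMod A.P) * ((j l : ℕ) : ZMod A.P))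
    simp [map_sum, map_mul, map_intCast, map_natCast]

lemma hit_eq_iff (hG : 0 < G) (hPG : Nat.Coprime A.P G) (j : Fin A.d → Fin (A.P * G))
    (i : Fin A.K) {x : ℕ} (hx : x < A.n i * G) :
    hit A G j i = x ↔ modn A i (coord A j).1 = ((x : ℕ) : ZMod (A.n i)) ∧
      form (A.k i) G (coord A j).2 = ((x : ℕ) : ZMod G) := by
  rw [← (hit_cast A hG j i).1, ← (hit_cast A hG j i).2, ZMod.natCast_eq_natCast_iff,
    ZMod.natCast_eq_natCast_iff,
    Nat.modEq_and_modEq_iff_modEq_mul (Nat.Coprime.coprime_dvd_left (n_dvd_P A i) hPG)]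
  exact ⟨fun h => h ▸ Nat.ModEq.refl _, fun h => h.eq_of_lt_of_lt (hit_lt A hG j i) hx⟩

lemma sum_verts (hG : 0 < G) (S : Fin A.K → Finset ℕ) (hS : ∀ i, ∀ y ∈ S i, y < G) (i : Fin A.K)
    (F : ℕ → ℝ) : ∑ x ∈ verts A G S i, F (x % G) = A.n i * ∑ y ∈ S i, F y := by
  rw [show (A.n i : ℝ) * ∑ y ∈ S i, F y = ∑ p ∈ range (A.n i) ×ˢ S i, F p.2 by
    rw [sum_product]; simp]
  refine sum_nbij' (fun x => (x / G, x % G)) (fun p => p.2 + G * p.1) ?_ ?_ ?_ ?_ (fun _ _ => rfl)
  · intro x hx
    simp only [verts, mem_filter, mem_range, mem_product] at hx ⊢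
    exact ⟨(Nat.div_lt_iff_lt_mul hG).2 hx.1, hx.2⟩
  · intro p hp
    simp only [verts, mem_filter, mem_range, mem_product] at hp ⊢
    have hlt := hS i _ hp.2
    have : G * (p.1 + 1) ≤ G * A.n i := Nat.mul_le_mul_left G hp.1
    refine ⟨by rw [Nat.mul_comm (A.n i)]; linarith, ?_⟩
    rw [Nat.add_mul_mod_self_left, Nat.mod_eq_of_lt hlt]; exact hp.2
  · intro x _
    exact Nat.mod_add_div x G
  · intro p hp
    simp only [mem_product] at hp
    have hlt := hS i _ hp.2
    refine Prod.ext ?_ ?_ <;> simp only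
    · rw [Nat.add_mul_div_left _ _ hG, Nat.div_eq_of_lt hlt, zero_add]
    · rw [Nat.add_mul_mod_self_left, Nat.mod_eq_of_lt hlt]

/-- Starts in the cell given by residues. -/
def lift (S' : Fin A.K → Finset (ZMod G)) (i : Fin A.K) : Finset ℕ := (S' i).image ZMod.val

variable [NeZero G] (S' : Fin A.K → Finset (ZMod G))

lemma lift_lt (i : Fin A.K) : ∀ y ∈ lift A S' i, y < G := fun y hy => by
  obtain ⟨y', -, rfl⟩ := mem_image.1 hy
  exact ZMod.val_lt y'

lemma lift_iff (j : Fin A.d → Fin (A.P * G)) (i : Fin A.K) :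
    hit A G j i % G ∈ lift A S' i ↔ form (A.k i) G (coord A j).2 ∈ S' i := by
  rw [← (hit_cast A (NeZero.pos G) j i).1, lift, mem_image]
  constructor
  · rintro ⟨a, ha, he⟩
    rwa [← ZMod.natCast_mod, ← he, ZMod.natCast_rightInverse a]
  · exact fun h => ⟨_, h, ZMod.val_natCast _ _⟩

/-- The shifts modulo `G` through the position `y` of class `i` with all hits at starts. -/
def cellEdges (i : Fin A.K) (y : ZMod G) : Finset (Fin A.d → ZMod G) :=
  univ.filter fun g => form (A.k i) G g = y ∧ ∀ j, form (A.k j) G g ∈ S' j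

lemma card_degree (hPG : Nat.Coprime A.P G) (i : Fin A.K) {x : ℕ}
    (hx : x ∈ verts A G (lift A S') i) :
    ((univ.filter fun f : {j : Fin A.d → Fin (A.P * G) // ∀ i, hit A G j i % G ∈ lift A S' i} =>
        hit A G f.1 i = x).card : ℝ) =
      (A.P : ℝ) ^ A.d / A.n i * (cellEdges A S' i (x : ZMod G)).card := by
  have hx' : x < A.n i * G := mem_range.1 (mem_filter.1 hx).1
  have hG := NeZero.pos G
  have : NeZero (A.n i) := ⟨(n_pos A i).ne'⟩
  have : NeZero A.P := ⟨(P_pos A).ne'⟩
  rw [show (A.P : ℝ) ^ A.d / A.n i =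
      ((univ.filter fun a => modn A i a = ((x : ℕ) : ZMod (A.n i))).card : ℝ) by
    rw [card_fiber _ (modn_surj A i)]; simp, ← Nat.cast_mul, ← card_product, Nat.cast_inj]
  refine card_bij (fun f _ => coord A f.1) ?_ ?_ ?_
  · intro f hf
    have h := (hit_eq_iff A hG hPG f.1 i hx').1 (mem_filter.1 hf).2
    simp only [mem_product, mem_filter, mem_univ, true_and, cellEdges]
    exact ⟨h.1, h.2, fun j => (lift_iff A S' f.1 j).1 (f.2 j)⟩
  · intro f _ f' _ h
    exact Subtype.ext ((coord_bij A hPG).1 h)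
  · intro b hb
    simp only [mem_product, mem_filter, mem_univ, true_and, cellEdges] at hb
    obtain ⟨j, rfl⟩ := (coord_bij A hPG).2 b
    exact ⟨⟨j, fun l => (lift_iff A S' j l).2 (hb.2.2 l)⟩,
      mem_filter.2 ⟨mem_univ _, (hit_eq_iff A hG hPG j i hx').2 ⟨hb.1, hb.2.1⟩⟩, rfl⟩

lemma card_codegree (hPG : Nat.Coprime A.P G) (i l : Fin A.K)
    (h2 : Function.Surjective ((form (A.k i) G).prod (form (A.k l) G))) (x y : ℕ) :
    ((univ.filter fun f : {j : Fin A.d → Fin (A.P * G) // ∀ i, hit A G j i % G ∈ lift A S' i} =>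
        hit A G f.1 i = x ∧ hit A G f.1 l = y).card : ℝ) ≤
      (A.P : ℝ) ^ A.d * ((G : ℝ) ^ A.d / G ^ 2) := by
  have : NeZero A.P := ⟨(P_pos A).ne'⟩
  have hG := NeZero.pos G
  have hc := card_fiber _ h2 (((x : ℕ) : ZMod G), ((y : ℕ) : ZMod G))
  rw [show (A.P : ℝ) ^ A.d * ((G : ℝ) ^ A.d / G ^ 2) =
      (((univ : Finset (Fin A.d → ZMod A.P)) ×ˢ univ.filter fun g =>
        (form (A.k i) G).prod (form (A.k l) G) g =
          (((x : ℕ) : ZMod G), ((y : ℕ) : ZMod G))).card : ℝ) by
    rw [card_product, Nat.cast_mul, hc]; simp [sq]]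
  refine Nat.cast_le.2 (card_le_card_of_injOn (fun f => coord A f.1) ?_ ?_)
  · intro f hf
    obtain ⟨hx, hy⟩ := (mem_filter.1 hf).2
    subst hx hy
    simp [(hit_cast A hG f.1 i).1, (hit_cast A hG f.1 l).1]
  · exact fun f _ f' _ h => Subtype.ext ((coord_bij A hPG).1 h)

lemma sum_cen {B : ℕ} {O : Type} [DecidableEq O] [Fintype O] (t : ZMod G → Fin B)
    (ev : Fin A.K → ZMod G → Finset O) (p : Fin A.K → ℝ) (ω : Fin B → O) (i : Fin A.K)
    (h1 : Function.Surjective (form (A.k i) G)) {y : ZMod G} (hy : y ∈ starts t ev ω i) :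
    ∑ g ∈ univ.filter (fun g => form (A.k i) G g = y),
        cen t ev p i (fun j => form (A.k j) G g) ω =
      ((cellEdges A (starts t ev ω) i y).card : ℝ) -
        (∏ j ∈ univ.erase i, p j) * ((G : ℝ) ^ A.d / G) := by
  have hy1 : ind (ev i y) (ω (t y)) = 1 := if_pos (mem_filter.1 hy).2
  have step : ∀ g ∈ univ.filter (fun g => form (A.k i) G g = y),
      cen t ev p i (fun j => form (A.k j) G g) ω =
      (if ∀ j, form (A.k j) G g ∈ starts t ev ω j then (1 : ℝ) else 0) -
        ∏ j ∈ univ.erase i, p j := by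
    intro g hg
    have hg' := (mem_filter.1 hg).2
    rw [cen, hg', hy1, one_mul]
    congr 1
    split_ifs with h
    · exact prod_eq_one fun j _ => if_pos (mem_filter.1 (h j)).2
    · push Not at h
      obtain ⟨j, hj⟩ := h
      have hji : j ≠ i := fun e => hj (by rw [e, hg']; exact hy)
      refine prod_eq_zero (mem_erase.2 ⟨hji, mem_univ j⟩) (if_neg fun h' => hj ?_)
      exact mem_filter.2 ⟨mem_univ _, h'⟩
  rw [sum_congr rfl step, sum_sub_distrib, sum_boole, sum_const, nsmul_eq_mul, filter_filter,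
    card_fiber _ h1, mul_comm (∏ j ∈ univ.erase i, p j)]
  simp [cellEdges]

/-- A good sample gives a nearly regular hypergraph. -/
lemma nearlyRegular_of_sample (hPG : Nat.Coprime A.P G) {B : ℕ} {O : Type} [DecidableEq O]
    [Fintype O] (t : ZMod G → Fin B) (ev : Fin A.K → ZMod G → Finset O) (p : Fin A.K → ℝ)
    (ω : Fin B → O) (h1 : ∀ i, Function.Surjective (form (A.k i) G))
    (h2 : ∀ i l, i ≠ l → Function.Surjective ((form (A.k i) G).prod (form (A.k l) G)))
    (ρ ε η' : ℝ) (hρ : 0 < ρ) (hη' : 0 < η') (hε : 0 < ε) (hp : ∀ i, 0 < p i)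
    (hnp : ∀ i, (A.n i : ℝ) * p i = ρ) (hεP : ε * (2 * A.P) ≤ η' * ρ)
    (hεp : ε ≤ η' * ∏ i, p i) (hG1 : 2 ≤ η' * ρ * G) (hG2 : ρ ≤ η' * (∏ i, p i) * G)
    (hω : ∀ i, |((starts t ev ω i).card : ℝ) - p i * Fintype.card (ZMod G)| ≤
        ε * Fintype.card (ZMod G) ∧
      ∑ y, |∑ g ∈ univ.filter (fun g => form (A.k i) G g = y),
        cen t ev p i (fun j => form (A.k j) G g) ω| ≤ ε * Fintype.card (Fin A.d → ZMod G)) :
    NearlyRegular
      (ι := {j : Fin A.d → Fin (A.P * G) // ∀ i, hit A G j i % G ∈ lift A (starts t ev ω) i})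
      (verts A G (lift A (starts t ev ω))) (fun j => hit A G j.1) ⌈ρ * G⌉₊
      ((A.P : ℝ) ^ A.d * ((G : ℝ) ^ A.d / G) * (∏ i, p i) / ρ) η' := by
  have hG := NeZero.pos G
  have hGR : (0 : ℝ) < G := by exact_mod_cast hG
  have hnum1 : ρ * G ≤ (⌈ρ * G⌉₊ : ℝ) := Nat.le_ceil _
  have hnum2 : (⌈ρ * G⌉₊ : ℝ) ≤ ρ * G + 1 := (Nat.ceil_lt_add_one (by positivity)).le
  have hπ : 0 < ∏ i, p i := prod_pos fun i _ => hp i
  have hP : (0 : ℝ) < A.P := by exact_mod_cast P_pos A
  refine ⟨fun f i => mem_filter.2 ⟨mem_range.2 (hit_lt A hG f.1 i), f.2 i⟩, fun i => ?_,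
    fun i => ?_, fun i l hil x y => ?_⟩
  · have hc : ((verts A G (lift A (starts t ev ω)) i).card : ℝ) =
        A.n i * (starts t ev ω i).card := by
      have h := sum_verts A hG _ (lift_lt A (starts t ev ω)) i fun _ => 1
      simp only [sum_const, nsmul_eq_mul, mul_one] at h
      rw [h, lift, card_image_of_injective _ (ZMod.val_injective G)]
    rw [hc]
    have h := abs_le.1 (hω i).1
    rw [ZMod.card] at h
    have hn1 : (A.n i : ℝ) ≤ A.P := by exact_mod_cast Nat.le_of_dvd (P_pos A) (n_dvd_P A i)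
    have hnε : (A.n i : ℝ) * (ε * G) ≤ η' * ρ * G / 2 := by
      have : (A.n i : ℝ) * ε ≤ η' * ρ / 2 := by nlinarith [mul_le_mul_of_nonneg_right hn1 hε.le]
      nlinarith [mul_le_mul_of_nonneg_right this hGR.le]
    have hl := mul_le_mul_of_nonneg_left h.1 (Nat.cast_nonneg (A.n i) : (0 : ℝ) ≤ A.n i)
    have hu := mul_le_mul_of_nonneg_left h.2 (Nat.cast_nonneg (A.n i) : (0 : ℝ) ≤ A.n i)
    have hρG : (A.n i : ℝ) * (p i * G) = ρ * G := by rw [← mul_assoc, hnp]
    have hη'num : η' * ρ * G ≤ η' * (⌈ρ * G⌉₊ : ℝ) := by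
      rw [mul_assoc]; exact mul_le_mul_of_nonneg_left hnum1 hη'.le
    rw [abs_le]
    constructor <;> linarith
  · have hn : (0 : ℝ) < A.n i := by exact_mod_cast n_pos A i
    have hDc : (A.P : ℝ) ^ A.d * ((G : ℝ) ^ A.d / G) * (∏ j, p j) / ρ =
        (A.P : ℝ) ^ A.d / A.n i * ((∏ j ∈ univ.erase i, p j) * ((G : ℝ) ^ A.d / G)) := by
      rw [← mul_prod_erase univ p (mem_univ i), ← hnp i]
      have := hp i
      field_simp
    rw [hDc]
    let F : ℕ → ℝ := fun y => (A.P : ℝ) ^ A.d / A.n i *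
      |((cellEdges A (starts t ev ω) i (y : ZMod G)).card : ℝ) -
        (∏ j ∈ univ.erase i, p j) * ((G : ℝ) ^ A.d / G)|
    refine le_trans (le_of_eq ((sum_congr rfl fun x hx => ?_).trans
      (sum_verts A hG _ (lift_lt A (starts t ev ω)) i F))) ?_
    · simp only [F, ZMod.natCast_mod]
      rw [card_degree A _ hPG i hx, ← mul_sub, abs_mul, abs_of_nonneg (by positivity)]
    calc (A.n i : ℝ) * ∑ y ∈ lift A (starts t ev ω) i, F y
        = (A.P : ℝ) ^ A.d * ∑ y ∈ starts t ev ω i,
          |∑ g ∈ univ.filter (fun g => form (A.k i) G g = y),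
            cen t ev p i (fun j => form (A.k j) G g) ω| := by
          rw [lift, sum_image (ZMod.val_injective G).injOn, mul_sum, mul_sum]
          refine sum_congr rfl fun y hy => ?_
          simp only [F, ZMod.natCast_rightInverse y, sum_cen A t ev p ω i (h1 i) hy, ← mul_assoc]
          rw [mul_div_cancel₀ _ hn.ne']
      _ ≤ (A.P : ℝ) ^ A.d * (ε * (G : ℝ) ^ A.d) := by
          refine mul_le_mul_of_nonneg_left ?_ (by positivity)
          refine le_trans (sum_le_univ_sum_of_nonneg fun y => abs_nonneg _) ?_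
          simpa using (hω i).2
      _ ≤ (A.P : ℝ) ^ A.d * ((η' * ∏ j, p j) * (G : ℝ) ^ A.d) := by gcongr
      _ = η' * ((A.P : ℝ) ^ A.d * ((G : ℝ) ^ A.d / G) * (∏ j, p j) / ρ) * (ρ * G) := by
          field_simp
      _ ≤ η' * ((A.P : ℝ) ^ A.d / A.n i *
            ((∏ j ∈ univ.erase i, p j) * ((G : ℝ) ^ A.d / G))) * ⌈ρ * G⌉₊ := by
          rw [← hDc]; exact mul_le_mul_of_nonneg_left hnum1 (by positivity)
  · refine le_trans (card_codegree A _ hPG i l (h2 i l hil) x y) ?_
    have h' : 1 / (G : ℝ) ≤ η' * (∏ i, p i) / ρ := by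
      rw [div_le_div_iff₀ hGR hρ]; linarith
    calc (A.P : ℝ) ^ A.d * ((G : ℝ) ^ A.d / G ^ 2)
        = (A.P : ℝ) ^ A.d * ((G : ℝ) ^ A.d / G) * (1 / G) := by ring
      _ ≤ (A.P : ℝ) ^ A.d * ((G : ℝ) ^ A.d / G) * (η' * (∏ i, p i) / ρ) :=
          mul_le_mul_of_nonneg_left h' (by positivity)
      _ = _ := by ring

end count

section geometry

variable {G M B : ℕ} [NeZero G] {K : ℕ} (L q : Fin K → ℕ)

/-- The pair of a position. -/
def pairOf (G M : ℕ) (hB : 0 < B) (y : ZMod G) : Fin B :=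
  if h : pairNo G M B y.val < B then ⟨_, h⟩ else ⟨0, hB⟩

/-- The outcomes making a residue a start. -/
def evZ (G M B : ℕ) (i : Fin K) (y : ZMod G) : Finset (Out L q) := evC L q G M B i y.val

lemma card_filter_val (Q : ℕ → Prop) [DecidablePred Q] :
    (univ.filter fun y : ZMod G => Q y.val).card ≤ ((range G).filter Q).card :=
  card_le_card_of_injOn ZMod.val (fun y hy => by simp at hy ⊢; exact ⟨ZMod.val_lt y, hy⟩)
    (ZMod.val_injective G).injOn

lemma card_block (hM : 0 < M) (hBG : G < 2 * (B * M) + 2 * M) (hB : 0 < B) (b : Fin B) :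
    (univ.filter fun y : ZMod G => pairOf G M hB y = b).card ≤ 4 * M := by
  have hsub : (univ.filter fun y : ZMod G => pairOf G M hB y = b) ⊆
      (univ.filter fun y : ZMod G => pairNo G M B y.val = b) ∪
        univ.filter (fun y : ZMod G => ¬ pairNo G M B y.val < B) := by
    intro y hy
    have hy' : pairOf G M hB y = b := (mem_filter.1 hy).2
    simp only [mem_filter, mem_univ, true_and, mem_union]
    by_cases h : pairNo G M B y.val < B
    · rw [pairOf, dif_pos h] at hy'; exact Or.inl (congrArg Fin.val hy')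
    · exact Or.inr h
  refine (card_le_card hsub).trans ((card_union_le _ _).trans ?_)
  have h1 := (card_filter_val fun y => pairNo G M B y = (b : ℕ)).trans (card_pairNo hM _)
  have h2 := (card_filter_val fun y => ¬ pairNo G M B y < B).trans (card_middle hM hBG)
  omega

lemma starts_disjoint (hM : 0 < M) (hB : 0 < B) (hBM : 2 * (B * M) ≤ G)
    (ω : Fin B → Out L q) (i i' : Fin K) (y : ZMod G)
    (hy : y ∈ starts (pairOf G M hB) (evZ L q G M B) ω i) (y' : ZMod G)
    (hy' : y' ∈ starts (pairOf G M hB) (evZ L q G M B) ω i') (σ σ' : Bool)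
    (hne : (σ, i, y.val) ≠ (σ', i', y'.val))
    (x : ℝ) (hx : x ∈ Set.Ioo (0 : ℝ) (L i)) (x' : ℝ) (hx' : x' ∈ Set.Ioo (0 : ℝ) (L i')) (z : ℤ) :
    (if σ then (1 : ℝ) else -1) * ((y.val : ℝ) + x) -
      (if σ' then (1 : ℝ) else -1) * ((y'.val : ℝ) + x') ≠ (z : ℝ) * G := by
  obtain ⟨he1, hpb, hs, hin, ho⟩ := (mem_filter.1 (mem_filter.1 hy).2).2
  obtain ⟨he1', hpb', hs', hin', ho'⟩ := (mem_filter.1 (mem_filter.1 hy').2).2
  have hsp := lend_spec hM hBM (ZMod.val_lt y) hpb
  have hsp' := lend_spec hM hBM (ZMod.val_lt y') hpb'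
  rw [he1] at hin
  rw [he1'] at hin'
  refine disjoint_blocks hBM _ _ hpb hpb' _ _ σ σ' y.val y'.val (L i) (L i') hsp.1
    hin hsp'.1 hin' ?_ x hx x' hx' z
  intro hbb hside
  have htt : pairOf G M hB y = pairOf G M hB y' := by
    simp only [pairOf, dif_pos hpb, dif_pos hpb']
    exact Fin.ext hbb
  rw [htt] at he1 hs ho
  generalize ω (pairOf G M hB y') = o at he1 hs ho he1' hs' ho'
  obtain ⟨i₀, s₀, off, c⟩ := o
  obtain rfl : i₀ = i := he1
  obtain rfl : i₀ = i' := he1'
  simp only at hs hs' ho ho'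
  rw [← hs, ← hs'] at hside
  have hσ : σ = σ' := by
    revert hside; cases s₀ <;> cases σ <;> cases σ' <;> simp
  have hval_ne : y.val ≠ y'.val := fun h => hne (by rw [hσ, h])
  rw [← hs] at ho hsp hin
  rw [← hs'] at ho' hsp' hin'
  rw [hbb] at ho hsp hin
  generalize lend G M s₀ (pairNo G M B y'.val) = a at ho ho' hsp hsp' hin hin'
  have hmod : (y.val - a) % L i₀ = (y'.val - a) % L i₀ := ho.symm.trans ho'
  refine ⟨hσ, ?_⟩
  rcases Nat.lt_or_gt_of_ne hval_ne with h | h
  · left
    have := Nat.le_of_dvd (by omega) ((Nat.modEq_iff_dvd' (by omega)).1 hmod)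
    omega
  · right
    have := Nat.le_of_dvd (by omega) ((Nat.modEq_iff_dvd' (by omega)).1 hmod.symm)
    omega

end geometry

/-- Block lengths for which uniform outcomes give all classes the right density. -/
lemma exists_lengths {η : ℝ} (A : Arith η) {γ : ℝ} (hγ : 0 < γ) :
    ∃ (L : Fin A.K → ℕ) (p : Fin A.K → ℝ) (ρ : ℝ), (∀ i, 0 < L i) ∧ Nonempty (Out L A.q) ∧
      0 < ρ ∧ (∀ i, 0 < p i) ∧ (∀ i, p i ≤ 1) ∧ (∀ i, (A.n i : ℝ) * p i = ρ) ∧
      (∀ i, (A.q i : ℝ) / Fintype.card (Out L A.q) = p i) ∧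
      ∀ i, (1 - γ) * (A.c i ^ 2 * A.n i) ≤ ρ * L i := by
  have hK := A.hK
  have hn0 := n_pos A
  have hP := P_pos A
  have hq0 : ∀ i, 0 < A.q i := fun i => Nat.pos_of_mul_pos_right (by rw [A.hqP]; exact hP)
  have hqn : ∀ i, (A.q i : ℝ) * A.n i = A.P := fun i => by exact_mod_cast A.hqP i
  have hcpos : ∀ i, 0 < A.c i ^ 2 := fun i => by
    rw [A.hc]; exact mul_pos (by exact_mod_cast hq0 i) (A.hv i)
  set κ : ℝ := 4 * A.K / γ with hκ
  have hκ0 : 0 < κ := by positivity
  set L : Fin A.K → ℕ := fun i => ⌈κ * (A.n i * A.c i ^ 2)⌉₊ with hLdef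
  have hL0 : ∀ i, 0 < L i := fun i =>
    Nat.ceil_pos.2 (mul_pos hκ0 (mul_pos (by exact_mod_cast hn0 i) (hcpos i)))
  have hne : Nonempty (Out L A.q) :=
    ⟨⟨⟨0, by omega⟩, true, ⟨0, hL0 _⟩, ⟨0, hq0 _⟩⟩⟩
  set T : ℝ := (Fintype.card (Out L A.q) : ℝ) with hT
  have hT0 : 0 < T := by rw [hT]; exact_mod_cast Fintype.card_pos
  have hTsum : T = ∑ i, 2 * ((L i : ℝ) * A.q i) := by simp [hT]
  refine ⟨L, fun i => A.q i / T, A.P / T, hL0, hne, div_pos (by exact_mod_cast hP) hT0,
    fun i => div_pos (by exact_mod_cast hq0 i) hT0, fun i => ?_,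
    fun i => by rw [← hqn i]; ring, fun i => rfl, fun i => ?_⟩
  · rw [div_le_one hT0, hTsum]
    refine le_trans ?_ (single_le_sum (f := fun i => 2 * ((L i : ℝ) * A.q i))
      (fun j _ => by positivity) (mem_univ i))
    have : (1 : ℝ) ≤ L i := by exact_mod_cast hL0 i
    nlinarith [(Nat.cast_nonneg (A.q i) : (0 : ℝ) ≤ A.q i)]
  have hTle : T ≤ (κ + 2 * A.K) * A.P := by
    rw [hTsum]
    calc ∑ i, 2 * ((L i : ℝ) * A.q i)
        ≤ ∑ i, (2 * A.c i ^ 2 * κ + 2) * A.P := sum_le_sum fun i _ => by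
          have h : (L i : ℝ) ≤ κ * (A.n i * A.c i ^ 2) + 1 :=
            (Nat.ceil_lt_add_one (by positivity)).le
          have hn1 : (1 : ℝ) ≤ A.n i := by exact_mod_cast hn0 i
          have hq1 : (0 : ℝ) ≤ A.q i := Nat.cast_nonneg _
          rw [← hqn i]
          nlinarith [mul_le_mul_of_nonneg_right h hq1]
      _ = (κ * (2 * ∑ i, A.c i ^ 2) + 2 * A.K) * A.P := by
          rw [← sum_mul, sum_add_distrib, ← sum_mul, ← mul_sum, sum_const, card_univ,
            Fintype.card_fin, nsmul_eq_mul]; ring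
      _ ≤ (κ + 2 * A.K) * A.P := by
          gcongr
          exact mul_le_of_le_one_right hκ0.le A.hupp
  have hden : 0 < κ + 2 * A.K := by positivity
  have hρle : 1 / (κ + 2 * A.K) ≤ A.P / T := by
    rw [div_le_div_iff₀ hden hT0]
    linarith
  have hcn : 0 ≤ A.c i ^ 2 * A.n i := by positivity
  have hLi : κ * (A.n i * A.c i ^ 2) ≤ L i := Nat.le_ceil _
  have h1 : (1 - γ) * (κ + 2 * A.K) ≤ κ := by
    have : γ * κ = 4 * A.K := by rw [hκ]; field_simp
    nlinarith [mul_nonneg hγ.le (Nat.cast_nonneg A.K : (0 : ℝ) ≤ A.K)]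
  calc (1 - γ) * (A.c i ^ 2 * A.n i)
      ≤ κ / (κ + 2 * A.K) * (A.c i ^ 2 * A.n i) :=
        mul_le_mul_of_nonneg_right ((le_div_iff₀ hden).2 h1) hcn
    _ = 1 / (κ + 2 * A.K) * (κ * (A.n i * A.c i ^ 2)) := by ring
    _ ≤ A.P / T * L i := mul_le_mul hρle hLi (by positivity) (by positivity)

/-- Large primes make the forms pairwise independent. -/
lemma exists_indep {η : ℝ} (A : Arith η) : ∃ g₀ : ℕ, ∀ G : ℕ, g₀ < G → [Fact G.Prime] →
    (∀ i, Function.Surjective (form (A.k i) G)) ∧
    ∀ i l, i ≠ l → Function.Surjective ((form (A.k i) G).prod (form (A.k l) G)) := by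
  have hK := A.hK
  refine ⟨∑ i : Fin A.K, ∑ j : Fin A.K, ∑ l, ∑ m,
    (A.k i l * A.k j m - A.k i m * A.k j l).natAbs, fun G hG _ => ?_⟩
  have h2 : ∀ i j, i ≠ j → Function.Surjective ((form (A.k i) G).prod (form (A.k j) G)) := by
    intro i j hij
    obtain ⟨l, m, -, hne⟩ := exists_minor A hij
    refine surj_pair _ _ l m ?_
    rw [Ne, ZMod.intCast_zmod_eq_zero_iff_dvd]
    intro hdvd
    have hle : (A.k i l * A.k j m - A.k i m * A.k j l).natAbs < G := by
      refine lt_of_le_of_lt ?_ hG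
      refine le_trans ?_ (single_le_sum (fun _ _ => Nat.zero_le _) (mem_univ i))
      refine le_trans ?_ (single_le_sum (fun _ _ => Nat.zero_le _) (mem_univ j))
      refine le_trans ?_ (single_le_sum (fun _ _ => Nat.zero_le _) (mem_univ l))
      exact single_le_sum (f := fun m => (A.k i l * A.k j m - A.k i m * A.k j l).natAbs)
        (fun _ _ => Nat.zero_le _) (mem_univ m)
    have h := Nat.le_of_dvd (Int.natAbs_pos.2 hne) (Int.natCast_dvd.1 hdvd)
    omega
  refine ⟨fun i a => ?_, h2⟩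
  obtain ⟨j, hj⟩ : ∃ j, i ≠ j := by
    by_cases h : i = ⟨0, by omega⟩
    · exact ⟨⟨1, by omega⟩, by simp [h, Fin.ext_iff]⟩
    · exact ⟨_, h⟩
  obtain ⟨g, hg⟩ := h2 i j hj (a, 0)
  exact ⟨g, congrArg Prod.fst hg⟩

end Zone

open Zone in
theorem exists_zones {η : ℝ} (A : Arith η) (γ η' D₀ : ℝ) (hγ : 0 < γ) (hη' : 0 < η') :
    Nonempty (Zones A γ η' D₀) := by
  classical
  have hK := A.hK
  obtain ⟨L, p, ρ, hL0, hne, hρ, hp0, hp1, hnp, hpT, hρL⟩ := exists_lengths A hγ
  obtain ⟨g₀, hindep⟩ := exists_indep A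
  have hP : (0 : ℝ) < A.P := by exact_mod_cast P_pos A
  set pr : ℝ := ∏ i, p i with hpr
  have hpr0 : 0 < pr := prod_pos fun i _ => hp0 i
  set ε : ℝ := min (η' * ρ / (2 * A.P)) (η' * pr) with hεdef
  have hε : 0 < ε := lt_min (by positivity) (by positivity)
  have hεP : ε * (2 * A.P) ≤ η' * ρ :=
    (le_div_iff₀ (by positivity)).1 (min_le_left _ _)
  set δ : ℝ := ε ^ 2 / ((A.K : ℝ) * (5 * (A.K : ℝ) ^ 2 + 3)) with hδdef
  have hδ0 : 0 < δ := by positivity
  have hδ : (A.K : ℝ) * (5 * (A.K : ℝ) ^ 2 + 3) * δ ≤ ε ^ 2 :=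
    le_of_eq (mul_div_cancel₀ _ (by positivity))
  obtain ⟨M, hM, hMΛ, hMδ⟩ : ∃ M : ℕ, 0 < M ∧ (∀ i, L i ≤ M) ∧ ∀ i, 2 * (L i : ℝ) ≤ δ * M := by
    obtain ⟨m, hm⟩ := exists_nat_ge (2 * ((∑ i, L i : ℕ) : ℝ) / δ)
    have hle : ∀ i, L i ≤ ∑ j, L j := fun i => single_le_sum (fun j _ => Nat.zero_le _) (mem_univ i)
    refine ⟨m + (∑ i, L i) + 1, by omega, fun i => by have := hle i; omega, fun i => ?_⟩
    rw [div_le_iff₀ hδ0] at hm
    have h1 : (L i : ℝ) ≤ ((∑ i, L i : ℕ) : ℝ) := Nat.cast_le.2 (hle i)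
    have h2 : (m : ℝ) ≤ ((m + (∑ i, L i) + 1 : ℕ) : ℝ) := Nat.cast_le.2 (by omega)
    nlinarith
  obtain ⟨G, hGbig, hGp⟩ := Nat.exists_infinite_primes
    (2 * M + A.P + g₀ + ⌈8 * M / δ⌉₊ + ⌈2 / (η' * ρ)⌉₊ + ⌈ρ / (η' * pr)⌉₊ + ⌈D₀ * ρ / pr⌉₊ + 1)
  have : NeZero G := ⟨hGp.pos.ne'⟩
  have : Fact G.Prime := ⟨hGp⟩
  have hPG : Nat.Coprime A.P G :=
    Nat.coprime_comm.1 (hGp.coprime_iff_not_dvd.2 (Nat.not_dvd_of_pos_of_lt (P_pos A) (by omega)))
  have hGR : (0 : ℝ) < G := by exact_mod_cast hGp.pos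
  have ge : ∀ x : ℝ, ⌈x⌉₊ ≤ G → x ≤ G := fun x h => le_trans (Nat.le_ceil x) (Nat.cast_le.2 h)
  obtain ⟨B, hB, hBM, hBG⟩ : ∃ B, 0 < B ∧ 2 * (B * M) ≤ G ∧ G < 2 * (B * M) + 2 * M := by
    refine ⟨G / (2 * M), Nat.div_pos (by omega) (by omega), ?_, ?_⟩
    · have := Nat.div_mul_le_self G (2 * M)
      linarith
    · have h := Nat.lt_div_mul_add (a := G) (b := 2 * M) (by omega)
      linarith
  obtain ⟨h1, h2⟩ := hindep G (by omega)
  have hGδ : 8 * (M : ℝ) ≤ δ * G := by
    have := ge (8 * M / δ) (by omega)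
    rw [div_le_iff₀ hδ0] at this
    linarith
  have hM0 : (0 : ℝ) < M := by exact_mod_cast hM
  obtain ⟨ω, hω⟩ := exists_sample (fun i => form (A.k i) G) h1 h2 hB (pairOf G M hB)
    (evZ L A.q G M B) (fun i => univ.filter fun y => badC L G M B i y.val) p
    (fun j => (hp0 j).le) hp1
    (fun j y hy => by
      simp only [evZ, mem_filter, mem_univ, true_and] at hy ⊢
      rw [card_evC L A.q j (hL0 j) hy, hpT])
    δ
    (fun j => by
      rw [ZMod.card]
      have hc : ((univ.filter fun y : ZMod G => badC L G M B j y.val).card : ℝ) ≤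
          2 * B * L j + 2 * M := by
        exact_mod_cast (card_filter_val _).trans (card_badC L hM hBM hBG j)
      have hBMR : 2 * ((B : ℝ) * M) ≤ G := by exact_mod_cast hBM
      have : 2 * (B : ℝ) * L j * M ≤ δ * G / 2 * M := by
        calc 2 * (B : ℝ) * L j * M = (2 * ((B : ℝ) * M)) * L j := by ring
          _ ≤ G * (δ * M / 2) :=
            mul_le_mul hBMR (by linarith [hMδ j]) (Nat.cast_nonneg _) hGR.le
          _ = _ := by ring
      have := le_of_mul_le_mul_right this hM0
      linarith)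
    (fun b => by
      rw [ZMod.card]
      have : ((univ.filter fun y : ZMod G => pairOf G M hB y = b).card : ℝ) ≤ 4 * M := by
        exact_mod_cast card_block hM hBG hB b
      linarith)
    ε hε hδ
  have hP1 : 1 ≤ (A.P : ℝ) ^ A.d := one_le_pow₀ (by exact_mod_cast P_pos A)
  have hGd : (G : ℝ) ≤ (G : ℝ) ^ A.d / G := by
    rw [le_div_iff₀ hGR, ← sq]
    exact pow_le_pow_right₀ (by exact_mod_cast hGp.one_le) (two_le_d A)
  refine ⟨{
    G := G
    hG := hGp.pos
    hPG := hPG
    L := L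
    S := lift A (starts (pairOf G M hB) (evZ L A.q G M B) ω)
    hS := lift_lt A _
    hL := fun i => by have := hMΛ i; omega
    hdisj := ?_
    num := ⌈ρ * G⌉₊
    hnum := Nat.ceil_pos.2 (by positivity)
    hlen := fun i => ?_
    D := (A.P : ℝ) ^ A.d * ((G : ℝ) ^ A.d / G) * pr / ρ
    hD := ?_
    hreg := nearlyRegular_of_sample A hPG _ _ p ω h1 h2 ρ ε η' hρ hη' hε hp0 hnp hεP
      (min_le_right _ _) ?_ ?_ hω }⟩
  · intro i i' y hy y' hy' σ σ' hne' x hx x' hx'
    obtain ⟨yz, hyz, rfl⟩ := mem_image.1 hy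
    obtain ⟨yz', hyz', rfl⟩ := mem_image.1 hy'
    exact starts_disjoint L A.q hM hB hBM ω i i' yz hyz yz' hyz' σ σ' hne' x hx x' hx'
  · calc (1 - γ) * (A.c i ^ 2 * (A.n i : ℝ) * G) = (1 - γ) * (A.c i ^ 2 * A.n i) * G := by ring
      _ ≤ ρ * L i * G := mul_le_mul_of_nonneg_right (hρL i) hGR.le
      _ = ρ * G * L i := by ring
      _ ≤ _ := mul_le_mul_of_nonneg_right (Nat.le_ceil _) (Nat.cast_nonneg _)
  · have h : D₀ * ρ / pr ≤ G := ge _ (by omega)
    rw [div_le_iff₀ hpr0] at h
    rw [le_div_iff₀ hρ]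
    refine le_trans h (mul_le_mul_of_nonneg_right ?_ hpr0.le)
    calc (G : ℝ) = 1 * G := (one_mul _).symm
      _ ≤ _ := mul_le_mul hP1 hGd hGR.le (by positivity)
  · have := ge (2 / (η' * ρ)) (by omega)
    rw [div_le_iff₀ (by positivity)] at this
    linarith
  · have := ge (ρ / (η' * pr)) (by omega)
    rw [div_le_iff₀ (by positivity)] at this
    linarith

end Vale.Agent.P110.Flat
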