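import Vale.Agent.P110.Flat.Arith
import Vale.Agent.P110.Flat.Zones
import Vale.Agent.P110.Flat.Nibble

/-!
The packing of the swept intervals: a matching in the hypergraph of shifts hitting the zones gives
the shifts `β e = j e / (P G)` of a layout.  In units `1 / (P G)` line `b` of class `i` starts at
`b n i G + k i · j`, and its position in the cell is the start `(k i · j) % G`.
-/

namespace Vale.Agent.P110.Flat

open Finset
open scoped BigOperators

private lemma hit_eq {η : ℝ} (A : Arith η) {G : ℕ} (hG : 0 < G) (j : Fin A.d → Fin (A.P * G))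
    (i : Fin A.K) :
    (hit A G j i : ℤ) = (∑ l, A.k i l * ((j l : ℕ) : ℤ)) % ((A.n i * G : ℕ) : ℤ) := by
  refine Int.toNat_of_nonneg (Int.emod_nonneg _ ?_)
  exact_mod_cast (Nat.mul_pos (lt_trans one_pos (A.hn i).2) hG).ne'

theorem exists_layout (η : ℝ) (hη : 0 < η) : Nonempty (Layout η) := by
  classical
  obtain ⟨A⟩ := exists_arith (η / 4) (by positivity)
  set γ := min (η / 8) (1 / 2) with hγdef
  have hγ : 0 < γ := lt_min (by positivity) (by norm_num)
  have hγ2 : γ ≤ 1 / 2 := min_le_right _ _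
  obtain ⟨η', hη', D₀, hmatch⟩ := exists_matching A.K (by have := A.hK; omega) γ hγ
  obtain ⟨Z⟩ := exists_zones A γ η' D₀ hγ hη'
  obtain ⟨M, hM, hcard⟩ := hmatch _ _ Z.num Z.D Z.hnum Z.hD Z.hreg
  have hnum : (0 : ℝ) < Z.num := by exact_mod_cast Z.hnum
  have hE : 0 < M.card := by
    have : (0 : ℝ) < M.card := lt_of_lt_of_le (by nlinarith) hcard
    exact_mod_cast this
  have hER : (0 : ℝ) < M.card := by exact_mod_cast hE
  let jj : Fin M.card → Fin A.d → Fin (A.P * Z.G) := fun e => ((M.equivFin.symm e).1).1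
  have hjS : ∀ e i, hit A Z.G (jj e) i % Z.G ∈ Z.S i := fun e => ((M.equivFin.symm e).1).2
  have hinj : ∀ e e' i, hit A Z.G (jj e) i = hit A Z.G (jj e') i → e = e' := by
    intro e e' i h
    by_contra hne
    refine hM _ (M.equivFin.symm e).2 _ (M.equivFin.symm e').2 ?_ i h
    exact fun h2 => hne (M.equivFin.symm.injective (Subtype.ext h2))
  have hn0 : ∀ i, 0 < A.n i := fun i => lt_trans one_pos (A.hn i).2
  have hP : 0 < A.P := A.hP ▸ prod_pos fun i _ => hn0 i
  have hG := Z.hG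
  have hPG : (0 : ℝ) < (A.P : ℝ) * Z.G := by positivity
  set ρ := (1 - γ) ^ 2 with hρdef
  have hρ0 : 0 < ρ := pow_pos (by linarith) 2
  have hρ1 : ρ ≤ 1 := by rw [hρdef]; nlinarith
  have hsρ : 0 ≤ Real.sqrt ρ ∧ Real.sqrt ρ ≤ 1 := ⟨Real.sqrt_nonneg _, Real.sqrt_le_one.2 hρ1⟩
  let J : Fin A.K → Fin M.card → ℤ := fun i e => ∑ l, A.k i l * ((jj e l : ℕ) : ℤ)
  let β : Fin M.card → Fin A.d → ℝ := fun e l => ((jj e l : ℕ) : ℝ) / ((A.P : ℝ) * Z.G)
  let v : Fin A.d → ℝ := fun l => ρ * A.v l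
  have hkv : ∀ i, dot (A.k i) v = ρ * dot (A.k i) A.v := fun i => by
    simp only [dot, v, mul_sum]
    exact sum_congr rfl fun l _ => by ring
  have hβ : ∀ i e, dot (A.k i) (β e) * ((A.P : ℝ) * Z.G) = (J i e : ℝ) := fun i e => by
    simp only [dot, β, J]
    push_cast
    rw [sum_mul]
    exact sum_congr rfl fun l _ => by field_simp
  -- a swept interval, in units, has length at most `L i`
  have hlen : ∀ i, dot (A.k i) v / M.card * ((A.P : ℝ) * Z.G) ≤ Z.L i := by
    intro i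
    have h1 := Z.hlen i
    have hqn : (A.q i : ℝ) * A.n i = A.P := by exact_mod_cast A.hqP i
    have e : dot (A.k i) v * ((A.P : ℝ) * Z.G) =
        ρ * (A.c i ^ 2 * (A.n i : ℝ) * Z.G) := by
      rw [hkv, A.hc i, ← hqn]; ring
    have hγ1 : 0 ≤ 1 - γ := by linarith
    rw [div_mul_eq_mul_div, div_le_iff₀ hER, e, hρdef, sq, mul_assoc]
    calc (1 - γ) * ((1 - γ) * (A.c i ^ 2 * (A.n i : ℝ) * Z.G))
        ≤ (1 - γ) * (Z.num * Z.L i) := mul_le_mul_of_nonneg_left h1 hγ1
      _ = Z.L i * ((1 - γ) * Z.num) := by ring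
      _ ≤ _ := mul_le_mul_of_nonneg_left hcard (Nat.cast_nonneg _)
  -- the cell position of a line
  have hcell : ∀ i e, ((hit A Z.G (jj e) i % Z.G : ℕ) : ℤ) = J i e % (Z.G : ℤ) := fun i e => by
    rw [Int.natCast_mod, hit_eq A hG, Int.emod_emod_of_dvd]
    exact ⟨A.n i, by push_cast; ring⟩
  refine ⟨{
    d := A.d
    K := A.K
    E := M.card
    hE := hE
    k := A.k
    c := fun i => Real.sqrt ρ * A.c i
    r := A.r
    q := A.q
    v := v
    β := β
    hq := fun i => by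
      have h : Odd (A.q i * A.n i) := by
        rw [A.hqP i, A.hP]
        exact Finset.prod_induction A.n Odd (fun a b => Odd.mul) odd_one (fun j _ => (A.hn j).1)
      exact (Nat.odd_mul.1 h).1
    hden := A.hden
    hv := fun i => by rw [hkv]; exact mul_pos hρ0 (A.hv i)
    hc := fun i => by rw [mul_pow, Real.sq_sqrt hρ0.le, A.hc i, hkv]; ring
    hlow := by
      have h := A.hlow
      have hγ8 : γ ≤ η / 8 := min_le_left _ _
      have hS : 0 ≤ ∑ i, A.c i ^ 2 := sum_nonneg fun i _ => sq_nonneg _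
      simp only [mul_pow, Real.sq_sqrt hρ0.le, ← mul_sum]
      rw [hρdef]
      rcases le_or_gt 1 η with h1 | h1
      · nlinarith [pow_nonneg (sub_nonneg.2 (by linarith : γ ≤ 1)) 2]
      · nlinarith
    hsup := fun φ => by
      have h := A.hsup φ
      rw [show ∑ i, Real.sqrt ρ * A.c i * Real.cos (2 * Real.pi * dot (A.k i) φ) =
          Real.sqrt ρ * ∑ i, A.c i * Real.cos (2 * Real.pi * dot (A.k i) φ) by
        rw [mul_sum]; exact sum_congr rfl fun i _ => by ring]
      rw [mul_left_comm, abs_mul, abs_of_nonneg hsρ.1]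
      exact le_trans (mul_le_of_le_one_left (abs_nonneg _) hsρ.2) (by linarith)
    hdisj := ?_ }⟩
  intro i i' e e' b b' σ σ' hb hb' hne x hx x' hx' z hz
  set U := (A.P : ℝ) * Z.G with hU
  -- in units
  have hX : ∀ (i : Fin A.K) (x : ℝ), x ∈ Set.Ioo (0 : ℝ) (dot (A.k i) v / M.card) →
      x * U ∈ Set.Ioo (0 : ℝ) (Z.L i) := fun i x hx =>
    ⟨mul_pos hx.1 hPG, lt_of_lt_of_le (mul_lt_mul_of_pos_right hx.2 hPG) (hlen i)⟩
  have hpos : ∀ (i : Fin A.K) (e : Fin M.card) (b : ℕ) (x : ℝ),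
      ((b : ℝ) / A.q i + dot (A.k i) (β e) + x) * U =
        ((b * (A.n i * Z.G : ℤ) + J i e : ℤ) : ℝ) + x * U := fun i e b x => by
    rw [add_mul, add_mul, hβ]
    push_cast
    have hq : (A.q i : ℝ) ≠ 0 := by
      have : A.q i * A.n i ≠ 0 := by rw [A.hqP i]; omega
      exact_mod_cast left_ne_zero_of_mul this
    have hqn : (A.q i : ℝ) * A.n i = A.P := by exact_mod_cast A.hqP i
    rw [hU, ← hqn]
    field_simp
  have hmain : (if σ then (1 : ℝ) else -1) * (((b * (A.n i * Z.G : ℤ) + J i e : ℤ) : ℝ) + x * U) -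
      (if σ' then (1 : ℝ) else -1) * (((b' * (A.n i' * Z.G : ℤ) + J i' e' : ℤ) : ℝ) + x' * U) =
      (z : ℝ) * U := by
    rw [← hpos, ← hpos, ← hz]; ring
  -- reduce modulo the cell
  set W := (b * (A.n i * Z.G : ℤ) + J i e) / (Z.G : ℤ) with hW
  set W' := (b' * (A.n i' * Z.G : ℤ) + J i' e') / (Z.G : ℤ) with hW'
  set y := hit A Z.G (jj e) i % Z.G with hy
  set y' := hit A Z.G (jj e') i' % Z.G with hy'
  have hdec : ∀ (i : Fin A.K) (e : Fin M.card) (b : ℕ),
      (b * (A.n i * Z.G : ℤ) + J i e) = ((hit A Z.G (jj e) i % Z.G : ℕ) : ℤ) +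
        (Z.G : ℤ) * ((b * (A.n i * Z.G : ℤ) + J i e) / (Z.G : ℤ)) := fun i e b => by
    rw [hcell]
    have := Int.emod_add_mul_ediv (b * (A.n i * Z.G : ℤ) + J i e) (Z.G : ℤ)
    rw [show (b * (A.n i * Z.G : ℤ) + J i e) % (Z.G : ℤ) = J i e % (Z.G : ℤ) by
      rw [← mul_assoc, add_comm, Int.add_mul_emod_self_right]] at this
    exact this.symm
  rw [hdec i e b, hdec i' e' b', ← hW, ← hW', ← hy, ← hy'] at hmain
  by_cases hsame : (σ, i, y) = (σ', i', y')
  swap
  · refine Z.hdisj i i' y (hjS e i) y' (hjS e' i') σ σ' hsame (x * U) (hX i x hx) (x' * U)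
      (hX i' x' hx') (z * A.P - (if σ then 1 else -1) * W + (if σ' then 1 else -1) * W') ?_
    push_cast at hmain ⊢
    rw [hU] at hmain ⊢
    cases σ <;> cases σ' <;> simp only [Bool.false_eq_true, if_false, if_true] at hmain ⊢ <;>
      linarith
  simp only [Prod.mk.injEq] at hsame
  obtain ⟨rfl, rfl, hyy⟩ := hsame
  rw [← hyy] at hmain
  obtain ⟨t, ht⟩ : ∃ t : ℤ, x * U - x' * U = (Z.G : ℝ) * (t : ℝ) ∧
      W - W' + t = (if σ then z else -z) * A.P := by
    refine ⟨(if σ then z else -z) * A.P - (W - W'), ?_, by ring⟩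
    push_cast at hmain ⊢
    rw [hU] at hmain ⊢
    cases σ <;> simp only [Bool.false_eq_true, if_false, if_true] at hmain ⊢ <;>
      linarith
  have ht0 : t = 0 := by
    have h1 := hX i x hx
    have h2 := hX i x' hx'
    have hL : (Z.L i : ℝ) ≤ Z.G := by exact_mod_cast Z.hL i
    have hGR : (0 : ℝ) < Z.G := by exact_mod_cast hG
    have a1 : (Z.G : ℝ) * t < Z.G * 1 := by rw [← ht.1]; linarith [h1.2, h2.1]
    have a2 : (Z.G : ℝ) * (-1) < Z.G * t := by rw [← ht.1]; linarith [h1.1, h2.2]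
    have b1 : (t : ℝ) < 1 := lt_of_mul_lt_mul_left a1 hGR.le
    have b2 : (-1 : ℝ) < t := lt_of_mul_lt_mul_left a2 hGR.le
    have c1 : t < 1 := by exact_mod_cast b1
    have c2 : -1 < t := by exact_mod_cast b2
    omega
  have hdiff : (b * (A.n i * Z.G : ℤ) + J i e) - (b' * (A.n i * Z.G : ℤ) + J i e') =
      (if σ then z else -z) * ((A.n i * Z.G : ℕ) : ℤ) * A.q i := by
    rw [hdec i e b, hdec i e' b', ← hW, ← hW', ← hy, ← hy', ← hyy]
    have hqn : ((A.q i : ℤ)) * A.n i = A.P := by exact_mod_cast A.hqP i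
    have h := ht.2
    rw [ht0, add_zero, ← hqn] at h
    push_cast
    linear_combination (Z.G : ℤ) * h
  have hee : e = e' := by
    refine hinj e e' i (Int.natCast_inj.1 ?_)
    rw [hit_eq A hG, hit_eq A hG, Int.emod_eq_emod_iff_emod_sub_eq_zero]
    apply Int.emod_eq_zero_of_dvd
    refine ⟨(if σ then z else -z) * A.q i - (b - b'), ?_⟩
    push_cast at hdiff ⊢
    linear_combination hdiff
  subst hee
  have hnG : ((A.n i * Z.G : ℕ) : ℤ) ≠ 0 := by exact_mod_cast (Nat.mul_pos (hn0 i) hG).ne'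
  have hbb : (b : ℤ) - b' = (if σ then z else -z) * A.q i := by
    push_cast at hdiff hnG
    apply mul_left_cancel₀ hnG
    linear_combination hdiff
  have hbq : b = b' := by
    have h1 : ((b : ℤ) - b').natAbs < ((A.q i : ℤ)).natAbs := by omega
    have := Int.eq_zero_of_dvd_of_natAbs_lt_natAbs ⟨_, hbb.trans (mul_comm _ _)⟩ h1
    omega
  exact hne (by rw [hbq])

end Vale.Agent.P110.Flat
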