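import Vale.Agent.P110.Flat.Round
import Vale.Agent.P110.Flat.Packing
import Vale.Agent.P110.Flat.Analysis

/-! Real ultraflat Littlewood polynomials exist. -/

namespace Vale.Agent.P110.Flat

open Finset

theorem ee_zero : ee 0 = 1 := by simp [ee]

theorem ee_nat_mul (n : ℕ) (a : ℝ) : ee (n * a) = ee a ^ n := by
  rw [ee, ee, ← Complex.exp_nat_mul]; push_cast; ring_nf

theorem ee_int (z : ℤ) : ee z = 1 := by
  rw [ee, Complex.exp_eq_one_iff]
  exact ⟨z, by push_cast; ring⟩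

theorem conj_ee (a : ℝ) : starRingEnd ℂ (ee a) = ee (-a) := by
  rw [ee, ee, ← Complex.exp_conj]
  congr 1
  simp [map_ofNat]

theorem sum_roots {N n m : ℕ} (hn : n < N) (hm : m < N) :
    ∑ j ∈ range N, ee ((((n : ℤ) - m : ℤ) : ℝ) / N * j) = if n = m then (N : ℂ) else 0 := by
  split_ifs with h
  · subst h; simp [ee_zero]
  · simp only [mul_comm _ ((_ : ℕ) : ℝ), ee_nat_mul]
    have hN : (0 : ℝ) < N := by exact_mod_cast (Nat.zero_lt_of_lt hn)
    set w := ee ((((n : ℤ) - m : ℤ) : ℝ) / N)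
    have hw : w ≠ 1 := by
      intro he
      rw [show w = ee _ from rfl, ee, Complex.exp_eq_one_iff] at he
      obtain ⟨k, hk⟩ := he
      have : (((n : ℤ) - m : ℤ) : ℝ) / N = k := by
        have hk' := congrArg Complex.im hk
        simp at hk'
        field_simp at hk' ⊢
        push_cast at hk' ⊢
        nlinarith [Real.pi_pos]
      rw [div_eq_iff hN.ne'] at this
      have h' : (n : ℤ) - m = k * N := by exact_mod_cast this
      rcases lt_trichotomy k 0 with hk0 | hk0 | hk0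
      · nlinarith
      · subst hk0; omega
      · nlinarith
    have hwN : w ^ N = 1 := by
      rw [← ee_nat_mul, mul_div_cancel₀ _ hN.ne', ee_int]
    rw [geom_sum_eq hw, hwN, sub_self, zero_div]

/-- Parseval's identity on the grid `j / N`. -/
theorem parseval_grid (N : ℕ) (y : ℕ → ℝ) :
    ∑ j ∈ range N, ‖trig N y (j / N)‖ ^ 2 = N * ∑ n ∈ range N, y n ^ 2 := by
  have key : ∀ j : ℕ, ((‖trig N y (j / N)‖ ^ 2 : ℝ) : ℂ) = ∑ n ∈ range N, ∑ m ∈ range N,
      (y n : ℂ) * y m * ee ((((n : ℤ) - m : ℤ) : ℝ) / N * j) := fun j => by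
    rw [Complex.ofReal_pow, ← Complex.mul_conj', trig, map_sum, sum_mul_sum]
    refine sum_congr rfl fun n _ => sum_congr rfl fun m _ => ?_
    rw [map_mul, Complex.conj_ofReal, conj_ee, show ((((n : ℤ) - m : ℤ) : ℝ) / N * j) =
      (n : ℝ) * ((j : ℝ) / N) + -((m : ℝ) * ((j : ℝ) / N)) by push_cast; ring, ee_add]
    ring
  apply Complex.ofReal_injective
  rw [Complex.ofReal_sum, sum_congr rfl fun j _ => key j, sum_comm, Complex.ofReal_mul,
    Complex.ofReal_sum, mul_sum]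
  refine sum_congr rfl fun n hn => ?_
  rw [sum_comm]
  simp only [← mul_sum]
  rw [sum_congr rfl fun m hm => by rw [sum_roots (mem_range.1 hn) (mem_range.1 hm)],
    sum_congr rfl fun m _ => mul_ite .., sum_congr rfl fun m _ => by rw [mul_zero], sum_ite_eq]
  simp [hn]; ring

theorem exists_angle {z : ℂ} (hz : ‖z‖ = 1) : ∃ θ : ℝ, ee θ = z := by
  refine ⟨z.arg / (2 * Real.pi), ?_⟩
  conv_rhs => rw [← Complex.norm_mul_exp_arg_mul_I z, hz]
  rw [ee, Complex.ofReal_one, one_mul]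
  congr 1
  push_cast
  field_simp

theorem ultraflat (c : ℝ) (hc : 0 < c) : ∃ N₀ : ℕ, ∀ N, N₀ ≤ N →
    ∃ ε : Fin N → ℝ, (∀ n, ε n = 1 ∨ ε n = -1) ∧ ∀ z : ℂ, ‖z‖ = 1 →
      (1 - c) * Real.sqrt N ≤ ‖∑ n, (ε n : ℂ) * z ^ (n : ℕ)‖ ∧
        ‖∑ n, (ε n : ℂ) * z ^ (n : ℕ)‖ ≤ (1 + c) * Real.sqrt N := by
  obtain ⟨η, hη, N₁, hround⟩ := round_signs (c / 2) (by positivity)
  obtain ⟨c₁, hc₁, hc₁η, hc₁c, hc₁1⟩ : ∃ c₁ : ℝ, 0 < c₁ ∧ 4 * c₁ ≤ η ∧ 4 * c₁ ≤ c ∧ 4 * c₁ ≤ 1 :=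
    ⟨min (min η c) 1 / 4, by positivity, by linarith [min_le_left (min η c) 1, min_le_left η c],
      by linarith [min_le_left (min η c) 1, min_le_right η c], by linarith [min_le_right (min η c) 1]⟩
  obtain ⟨η', hη', hana⟩ := flatReal_of_layout c₁ hc₁
  obtain ⟨Λ⟩ := exists_layout η' hη'
  obtain ⟨N₀, hflat⟩ := hana Λ
  refine ⟨max N₀ N₁, fun N hN => ?_⟩
  obtain ⟨y, hy, hY⟩ := hflat N (le_trans (le_max_left _ _) hN)
  set y' : ℕ → ℝ := fun n => y n / (1 + c₁)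
  have h1 : (0 : ℝ) < 1 + c₁ := by linarith
  have hy' : ∀ n, n < N → |y' n| ≤ 1 := fun n hn => by
    rw [abs_div, abs_of_pos h1, div_le_one h1]; exact hy n hn
  have htrig : ∀ θ, trig N y' θ = ((1 + c₁ : ℝ) : ℂ)⁻¹ * trig N y θ := fun θ => by
    simp only [trig, y', mul_sum]
    refine sum_congr rfl fun n _ => ?_
    push_cast; ring
  have hn' : ∀ θ, (1 - 2 * c₁) * Real.sqrt N ≤ ‖trig N y' θ‖ ∧ ‖trig N y' θ‖ ≤ Real.sqrt N := fun θ => by
    have h := abs_sub_le_iff.1 (hY θ)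
    have hs := Real.sqrt_nonneg (N : ℝ)
    rw [htrig, norm_mul, norm_inv, Complex.norm_real, Real.norm_eq_abs, abs_of_pos h1,
      inv_mul_eq_div, le_div_iff₀ h1, div_le_iff₀ h1]
    constructor <;> nlinarith [mul_nonneg (sq_nonneg c₁) hs]
  have hsum : ∑ n ∈ range N, (1 - |y' n|) ≤ η * N := by
    have hP := parseval_grid N y'
    have hlow : ∑ _j ∈ range N, ((1 - 2 * c₁) * Real.sqrt N) ^ 2 ≤
        ∑ j ∈ range N, ‖trig N y' (j / N)‖ ^ 2 :=
      sum_le_sum fun j _ => pow_le_pow_left₀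
        (mul_nonneg (by linarith) (Real.sqrt_nonneg _)) (hn' _).1 2
    rw [sum_const, card_range, nsmul_eq_mul, hP, mul_pow, Real.sq_sqrt (Nat.cast_nonneg N)] at hlow
    have hle : ∑ n ∈ range N, (1 - |y' n|) ≤ ∑ n ∈ range N, (1 - y' n ^ 2) :=
      sum_le_sum fun n hn => by
        have := hy' n (mem_range.1 hn)
        nlinarith [abs_nonneg (y' n), sq_abs (y' n)]
    rw [sum_sub_distrib, sum_sub_distrib] at hle
    rw [sum_sub_distrib]
    simp only [sum_const, card_range, nsmul_eq_mul, mul_one] at hle ⊢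
    rcases Nat.eq_zero_or_pos N with h0 | h0
    · subst h0; simp
    have hN' : (0 : ℝ) < N := by exact_mod_cast h0
    have := le_of_mul_le_mul_left hlow hN'
    nlinarith [mul_le_mul_of_nonneg_right hc₁η hN'.le, mul_nonneg (sq_nonneg c₁) hN'.le]
  obtain ⟨ε, hε, hround'⟩ := hround N (le_trans (le_max_right _ _) hN) y' hy' hsum
  refine ⟨fun n => ε n, fun n => hε n, fun z hz => ?_⟩
  obtain ⟨θ, rfl⟩ := exists_angle hz
  have e : ∑ n : Fin N, (ε n : ℂ) * ee θ ^ (n : ℕ) = trig N ε θ := by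
    rw [trig, ← Fin.sum_univ_eq_sum_range (fun n => (ε n : ℂ) * ee (n * θ))]
    exact sum_congr rfl fun n _ => by rw [ee_nat_mul]
  rw [e]
  have h := hround' θ
  have h' := hn' θ
  have hs := Real.sqrt_nonneg (N : ℝ)
  have ha := norm_sub_norm_le (trig N ε θ) (trig N y' θ)
  have hb := norm_sub_norm_le (trig N y' θ) (trig N ε θ)
  rw [norm_sub_rev] at hb
  constructor <;> nlinarith

end Vale.Agent.P110.Flat
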