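import Mathlib

/-! Finite product Bernoulli expectations for the semi-random method. -/

namespace Vale.Agent.P110.Flat.Nib

open Finset

variable {ι β : Type} [DecidableEq ι]

/-- Expectation of `f` of a random subset of `E`, each element kept with probability `p`. -/
def Ex (E : Finset ι) (p : ℝ) (f : Finset ι → ℝ) : ℝ :=
  ∑ S ∈ E.powerset, p ^ S.card * (1 - p) ^ (E \ S).card * f S

/-- Indicator that the random set avoids `A`. -/
def ind (A S : Finset ι) : ℝ := if Disjoint A S then 1 else 0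

theorem Ex_prod (E : Finset ι) (p : ℝ) (a b : ι → ℝ) :
    Ex E p (fun S => (∏ e ∈ S, a e) * ∏ e ∈ E \ S, b e) = ∏ e ∈ E, (p * a e + (1 - p) * b e) := by
  rw [Finset.prod_add]
  refine Finset.sum_congr rfl fun S _ => ?_
  rw [Finset.prod_mul_distrib, Finset.prod_mul_distrib, Finset.prod_const, Finset.prod_const]
  ring

theorem Ex_add (E : Finset ι) (p : ℝ) (f g : Finset ι → ℝ) :
    Ex E p (fun S => f S + g S) = Ex E p f + Ex E p g := by
  simp [Ex, mul_add, Finset.sum_add_distrib]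

theorem Ex_sub (E : Finset ι) (p : ℝ) (f g : Finset ι → ℝ) :
    Ex E p (fun S => f S - g S) = Ex E p f - Ex E p g := by
  simp [Ex, mul_sub, Finset.sum_sub_distrib]

theorem Ex_const_mul (E : Finset ι) (p c : ℝ) (f : Finset ι → ℝ) :
    Ex E p (fun S => c * f S) = c * Ex E p f := by
  simp only [Ex, Finset.mul_sum]
  refine Finset.sum_congr rfl fun S _ => ?_
  ring

theorem Ex_sum (E : Finset ι) (p : ℝ) (s : Finset β) (f : β → Finset ι → ℝ) :
    Ex E p (fun S => ∑ a ∈ s, f a S) = ∑ a ∈ s, Ex E p (f a) := by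
  simp only [Ex, Finset.mul_sum]
  exact Finset.sum_comm

theorem Ex_const (E : Finset ι) (p c : ℝ) : Ex E p (fun _ => c) = c := by
  have h := Ex_prod E p (fun _ => (1 : ℝ)) (fun _ => 1)
  simp only [Finset.prod_const_one, mul_one] at h
  have h2 : Ex E p (fun _ => c) = c * Ex E p (fun _ => 1) := by
    rw [← Ex_const_mul]; simp
  rw [h2, h]; simp

theorem Ex_mono (E : Finset ι) {p : ℝ} (h0 : 0 ≤ p) (h1 : p ≤ 1) {f g : Finset ι → ℝ}
    (h : ∀ S, S ⊆ E → f S ≤ g S) : Ex E p f ≤ Ex E p g := by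
  refine Finset.sum_le_sum fun S hS => mul_le_mul_of_nonneg_left (h S (Finset.mem_powerset.1 hS)) ?_
  have : 0 ≤ 1 - p := by linarith
  positivity

theorem exists_le_Ex (E : Finset ι) {p : ℝ} (h0 : 0 ≤ p) (h1 : p ≤ 1) (f : Finset ι → ℝ) :
    ∃ S, S ⊆ E ∧ f S ≤ Ex E p f := by
  obtain ⟨S, hS, hmin⟩ := Finset.exists_min_image E.powerset f ⟨∅, Finset.empty_mem_powerset E⟩
  refine ⟨S, Finset.mem_powerset.1 hS, ?_⟩
  calc f S = Ex E p (fun _ => f S) := (Ex_const E p (f S)).symm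
    _ ≤ Ex E p f := Ex_mono E h0 h1 fun T hT => hmin T (Finset.mem_powerset.2 hT)

theorem Ex_ind (E : Finset ι) (p : ℝ) {A : Finset ι} (hA : A ⊆ E) :
    Ex E p (ind A) = (1 - p) ^ A.card := by
  have h : Ex E p (ind A) =
      Ex E p (fun S => (∏ e ∈ S, (if e ∈ A then (0 : ℝ) else 1)) * ∏ e ∈ E \ S, (1 : ℝ)) := by
    refine Finset.sum_congr rfl fun S _ => ?_
    congr 1
    simp only [Finset.prod_const_one, mul_one, ind]
    split_ifs with hd
    · rw [Finset.prod_eq_one]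
      intro e he
      rw [if_neg (fun h => Finset.disjoint_left.1 hd h he)]
    · obtain ⟨e, heA, heS⟩ := Finset.not_disjoint_iff.1 hd
      exact (Finset.prod_eq_zero (f := fun e => if e ∈ A then (0 : ℝ) else 1) heS
        (if_pos heA)).symm
  rw [h, Ex_prod]
  have h2 : ∀ e ∈ E, p * (if e ∈ A then (0 : ℝ) else 1) + (1 - p) * 1 =
      if e ∈ A then 1 - p else 1 := by
    intro e _; split_ifs <;> ring
  rw [Finset.prod_congr rfl h2, Finset.prod_ite_mem, Finset.inter_eq_right.2 hA, Finset.prod_const]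

theorem ind_mul (A B S : Finset ι) : ind A S * ind B S = ind (A ∪ B) S := by
  simp only [ind, Finset.disjoint_union_left]
  split_ifs <;> simp_all

theorem mem_eq_one_sub_ind (e : ι) (S : Finset ι) :
    (if e ∈ S then (1 : ℝ) else 0) = 1 - ind {e} S := by
  simp only [ind, Finset.disjoint_singleton_left]
  split_ifs <;> simp_all

theorem Ex_mem (E : Finset ι) (p : ℝ) {e : ι} (he : e ∈ E) :
    Ex E p (fun S => if e ∈ S then (1 : ℝ) else 0) = p := by
  simp only [mem_eq_one_sub_ind]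
  rw [Ex_sub, Ex_const, Ex_ind E p (Finset.singleton_subset_iff.2 he)]
  simp

theorem Ex_mem_mem (E : Finset ι) (p : ℝ) {e e' : ι} (he : e ∈ E) (he' : e' ∈ E) (hne : e ≠ e') :
    Ex E p (fun S => (if e ∈ S then (1 : ℝ) else 0) * (if e' ∈ S then (1 : ℝ) else 0)) = p ^ 2 := by
  have h : ∀ S : Finset ι,
      (if e ∈ S then (1 : ℝ) else 0) * (if e' ∈ S then (1 : ℝ) else 0) =
        (1 - ind {e} S) - (ind {e'} S - ind ({e} ∪ {e'}) S) := by
    intro S; rw [mem_eq_one_sub_ind, mem_eq_one_sub_ind, ← ind_mul]; ring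
  simp only [h]
  rw [Ex_sub, Ex_sub, Ex_sub, Ex_const, Ex_ind E p (Finset.singleton_subset_iff.2 he),
    Ex_ind E p (Finset.singleton_subset_iff.2 he'),
    Ex_ind E p (Finset.union_subset (Finset.singleton_subset_iff.2 he)
      (Finset.singleton_subset_iff.2 he'))]
  rw [Finset.card_union_of_disjoint (Finset.disjoint_singleton.2 hne)]
  simp only [Finset.card_singleton]
  ring

theorem pow_sub_le {p : ℝ} (h0 : 0 ≤ p) (h1 : p ≤ 1) (m : ℕ) : 1 - (1 - p) ^ m ≤ m * p := by
  have := one_add_mul_le_pow (a := -p) (by linarith) m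
  rw [← sub_eq_add_neg] at this
  linarith

theorem Ex_abs_dev (E : Finset ι) {p : ℝ} (h0 : 0 ≤ p) (h1 : p ≤ 1) (s : Finset β)
    (B : β → Finset ι) (hB : ∀ a ∈ s, B a ⊆ E) (c : ℝ) {t v : ℝ} (ht : 0 < t)
    (hv : p * ∑ a ∈ s, ∑ b ∈ s, ((B a ∩ B b).card : ℝ) ≤ v) :
    Ex E p (fun S => |(∑ a ∈ s, ind (B a) S) - c|) ≤
      |(∑ a ∈ s, (1 - p) ^ (B a).card) - c| + v / (2 * t) + t / 2 := by
  set m : ℝ := ∑ a ∈ s, (1 - p) ^ (B a).card with hm
  set Y : Finset ι → ℝ := fun S => ∑ a ∈ s, ind (B a) S with hY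
  have hq0 : 0 ≤ 1 - p := by linarith
  have hq1 : 1 - p ≤ 1 := by linarith
  have hEY : Ex E p Y = m := by
    rw [hY, Ex_sum]
    exact Finset.sum_congr rfl fun a ha => Ex_ind E p (hB a ha)
  have hEY2 : Ex E p (fun S => Y S * Y S) =
      ∑ a ∈ s, ∑ b ∈ s, (1 - p) ^ (B a ∪ B b).card := by
    simp only [hY, Finset.sum_mul_sum, ind_mul, Ex_sum]
    refine Finset.sum_congr rfl fun a ha => Finset.sum_congr rfl fun b hb => ?_
    exact Ex_ind E p (Finset.union_subset (hB a ha) (hB b hb))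
  have hvar : Ex E p (fun S => (Y S - m) ^ 2) ≤ v := by
    have : (fun S => (Y S - m) ^ 2) = fun S => (Y S * Y S - (2 * m) * Y S) + m ^ 2 := by
      funext S; ring
    rw [this, Ex_add, Ex_sub, Ex_const_mul, Ex_const, hEY, hEY2]
    have hmm : m ^ 2 = ∑ a ∈ s, ∑ b ∈ s, (1 - p) ^ ((B a).card + (B b).card) := by
      rw [sq, hm, Finset.sum_mul_sum]
      simp [pow_add]
    have key : ∀ a b, (1 - p) ^ (B a ∪ B b).card - (1 - p) ^ ((B a).card + (B b).card) ≤
        p * ((B a ∩ B b).card : ℝ) := by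
      intro a b
      rw [← Finset.card_union_add_card_inter, pow_add]
      have hu1 : (1 - p) ^ (B a ∪ B b).card ≤ 1 := pow_le_one₀ hq0 hq1
      have hu0 : 0 ≤ (1 - p) ^ (B a ∪ B b).card := pow_nonneg hq0 _
      have hi1 : (1 - p) ^ (B a ∩ B b).card ≤ 1 := pow_le_one₀ hq0 hq1
      have := pow_sub_le h0 h1 (B a ∩ B b).card
      nlinarith
    have : (∑ a ∈ s, ∑ b ∈ s, (1 - p) ^ (B a ∪ B b).card) -
        (∑ a ∈ s, ∑ b ∈ s, (1 - p) ^ ((B a).card + (B b).card)) ≤
        p * ∑ a ∈ s, ∑ b ∈ s, ((B a ∩ B b).card : ℝ) := by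
      simp only [Finset.mul_sum, ← Finset.sum_sub_distrib]
      exact Finset.sum_le_sum fun a _ => Finset.sum_le_sum fun b _ => key a b
    nlinarith [hmm]
  have hpt : ∀ S, |Y S - c| ≤ (|m - c| + t / 2) + (1 / (2 * t)) * (Y S - m) ^ 2 := by
    intro S
    have h2 : |Y S - m| ≤ t / 2 + (1 / (2 * t)) * (Y S - m) ^ 2 := by
      have h3 := mul_self_nonneg (|Y S - m| - t)
      rw [← sq_abs (Y S - m)]
      have : t / 2 + 1 / (2 * t) * |Y S - m| ^ 2 - |Y S - m| =
          (|Y S - m| - t) * (|Y S - m| - t) / (2 * t) := by field_simp; ring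
      have : 0 ≤ (|Y S - m| - t) * (|Y S - m| - t) / (2 * t) := by positivity
      linarith
    have := abs_sub_le (Y S) m c
    linarith
  calc Ex E p (fun S => |Y S - c|)
      ≤ Ex E p (fun S => (|m - c| + t / 2) + (1 / (2 * t)) * (Y S - m) ^ 2) :=
        Ex_mono E h0 h1 fun S _ => hpt S
    _ = (|m - c| + t / 2) + (1 / (2 * t)) * Ex E p (fun S => (Y S - m) ^ 2) := by
        rw [Ex_add, Ex_const, Ex_const_mul]
    _ ≤ |m - c| + v / (2 * t) + t / 2 := by
        have : (1 / (2 * t)) * Ex E p (fun S => (Y S - m) ^ 2) ≤ (1 / (2 * t)) * v :=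
          mul_le_mul_of_nonneg_left hvar (by positivity)
        rw [one_div_mul_eq_div _ v] at this
        linarith

theorem abs_exp_sub_exp {x y : ℝ} (hx : x ≤ 0) (hy : y ≤ 0) :
    |Real.exp x - Real.exp y| ≤ |x - y| := by
  have key : ∀ u w : ℝ, u ≤ 0 → w ≤ u → |Real.exp u - Real.exp w| ≤ |u - w| := by
    intro u w hu hw
    have h1 : Real.exp w = Real.exp u * Real.exp (w - u) := by
      rw [← Real.exp_add]; ring_nf
    have h2 := Real.add_one_le_exp (w - u)
    have h3 : Real.exp u ≤ 1 := Real.exp_le_one_iff.2 hu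
    have h4 : Real.exp w ≤ Real.exp u := Real.exp_le_exp.2 hw
    rw [abs_of_nonneg (by linarith), abs_of_nonneg (by linarith)]
    nlinarith [Real.exp_pos u, Real.exp_pos (w - u)]
  rcases le_total y x with h | h
  · exact key x y hx h
  · rw [abs_sub_comm, abs_sub_comm x]; exact key y x hy h

theorem pow_approx {p ν : ℝ} (h0 : 0 ≤ p) (h1 : p ≤ 1) (hν : 0 ≤ ν) (m : ℕ) :
    |(1 - p) ^ m - Real.exp (-ν)| ≤ m * p ^ 2 + |p * m - ν| := by
  have hq : 0 ≤ 1 - p := by linarith
  have he : Real.exp (-p) ≤ 1 - p + p ^ 2 := by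
    have h2 := Real.add_one_le_exp p
    have h3 : Real.exp (-p) * Real.exp p = 1 := by rw [← Real.exp_add]; simp
    nlinarith [Real.exp_pos (-p), mul_nonneg h0 (sq_nonneg p)]
  have he1 : Real.exp (-p) ≤ 1 := Real.exp_le_one_iff.2 (by linarith)
  have he2 : 1 - p ≤ Real.exp (-p) := by linarith [Real.add_one_le_exp (-p)]
  have hA : |(1 - p) ^ m - Real.exp (-(p * m))| ≤ m * p ^ 2 := by
    have hm : Real.exp (-(p * m)) = Real.exp (-p) ^ m := by
      rw [← Real.exp_nat_mul]; ring_nf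
    rw [hm]
    refine (abs_pow_sub_pow_le (1 - p) (Real.exp (-p)) m).trans ?_
    have h4 : |1 - p - Real.exp (-p)| ≤ p ^ 2 := by
      rw [abs_le]; constructor <;> nlinarith [sq_nonneg p]
    have h5 : max |1 - p| |Real.exp (-p)| ^ (m - 1) ≤ 1 := by
      apply pow_le_one₀ (le_trans (abs_nonneg _) (le_max_left _ _))
      rw [abs_of_nonneg hq, abs_of_nonneg (Real.exp_pos _).le]
      exact max_le (by linarith) he1
    calc |1 - p - Real.exp (-p)| * m * max |1 - p| |Real.exp (-p)| ^ (m - 1)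
        ≤ p ^ 2 * m * 1 := by gcongr
      _ = m * p ^ 2 := by ring
  have hB : |Real.exp (-(p * m)) - Real.exp (-ν)| ≤ |p * m - ν| := by
    have : (0 : ℝ) ≤ p * m := by positivity
    refine (abs_exp_sub_exp (by linarith) (by linarith)).trans_eq ?_
    rw [show -(p * m) - -ν = -(p * m - ν) by ring, abs_neg]
  have := abs_sub_le ((1 - p) ^ m) (Real.exp (-(p * m))) (Real.exp (-ν))
  linarith

theorem sum_card_le_card_biUnion_add [DecidableEq β] (s : Finset β) (A : β → Finset ι) :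
    ∑ j ∈ s, ((A j).card : ℝ) ≤
      ((s.biUnion A).card : ℝ) + ∑ j ∈ s, ∑ k ∈ s.erase j, ((A j ∩ A k).card : ℝ) := by
  induction s using Finset.induction with
  | empty => simp
  | insert a s ha ih =>
    rw [Finset.sum_insert ha, Finset.sum_insert ha, Finset.biUnion_insert,
      Finset.erase_insert ha]
    have h1 : ((A a).card : ℝ) + (s.biUnion A).card =
        ((A a ∪ s.biUnion A).card : ℝ) + ((A a ∩ s.biUnion A).card : ℝ) := by
      exact_mod_cast (Finset.card_union_add_card_inter _ _).symm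
    have h2 : ((A a ∩ s.biUnion A).card : ℝ) ≤ ∑ k ∈ s, ((A a ∩ A k).card : ℝ) := by
      rw [Finset.inter_biUnion]
      exact_mod_cast Finset.card_biUnion_le
    have h3 : ∑ j ∈ s, ∑ k ∈ s.erase j, ((A j ∩ A k).card : ℝ) ≤
        ∑ j ∈ s, ∑ k ∈ (insert a s).erase j, ((A j ∩ A k).card : ℝ) := by
      refine Finset.sum_le_sum fun j _ => Finset.sum_le_sum_of_subset_of_nonneg
        (Finset.erase_subset_erase _ (Finset.subset_insert _ _)) fun k _ _ => by positivity
    linarith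

end Vale.Agent.P110.Flat.Nib
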