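import Vale.Agent.P110.Flat.Defs

/-! A bounded profile with primitive frequencies: Fejér square waves and Möbius inversion. -/

namespace Vale.Agent.P110.Flat

open Finset
open scoped BigOperators

/-- The even square wave of period one. -/
noncomputable def sqw (x : ℝ) : ℝ :=
  if 0 < Real.cos (2 * Real.pi * x) then 1 else if Real.cos (2 * Real.pi * x) < 0 then -1 else 0

/-- The Fourier coefficients of the square wave. -/
noncomputable def sqc (j : ℤ) : ℝ := ∫ u in (0 : ℝ)..1, sqw u * Real.cos (2 * Real.pi * j * u)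

/-- The pairs with difference `j`. -/
def fejPairs (J : ℕ) (j : ℤ) : Finset (ℕ × ℕ) :=
  (range J ×ˢ range J).filter fun p => (p.1 : ℤ) - p.2 = j

/-- The coefficients of the Fejér mean of the square wave. -/
noncomputable def fejCoef (J : ℕ) (j : ℤ) : ℝ := ((fejPairs J j).card : ℝ) / J * sqc j

/-- The Fejér kernel. -/
noncomputable def fejKer (J : ℕ) (t : ℝ) : ℝ :=
  (∑ p ∈ range J ×ˢ range J, Real.cos (2 * Real.pi * (((p.1 : ℤ) - p.2 : ℤ) : ℝ) * t)) / J

/-- The coefficients that survive averaging over shifts by multiples of `1 / m`. -/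
noncomputable def multCoef (J m : ℕ) (j : ℤ) : ℝ := if (m : ℤ) ∣ j then fejCoef J j else 0

/-- A cosine polynomial with frequencies in `[-J, J]`. -/
noncomputable def cosPoly (J : ℕ) (b : ℤ → ℝ) (x : ℝ) : ℝ :=
  ∑ j ∈ Icc (-(J : ℤ)) J, b j * Real.cos (2 * Real.pi * j * x)

lemma measurable_sqw : Measurable sqw := by
  unfold sqw
  refine Measurable.ite ?_ measurable_const (Measurable.ite ?_ measurable_const measurable_const)
  · exact measurableSet_lt measurable_const (by fun_prop)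
  · exact measurableSet_lt (by fun_prop) measurable_const

lemma abs_sqw_le (x : ℝ) : |sqw x| ≤ 1 := by
  unfold sqw
  split_ifs <;> simp

lemma sqw_neg (x : ℝ) : sqw (-x) = sqw x := by simp [sqw]

lemma sqw_half (x : ℝ) : sqw (x + 1 / 2) = -sqw x := by
  have h : Real.cos (2 * Real.pi * (x + 1 / 2)) = -Real.cos (2 * Real.pi * x) := by
    rw [show 2 * Real.pi * (x + 1 / 2) = 2 * Real.pi * x + Real.pi by ring, Real.cos_add_pi]
  unfold sqw
  rw [h]
  rcases lt_trichotomy (Real.cos (2 * Real.pi * x)) 0 with h1 | h1 | h1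
  · rw [if_pos (neg_pos.2 h1), if_neg h1.not_gt, if_pos h1, neg_neg]
  · simp [h1]
  · rw [if_neg (by linarith), if_pos (by linarith), if_pos h1]

lemma sqw_periodic : Function.Periodic sqw 1 := fun x => by
  rw [show x + 1 = x + 1 / 2 + 1 / 2 by ring, sqw_half, sqw_half, neg_neg]

lemma sqw_eq_one {x : ℝ} (k : ℤ) (h₁ : (k : ℝ) - 1 / 4 < x) (h₂ : x < k + 1 / 4) : sqw x = 1 := by
  have e : sqw x = sqw (x - k) := (sqw_periodic.sub_int_mul_eq (x := x) k).symm.trans (by rw [mul_one])
  rw [e, sqw, if_pos]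
  refine Real.cos_pos_of_mem_Ioo ⟨?_, ?_⟩ <;> nlinarith [Real.pi_pos]

lemma sqw_eq_neg_one {x : ℝ} (h₁ : 1 / 4 < x) (h₂ : x < 3 / 4) : sqw x = -1 := by
  have := sqw_eq_one (x := x - 1 / 2) 0 (by push_cast; linarith) (by push_cast; linarith)
  have h := sqw_half (x - 1 / 2)
  rw [sub_add_cancel, this] at h
  exact h

lemma sum_shift_periodic {F : ℝ → ℝ} (hF : Function.Periodic F 1) {m : ℕ} (hm : 0 < m) :
    Function.Periodic (fun x => ∑ l ∈ range m, F (x + l / m)) (1 / m) := by
  intro x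
  have h1 := sum_range_succ (fun l : ℕ => F (x + l / m)) m
  have h2 := sum_range_succ' (fun l : ℕ => F (x + l / m)) m
  have e : F (x + (m : ℕ) / m) = F (x + ((0 : ℕ) : ℝ) / m) := by
    rw [div_self (by exact_mod_cast hm.ne'), hF x]
    simp
  simp only at h1 h2 ⊢
  rw [h1, e] at h2
  have h3 := add_right_cancel h2
  rw [h3]
  refine sum_congr rfl fun l _ => ?_
  push_cast
  rw [add_assoc, ← add_div, add_comm (1 : ℝ) (l : ℝ)]

lemma sum_sqw_shift_aux {m : ℕ} (hm : Odd m) {x : ℝ} (h1 : 1 / 4 - 1 / (2 * m) < x) (h2 : x ≤ 1 / 4) :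
    |∑ l ∈ range m, sqw (x + l / m)| ≤ 1 := by
  obtain ⟨s, rfl⟩ := hm
  set q : ℝ := ((2 * s + 1 : ℕ) : ℝ) with hq
  have hq' : q = 2 * s + 1 := by rw [hq]; push_cast; ring
  have hq1 : (1 : ℝ) ≤ q := by rw [hq']; linarith [show (0 : ℝ) ≤ s from Nat.cast_nonneg s]
  have hqi : q * (1 / (2 * q)) = 1 / 2 := by field_simp
  have hneg : ∀ l ∈ range s, sqw (x + ((l + 1 : ℕ) : ℝ) / q) = -1 := fun l hl => by
    have hl' : (l : ℝ) + 1 ≤ s := by exact_mod_cast mem_range.1 hl
    have e : (((l + 1 : ℕ) : ℝ) / q) * q = l + 1 := by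
      rw [div_mul_cancel₀ _ (by linarith)]
      push_cast
      ring
    refine sqw_eq_neg_one ?_ ?_ <;> nlinarith
  have hpos : ∀ l ∈ range s, sqw (x + ((s + l + 1 : ℕ) : ℝ) / q) = 1 := fun l hl => by
    have hl' : (l : ℝ) + 1 ≤ s := by exact_mod_cast mem_range.1 hl
    have e : (((s + l + 1 : ℕ) : ℝ) / q) * q = s + l + 1 := by
      rw [div_mul_cancel₀ _ (by linarith)]
      push_cast
      ring
    refine sqw_eq_one 1 ?_ ?_ <;> push_cast at e ⊢ <;> nlinarith [Nat.cast_nonneg (α := ℝ) l]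
  rw [sum_range_succ', show 2 * s = s + s by ring, sum_range_add, sum_congr rfl hneg,
    sum_congr rfl hpos]
  simp [abs_sqw_le]

/-- Shifts by multiples of `1 / m` average the square wave down to size `1 / m`. -/
lemma abs_sum_sqw_shift {m : ℕ} (hm : 0 < m) (x : ℝ) :
    |∑ l ∈ range m, sqw (x + l / m)| ≤ 1 := by
  set T : ℝ → ℝ := fun x => ∑ l ∈ range m, sqw (x + l / m) with hT
  have hmR : (0 : ℝ) < m := by exact_mod_cast hm
  have hp : Function.Periodic T (1 / m) := sum_shift_periodic sqw_periodic hm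
  have hh : ∀ y, T (y + 1 / 2) = -T y := fun y => by
    simp only [hT, ← sum_neg_distrib]
    refine sum_congr rfl fun l _ => ?_
    rw [add_right_comm, sqw_half]
  show |T x| ≤ 1
  rcases Nat.even_or_odd m with ⟨s, hs⟩ | ho
  · have : T x = -T x := by
      rw [← hh, ← hp.nat_mul s x]
      congr 1
      rw [hs] at hmR ⊢
      push_cast at hmR ⊢
      have : (s : ℝ) ≠ 0 := by linarith
      field_simp
      ring
    rw [show T x = 0 by linarith]
    norm_num
  · obtain ⟨s, hs⟩ := ho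
    have hq : Function.Periodic (fun y => |T y|) (1 / (2 * m)) := fun y => by
      have e : T (y + 1 / 2) = T (y + 1 / (2 * m)) := by
        rw [← hp.nat_mul s (y + 1 / (2 * m))]
        congr 1
        rw [hs]
        push_cast
        field_simp
        ring
      simp only
      rw [← e, hh, abs_neg]
    have hq0 : (0 : ℝ) < 1 / (2 * m) := by positivity
    obtain ⟨y, hy, he⟩ := hq.exists_mem_Ioc hq0 x (1 / 4 - 1 / (2 * m))
    refine le_of_eq_of_le he ?_
    exact sum_sqw_shift_aux ⟨s, hs⟩ hy.1 (hy.2.trans_eq (by ring))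

lemma intervalIntegrable_sqw_mul {F : ℝ → ℝ} (hF : Continuous F) (a b : ℝ) :
    IntervalIntegrable (fun u => sqw u * F u) MeasureTheory.volume a b := by
  have h := hF.intervalIntegrable (μ := MeasureTheory.volume) a b
  exact ⟨MeasureTheory.Integrable.bdd_mul (c := 1) h.1 measurable_sqw.aestronglyMeasurable
      (MeasureTheory.ae_of_all _ fun u => abs_sqw_le u),
    MeasureTheory.Integrable.bdd_mul (c := 1) h.2 measurable_sqw.aestronglyMeasurable
      (MeasureTheory.ae_of_all _ fun u => abs_sqw_le u)⟩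

lemma cos_int_mul_periodic (j : ℤ) : Function.Periodic (fun u : ℝ => Real.cos (2 * Real.pi * j * u)) 1 :=
  fun u => by
    simp only
    rw [show 2 * Real.pi * (j : ℝ) * (u + 1) = 2 * Real.pi * j * u + (j : ℝ) * (2 * Real.pi) by ring,
      Real.cos_add_int_mul_two_pi]

lemma sin_int_mul_periodic (j : ℤ) : Function.Periodic (fun u : ℝ => Real.sin (2 * Real.pi * j * u)) 1 :=
  fun u => by
    simp only
    rw [show 2 * Real.pi * (j : ℝ) * (u + 1) = 2 * Real.pi * j * u + (j : ℝ) * (2 * Real.pi) by ring,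
      Real.sin_add_int_mul_two_pi]

lemma integral_sqw_sin (j : ℤ) :
    ∫ u in (0 : ℝ)..1, sqw u * Real.sin (2 * Real.pi * j * u) = 0 := by
  have hP := sqw_periodic.mul (sin_int_mul_periodic j)
  have e := hP.intervalIntegral_add_eq 0 (-(1 / 2))
  simp only [Pi.mul_apply, zero_add] at e
  rw [e, show -(1 / 2 : ℝ) + 1 = 1 / 2 by norm_num]
  have h := intervalIntegral.integral_comp_neg (a := -(1 / 2 : ℝ)) (b := 1 / 2)
    (fun u => sqw u * Real.sin (2 * Real.pi * j * u))
  simp only [sqw_neg, mul_neg, Real.sin_neg, intervalIntegral.integral_neg, neg_neg] at h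
  linarith

lemma sqc_neg (j : ℤ) : sqc (-j) = sqc j := by
  simp [sqc, Real.cos_neg]

lemma sqc_zero : sqc 0 = 0 := by
  have h1 := sqw_periodic.intervalIntegral_add_eq 0 (1 / 2)
  have h2 := intervalIntegral.integral_comp_add_right (a := (0 : ℝ)) (b := 1) sqw (1 / 2)
  simp only [sqw_half, intervalIntegral.integral_neg, zero_add] at h2 h1
  rw [show (1 : ℝ) + 1 / 2 = 1 / 2 + 1 by ring, ← h1] at h2
  simp only [sqc, Int.cast_zero, mul_zero, zero_mul, Real.cos_zero, mul_one]
  linarith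

lemma hasSum_sqc : HasSum (fun j => sqc j ^ 2) 1 := by
  have hm : MeasureTheory.MemLp (fun x => (sqw x : ℂ)) 2
      (MeasureTheory.volume.restrict (Set.Ioc (0 : ℝ) 1)) :=
    MeasureTheory.MemLp.of_bound (Complex.measurable_ofReal.comp measurable_sqw).aestronglyMeasurable 1
      (MeasureTheory.ae_of_all _ fun x => by simpa using abs_sqw_le x)
  have h := hasSum_sq_fourierCoeffOn (zero_lt_one' ℝ) hm
  have hc : ∀ j : ℤ, fourierCoeffOn (zero_lt_one' ℝ) (fun x => (sqw x : ℂ)) j = (sqc j : ℂ) := fun j => by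
    rw [fourierCoeffOn_eq_integral]
    have hC : (∫ x in (0 : ℝ)..1, ((sqw x * Real.cos (2 * Real.pi * j * x) : ℝ) : ℂ)) = (sqc j : ℂ) :=
      intervalIntegral.integral_ofReal
    have hS : (∫ x in (0 : ℝ)..1, ((sqw x * Real.sin (2 * Real.pi * j * x) : ℝ) : ℂ)) = 0 := by
      rw [intervalIntegral.integral_ofReal, integral_sqw_sin, Complex.ofReal_zero]
    rw [show (1 : ℝ) / (1 - 0) = 1 by norm_num, one_smul,
      intervalIntegral.integral_congr (g := fun x => ((sqw x * Real.cos (2 * Real.pi * j * x) : ℝ) : ℂ) -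
        Complex.I * ((sqw x * Real.sin (2 * Real.pi * j * x) : ℝ) : ℂ)) fun x _ => ?_,
      intervalIntegral.integral_sub, intervalIntegral.integral_const_mul, hC, hS, mul_zero, sub_zero]
    · have h := intervalIntegrable_sqw_mul (F := fun x => Real.cos (2 * Real.pi * j * x)) (by fun_prop) 0 1
      exact ⟨h.1.ofReal, h.2.ofReal⟩
    · have h := intervalIntegrable_sqw_mul (F := fun x => Real.sin (2 * Real.pi * j * x)) (by fun_prop) 0 1
      exact IntervalIntegrable.const_mul ⟨h.1.ofReal, h.2.ofReal⟩ _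
    · rw [fourier_coe_apply, smul_eq_mul,
        show (2 * (Real.pi : ℂ) * Complex.I * ((-j : ℤ) : ℂ) * (x : ℂ) / ((1 - 0 : ℝ) : ℂ)) =
          ((-(2 * Real.pi * j * x) : ℝ) : ℂ) * Complex.I by push_cast; ring,
        Complex.exp_mul_I, ← Complex.ofReal_cos, ← Complex.ofReal_sin, Real.cos_neg, Real.sin_neg]
      push_cast
      ring
  have h1 : ∫ x in (0 : ℝ)..1, ‖(sqw x : ℂ)‖ ^ 2 = 1 := by
    rw [intervalIntegral.integral_congr_ae (g := fun _ => (1 : ℝ))]
    · simp
    · filter_upwards [MeasureTheory.measure_eq_zero_iff_ae_notMem.1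
        ((Set.toFinite ({1 / 4, 3 / 4, 1} : Set ℝ)).measure_zero MeasureTheory.volume)] with x hx hI
      rw [Set.uIoc_of_le zero_le_one, Set.mem_Ioc] at hI
      simp only [Set.mem_insert_iff, Set.mem_singleton_iff, not_or] at hx
      rw [Complex.norm_real, Real.norm_eq_abs, sq_abs]
      rcases lt_or_gt_of_ne hx.1 with h | h
      · rw [sqw_eq_one 0 (by push_cast; linarith) (by push_cast; linarith), one_pow]
      · rcases lt_or_gt_of_ne hx.2.1 with h' | h'
        · rw [sqw_eq_neg_one h h']; norm_num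
        · rw [sqw_eq_one 1 (by push_cast; linarith)
            (by push_cast; linarith [lt_of_le_of_ne hI.2 hx.2.2]), one_pow]
  rw [h1] at h
  simpa [hc] using h

lemma fejPairs_card_le (J : ℕ) (j : ℤ) : (fejPairs J j).card ≤ J := by
  refine le_of_le_of_eq (card_le_card_of_injOn Prod.fst (t := range J) (fun p hp => ?_) ?_) (card_range J)
  · simp only [fejPairs, coe_filter, Set.mem_ofPred_eq, mem_product] at hp
    exact mem_coe.2 hp.1.1
  · intro p hp p' hp' e
    simp only [fejPairs, coe_filter, Set.mem_ofPred_eq, mem_product] at hp hp'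
    exact Prod.ext e (by omega)

lemma fejPairs_card_ge (J : ℕ) (j : ℤ) : J - j.natAbs ≤ (fejPairs J j).card := by
  refine le_of_eq_of_le (card_range _).symm (card_le_card_of_injOn
    (fun t => if 0 ≤ j then (t + j.natAbs, t) else (t, t + j.natAbs)) (fun t ht => ?_) ?_)
  · simp only [coe_range, Set.mem_Iio] at ht
    refine mem_coe.2 ?_
    simp only [fejPairs, mem_filter, mem_product, mem_range]
    split_ifs with h <;> refine ⟨⟨?_, ?_⟩, ?_⟩ <;> simp only [Nat.cast_add] <;> omega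
  · intro t _ t' _ e
    by_cases h : 0 ≤ j <;> simp [h] at e <;> omega

lemma fejPairs_card_neg (J : ℕ) (j : ℤ) : (fejPairs J (-j)).card = (fejPairs J j).card := by
  refine card_nbij' Prod.swap Prod.swap ?_ ?_ (fun p _ => p.swap_swap) (fun p _ => p.swap_swap) <;>
  · intro p hp
    simp only [fejPairs, coe_filter, Set.mem_ofPred_eq, mem_product, Prod.fst_swap, Prod.snd_swap] at hp ⊢
    exact ⟨⟨hp.1.2, hp.1.1⟩, by omega⟩

lemma multCoef_neg (J m : ℕ) (j : ℤ) : multCoef J m (-j) = multCoef J m j := by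
  simp [multCoef, fejCoef, fejPairs_card_neg, sqc_neg]

lemma fejKer_nonneg (J : ℕ) (t : ℝ) : 0 ≤ fejKer J t := by
  refine div_nonneg ?_ (Nat.cast_nonneg J)
  have e : ∑ p ∈ range J ×ˢ range J, Real.cos (2 * Real.pi * (((p.1 : ℤ) - p.2 : ℤ) : ℝ) * t) =
      (∑ a ∈ range J, Real.cos (2 * Real.pi * a * t)) ^ 2 +
        (∑ a ∈ range J, Real.sin (2 * Real.pi * a * t)) ^ 2 := by
    rw [sq, sq, sum_mul_sum, sum_mul_sum, ← sum_add_distrib, sum_product]
    refine sum_congr rfl fun a _ => ?_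
    rw [← sum_add_distrib]
    refine sum_congr rfl fun b _ => ?_
    rw [← Real.cos_sub]
    push_cast
    ring_nf
  rw [e]
  positivity

lemma fejKer_periodic (J : ℕ) : Function.Periodic (fejKer J) 1 := fun t => by
  unfold fejKer
  congr 1
  exact sum_congr rfl fun p _ => cos_int_mul_periodic _ t

lemma continuous_fejKer (J : ℕ) : Continuous (fejKer J) := by
  unfold fejKer
  fun_prop

lemma integral_cos_int (j : ℤ) :
    ∫ u in (0 : ℝ)..1, Real.cos (2 * Real.pi * j * u) = if j = 0 then 1 else 0 := by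
  split_ifs with hj
  · simp [hj]
  · rw [intervalIntegral.integral_comp_mul_left Real.cos (c := 2 * Real.pi * j)
      (by simp [hj, Real.pi_ne_zero]), integral_cos,
      show 2 * Real.pi * (j : ℝ) * 1 = ((2 * j : ℤ) : ℝ) * Real.pi by push_cast; ring,
      Real.sin_int_mul_pi]
    simp

lemma integral_fejKer {J : ℕ} (hJ : 0 < J) (x : ℝ) : ∫ u in (0 : ℝ)..1, fejKer J (x - u) = 1 := by
  rw [intervalIntegral.integral_comp_sub_left (fejKer J) x, sub_zero,
    show x = x - 1 + 1 by ring, add_sub_cancel_right, (fejKer_periodic J).intervalIntegral_add_eq (x - 1) 0,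
    zero_add]
  unfold fejKer
  rw [intervalIntegral.integral_div, intervalIntegral.integral_finsetSum fun p _ =>
    (Continuous.intervalIntegrable (by fun_prop) 0 1)]
  simp only [integral_cos_int]
  rw [sum_product, sum_congr rfl fun a ha => (sum_eq_single a (fun b _ hb => if_neg (by omega))
    (fun h => absurd ha h))]
  simp only [sub_self, if_true, sum_const, card_range, nsmul_eq_mul, mul_one]
  exact div_self (by exact_mod_cast hJ.ne')

lemma cosPoly_multCoef_one (J : ℕ) (x : ℝ) :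
    cosPoly J (multCoef J 1) x = ∫ u in (0 : ℝ)..1, sqw u * fejKer J (x - u) := by
  have hone : ∀ j : ℤ, ∫ u in (0 : ℝ)..1, sqw u * Real.cos (2 * Real.pi * j * (x - u)) =
      sqc j * Real.cos (2 * Real.pi * j * x) := fun j => by
    rw [intervalIntegral.integral_congr (g := fun u =>
      Real.cos (2 * Real.pi * j * x) * (sqw u * Real.cos (2 * Real.pi * j * u)) +
      Real.sin (2 * Real.pi * j * x) * (sqw u * Real.sin (2 * Real.pi * j * u))) fun u _ => by
        simp only [mul_sub, Real.cos_sub]; ring,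
      intervalIntegral.integral_add, intervalIntegral.integral_const_mul,
      intervalIntegral.integral_const_mul, integral_sqw_sin]
    · rw [sqc]; ring
    · exact (intervalIntegrable_sqw_mul (by fun_prop) 0 1).const_mul _
    · exact (intervalIntegrable_sqw_mul (by fun_prop) 0 1).const_mul _
  have hE : (fun u => sqw u * fejKer J (x - u)) = fun u => (∑ p ∈ range J ×ˢ range J,
      sqw u * Real.cos (2 * Real.pi * (((p.1 : ℤ) - p.2 : ℤ) : ℝ) * (x - u))) / J := by
    funext u
    rw [fejKer, ← mul_div_assoc, mul_sum]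
  rw [hE, intervalIntegral.integral_div, intervalIntegral.integral_finsetSum fun p _ =>
    intervalIntegrable_sqw_mul (by fun_prop) 0 1]
  simp only [hone]
  rw [← sum_fiberwise_of_maps_to (g := fun p : ℕ × ℕ => (p.1 : ℤ) - p.2) (t := Icc (-(J : ℤ)) J)
    (fun p hp => by simp only [mem_product, mem_range, mem_Icc] at hp ⊢; omega), sum_div, cosPoly]
  refine sum_congr rfl fun j _ => ?_
  have e : ∀ p ∈ fejPairs J j,
      sqc ((p.1 : ℤ) - p.2) * Real.cos (2 * Real.pi * (((p.1 : ℤ) - p.2 : ℤ) : ℝ) * x) =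
      sqc j * Real.cos (2 * Real.pi * j * x) := fun p hp => by rw [(mem_filter.1 hp).2]
  simp only [multCoef, fejCoef, Nat.cast_one, one_dvd, if_true]
  rw [show ((range J ×ˢ range J).filter fun p => (p.1 : ℤ) - p.2 = j) = fejPairs J j from rfl,
    sum_congr rfl e, sum_const, nsmul_eq_mul]
  ring

lemma ee_int_mul (j : ℤ) (x : ℝ) : (ee (j * x)).re = Real.cos (2 * Real.pi * j * x) ∧
    (ee (j * x)).im = Real.sin (2 * Real.pi * j * x) := by
  have h : ee (j * x) = Complex.exp (((2 * Real.pi * j * x : ℝ) : ℂ) * Complex.I) := by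
    unfold ee
    congr 1
    push_cast
    ring
  rw [h]
  exact ⟨Complex.exp_ofReal_mul_I_re _, Complex.exp_ofReal_mul_I_im _⟩

lemma sum_ee_shift {m : ℕ} (hm : 0 < m) (j : ℤ) (x : ℝ) :
    ∑ l ∈ range m, ee (j * (x + l / m)) = if (m : ℤ) ∣ j then (m : ℂ) * ee (j * x) else 0 := by
  set ω : ℂ := Complex.exp (2 * Real.pi * ((j : ℂ) / m) * Complex.I) with hω
  have hmC : (m : ℂ) ≠ 0 := by exact_mod_cast hm.ne'
  have e : ∀ l : ℕ, ee (j * (x + l / m)) = ee (j * x) * ω ^ l := fun l => by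
    unfold ee
    rw [hω, ← Complex.exp_nat_mul, ← Complex.exp_add]
    congr 1
    push_cast
    ring
  simp only [e, ← mul_sum]
  split_ifs with hd
  · obtain ⟨c, rfl⟩ := hd
    have : ω = 1 := by
      rw [hω, Complex.exp_eq_one_iff]
      refine ⟨c, ?_⟩
      push_cast
      field_simp
    simp [this, mul_comm]
  · have h1 : ω ^ m = 1 := by
      rw [hω, ← Complex.exp_nat_mul, Complex.exp_eq_one_iff]
      refine ⟨j, ?_⟩
      field_simp
    have hne : ω ≠ 1 := fun h => by
      rw [hω, Complex.exp_eq_one_iff] at h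
      obtain ⟨c, hc⟩ := h
      apply hd
      refine ⟨c, ?_⟩
      have hc2 : (j : ℂ) / m * (2 * Real.pi * Complex.I) = (c : ℂ) * (2 * Real.pi * Complex.I) := by
        rw [← hc]; ring
      have h3 := mul_right_cancel₀ Complex.two_pi_I_ne_zero hc2
      rw [div_eq_iff hmC] at h3
      rw [mul_comm]
      exact_mod_cast h3
    rw [geom_sum_eq hne, h1, sub_self, zero_div, mul_zero]

lemma cosPoly_multCoef (J : ℕ) {m : ℕ} (hm : 0 < m) (x : ℝ) :
    cosPoly J (multCoef J m) x = (∑ l ∈ range m, cosPoly J (multCoef J 1) (x + l / m)) / m := by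
  have hmR : (m : ℝ) ≠ 0 := by exact_mod_cast hm.ne'
  unfold cosPoly
  rw [sum_comm, sum_div]
  refine sum_congr rfl fun j _ => ?_
  have h := congrArg Complex.re (sum_ee_shift hm j x)
  simp only [Complex.re_sum, (ee_int_mul j _).1] at h
  rw [← mul_sum, h]
  by_cases hd : (m : ℤ) ∣ j
  · simp only [multCoef, hd, if_true, Nat.cast_one, one_dvd, Complex.mul_re, Complex.natCast_re,
      Complex.natCast_im, zero_mul, sub_zero, (ee_int_mul j x).1]
    field_simp
  · simp [multCoef, hd]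

/-- The averaged Fejér square wave is at most `1 / m`. -/
lemma abs_cosPoly_multCoef {J m : ℕ} (hJ : 0 < J) (hm : 0 < m) (x : ℝ) :
    |cosPoly J (multCoef J m) x| ≤ 1 / m := by
  have hI : ∀ l : ℕ, cosPoly J (multCoef J 1) (x + l / m) =
      ∫ u in (0 : ℝ)..1, sqw (u + l / m) * fejKer J (x - u) := fun l => by
    have hP : Function.Periodic (fun u => sqw u * fejKer J (x + l / m - u)) 1 := fun u => by
      show sqw (u + 1) * fejKer J (x + l / m - (u + 1)) = _
      rw [sqw_periodic u, show x + (l : ℝ) / m - (u + 1) = x + l / m - u - 1 by ring,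
        (fejKer_periodic J).sub_eq]
    rw [cosPoly_multCoef_one]
    have h := intervalIntegral.integral_comp_add_right (a := (0 : ℝ)) (b := 1)
      (fun u => sqw u * fejKer J (x + l / m - u)) ((l : ℝ) / m)
    have h2 := hP.intervalIntegral_add_eq ((l : ℝ) / m) 0
    rw [zero_add] at h2
    rw [zero_add, add_comm (1 : ℝ) ((l : ℝ) / m), h2] at h
    rw [← h]
    refine intervalIntegral.integral_congr fun u _ => ?_
    simp only [add_sub_add_right_eq_sub]
  have hi : ∀ l ∈ range m, IntervalIntegrable (fun u => sqw (u + l / m) * fejKer J (x - u))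
      MeasureTheory.volume 0 1 := fun l _ => by
    have h := ((continuous_fejKer J).comp (by fun_prop : Continuous fun u : ℝ => x - u)).intervalIntegrable
      (μ := MeasureTheory.volume) 0 1
    exact ⟨MeasureTheory.Integrable.bdd_mul (c := 1) h.1
        (measurable_sqw.comp (measurable_id.add_const _)).aestronglyMeasurable
        (MeasureTheory.ae_of_all _ fun u => abs_sqw_le _),
      MeasureTheory.Integrable.bdd_mul (c := 1) h.2
        (measurable_sqw.comp (measurable_id.add_const _)).aestronglyMeasurable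
        (MeasureTheory.ae_of_all _ fun u => abs_sqw_le _)⟩
  rw [cosPoly_multCoef J hm x]
  simp only [hI]
  rw [← intervalIntegral.integral_finsetSum hi, abs_div, Nat.abs_cast]
  gcongr
  rw [← Real.norm_eq_abs]
  refine (intervalIntegral.norm_integral_le_of_norm_le zero_le_one (g := fun u => fejKer J (x - u))
    (MeasureTheory.ae_of_all _ fun u _ => ?_) ?_).trans_eq (integral_fejKer hJ x)
  · rw [← sum_mul, norm_mul, Real.norm_eq_abs, Real.norm_eq_abs, abs_of_nonneg (fejKer_nonneg _ _)]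
    exact mul_le_of_le_one_left (fejKer_nonneg _ _) (abs_sum_sqw_shift hm u)
  · exact ((continuous_fejKer J).comp (by fun_prop)).intervalIntegrable _ _

lemma sum_sq_multCoef_le {J m : ℕ} (hJ : 0 < J) (hm : 0 < m) :
    ∑ j ∈ Icc (-(J : ℤ)) J, multCoef J m j ^ 2 ≤ 1 / m := by
  have hJR : (0 : ℝ) < J := by exact_mod_cast hJ
  have h1 : ∀ j, multCoef J m j ^ 2 ≤ multCoef J m j * sqc j := fun j => by
    unfold multCoef fejCoef
    split_ifs
    · set w : ℝ := ((fejPairs J j).card : ℝ) / J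
      have hw0 : 0 ≤ w := by positivity
      have hw1 : w ≤ 1 := by
        rw [div_le_one hJR]
        exact_mod_cast fejPairs_card_le J j
      nlinarith [mul_le_mul_of_nonneg_left hw1 hw0, sq_nonneg (sqc j)]
    · simp
  refine (sum_le_sum fun j _ => h1 j).trans ?_
  have hi : ∀ j ∈ Icc (-(J : ℤ)) J, IntervalIntegrable
      (fun u => multCoef J m j * (sqw u * Real.cos (2 * Real.pi * j * u))) MeasureTheory.volume 0 1 :=
    fun j _ => (intervalIntegrable_sqw_mul (by fun_prop) 0 1).const_mul _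
  have h2 : ∑ j ∈ Icc (-(J : ℤ)) J, multCoef J m j * sqc j =
      ∫ u in (0 : ℝ)..1, sqw u * cosPoly J (multCoef J m) u := by
    simp only [sqc, ← intervalIntegral.integral_const_mul]
    rw [← intervalIntegral.integral_finsetSum hi]
    refine intervalIntegral.integral_congr fun u _ => ?_
    simp only [cosPoly, mul_sum]
    exact sum_congr rfl fun j _ => by ring
  rw [h2]
  refine (Real.le_norm_self _).trans ((intervalIntegral.norm_integral_le_of_norm_le_const
    (C := 1 / (m : ℝ)) fun u _ => ?_).trans_eq (by simp))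
  rw [norm_mul, Real.norm_eq_abs, Real.norm_eq_abs]
  exact (mul_le_mul (abs_sqw_le u) (abs_cosPoly_multCoef hJ hm u) (abs_nonneg _) zero_le_one).trans_eq
    (one_mul _)

lemma exists_fejer {ε : ℝ} (hε : 0 < ε) :
    ∃ J : ℕ, 0 < J ∧ 1 - ε ≤ ∑ j ∈ Icc (-(J : ℤ)) J, multCoef J 1 j ^ 2 := by
  obtain ⟨s, hs⟩ := Filter.eventually_atTop.1
    (hasSum_sqc.eventually (eventually_gt_nhds (show 1 - ε / 2 < 1 by linarith)))
  have hs' := hs s le_rfl
  set B := s.sup Int.natAbs
  set δ := min (ε / 4) (1 / 2) with hδ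
  have hδ0 : 0 < δ := lt_min (by linarith) (by norm_num)
  obtain ⟨J, hJ⟩ := exists_nat_gt ((B + 1 : ℕ) / δ : ℝ)
  have hJ0 : (0 : ℝ) < J := lt_of_le_of_lt (by positivity) hJ
  rw [div_lt_iff₀ hδ0] at hJ
  have hδ2 : δ ≤ 1 / 2 := min_le_right _ _
  have hBJ : B ≤ J := by
    have : ((B + 1 : ℕ) : ℝ) ≤ J := by nlinarith
    have : B + 1 ≤ J := by exact_mod_cast this
    omega
  refine ⟨J, by exact_mod_cast hJ0, ?_⟩
  have hsub : s ⊆ Icc (-(J : ℤ)) J := fun j hj => by
    have : j.natAbs ≤ J := (le_sup (f := Int.natAbs) hj).trans hBJ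
    rw [mem_Icc]
    omega
  have hterm : ∀ j ∈ s, (1 - δ) ^ 2 * sqc j ^ 2 ≤ multCoef J 1 j ^ 2 := fun j hj => by
    simp only [multCoef, fejCoef, Nat.cast_one, one_dvd, if_true, mul_pow]
    refine mul_le_mul_of_nonneg_right (pow_le_pow_left₀ (by linarith) ?_ 2) (sq_nonneg _)
    rw [le_div_iff₀ hJ0]
    have h1 : J ≤ (fejPairs J j).card + B := by
      have := fejPairs_card_ge J j
      have := le_sup (f := Int.natAbs) hj
      omega
    have h1' : (J : ℝ) ≤ ((fejPairs J j).card : ℝ) + B := by exact_mod_cast h1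
    push_cast at hJ
    nlinarith
  have h2 : (1 - δ) ^ 2 * ∑ j ∈ s, sqc j ^ 2 ≤ ∑ j ∈ Icc (-(J : ℤ)) J, multCoef J 1 j ^ 2 := by
    rw [mul_sum]
    exact (sum_le_sum hterm).trans (sum_le_sum_of_subset_of_nonneg hsub fun j _ _ => sq_nonneg _)
  have hδ4 : δ ≤ ε / 4 := min_le_left _ _
  have hA : (1 - δ) ^ 2 * (1 - ε / 2) ≤ (1 - δ) ^ 2 * ∑ j ∈ s, sqc j ^ 2 :=
    mul_le_mul_of_nonneg_left hs'.le (sq_nonneg _)
  have h0 : 0 ≤ (1 - δ) ^ 2 * ∑ j ∈ s, sqc j ^ 2 :=
    mul_nonneg (sq_nonneg _) (sum_nonneg fun j _ => sq_nonneg _)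
  rcases le_or_gt 1 ε with h1 | h1
  · linarith
  · nlinarith [mul_nonneg hδ0.le hε.le, mul_nonneg (sq_nonneg δ) (by linarith : 0 ≤ 1 - ε / 2)]

lemma cosPoly_ofReal {J : ℕ} {b : ℤ → ℝ} (hb : ∀ j, b (-j) = b j) (x : ℝ) :
    (cosPoly J b x : ℂ) = ∑ j ∈ Icc (-(J : ℤ)) J, (b j : ℂ) * ee (j * x) := by
  apply Complex.ext
  · simp only [Complex.ofReal_re, Complex.re_sum, Complex.re_ofReal_mul, (ee_int_mul _ _).1]
    rfl
  · simp only [Complex.ofReal_im, Complex.im_sum, Complex.im_ofReal_mul, (ee_int_mul _ _).2]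
    have h : ∑ j ∈ Icc (-(J : ℤ)) J, b j * Real.sin (2 * Real.pi * j * x) =
        ∑ j ∈ Icc (-(J : ℤ)) J, -(b j * Real.sin (2 * Real.pi * j * x)) :=
      sum_nbij' Neg.neg Neg.neg
        (fun j hj => by simp only [mem_Icc] at hj ⊢; omega)
        (fun j hj => by simp only [mem_Icc] at hj ⊢; omega)
        (fun j _ => neg_neg j) (fun j _ => neg_neg j) fun j _ => by
          simp [hb, mul_neg, neg_mul, Real.sin_neg]
    rw [sum_neg_distrib] at h
    linarith

lemma prod_cosPoly {L J : ℕ} {b : ℤ → ℝ} (hb : ∀ j, b (-j) = b j) (φ : Fin L → ℝ) :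
    ∏ i, cosPoly J b (φ i) = ∑ k ∈ Fintype.piFinset (fun _ : Fin L => Icc (-(J : ℤ)) J),
      (∏ i, b (k i)) * Real.cos (2 * Real.pi * dot k φ) := by
  have h : ((∏ i, cosPoly J b (φ i) : ℝ) : ℂ) = ∑ k ∈ Fintype.piFinset
      (fun _ : Fin L => Icc (-(J : ℤ)) J), ((∏ i, b (k i) : ℝ) : ℂ) * ee (dot k φ) := by
    push_cast
    simp only [cosPoly_ofReal hb]
    rw [prod_univ_sum]
    refine sum_congr rfl fun k _ => ?_
    rw [prod_mul_distrib]
    congr 1
    unfold ee dot
    rw [← Complex.exp_sum]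
    congr 1
    push_cast
    simp only [mul_sum, sum_mul]
  have h' := congrArg Complex.re h
  simp only [Complex.ofReal_re, Complex.re_sum, Complex.re_ofReal_mul] at h'
  rw [h']
  refine sum_congr rfl fun k _ => ?_
  congr 1
  unfold ee
  rw [show 2 * (Real.pi : ℂ) * (dot k φ : ℂ) * Complex.I =
    ((2 * Real.pi * dot k φ : ℝ) : ℂ) * Complex.I by push_cast; rfl, Complex.exp_ofReal_mul_I_re]

/-- The greatest common divisor of the entries. -/
def vecGcd {L : ℕ} (k : Fin L → ℤ) : ℕ := univ.gcd fun i => (k i).natAbs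

lemma sum_moebius_dvd {g J : ℕ} (hg : 0 < g) (hgJ : g ≤ J) :
    (∑ m ∈ Icc 1 J, if m ∣ g then (ArithmeticFunction.moebius m : ℝ) else 0) =
      if g = 1 then 1 else 0 := by
  rw [← sum_filter, show (Icc 1 J).filter (· ∣ g) = g.divisors by
    ext m
    simp only [mem_filter, mem_Icc, Nat.mem_divisors]
    exact ⟨fun h => ⟨h.2, hg.ne'⟩, fun h => ⟨⟨Nat.pos_of_dvd_of_pos h.1 hg,
      (Nat.le_of_dvd hg h.1).trans hgJ⟩, h.1⟩⟩]
  have h := ArithmeticFunction.coe_mul_zeta_apply (f := ArithmeticFunction.moebius) (x := g)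
  rw [ArithmeticFunction.moebius_mul_coe_zeta, ArithmeticFunction.one_apply] at h
  have h2 := congrArg (fun z : ℤ => (z : ℝ)) h
  push_cast at h2
  exact h2.symm

lemma prod_multCoef {L : ℕ} (J m : ℕ) (k : Fin L → ℤ) :
    ∏ i, multCoef J m (k i) = if m ∣ vecGcd k then ∏ i, multCoef J 1 (k i) else 0 := by
  split_ifs with h
  · refine prod_congr rfl fun i _ => ?_
    simp only [multCoef, Nat.cast_one, one_dvd, if_true]
    rw [if_pos]
    rw [Int.natCast_dvd]
    exact dvd_trans h (gcd_dvd (mem_univ i))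
  · obtain ⟨i, hi⟩ : ∃ i, ¬(m : ℤ) ∣ k i := by
      by_contra hne
      push Not at hne
      exact h (Finset.dvd_gcd fun i _ => Int.natCast_dvd.1 (hne i))
    exact prod_eq_zero (mem_univ i) (if_neg hi)

lemma entry_ne_zero {L J : ℕ} {k : Fin L → ℤ} (h : ∏ i, multCoef J 1 (k i) ≠ 0) (i : Fin L) :
    k i ≠ 0 := fun h0 => h (prod_eq_zero (mem_univ i) (by simp [multCoef, fejCoef, h0, sqc_zero]))

lemma moebius_inversion {L J : ℕ} (hL : 0 < L) {k : Fin L → ℤ}
    (hk : k ∈ Fintype.piFinset (fun _ : Fin L => Icc (-(J : ℤ)) J)) (n : ℕ) (hn : n ≠ 0) :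
    ∑ m ∈ Icc 1 J, (ArithmeticFunction.moebius m : ℝ) * (∏ i, multCoef J m (k i)) ^ n =
      if vecGcd k = 1 then (∏ i, multCoef J 1 (k i)) ^ n else 0 := by
  rw [sum_congr rfl fun m _ => show (ArithmeticFunction.moebius m : ℝ) * (∏ i, multCoef J m (k i)) ^ n =
    (ArithmeticFunction.moebius m : ℝ) *
      (if m ∣ vecGcd k then ∏ i, multCoef J 1 (k i) else 0) ^ n by rw [prod_multCoef J m k]]
  by_cases hC : ∏ i, multCoef J 1 (k i) = 0
  · simp only [hC, ite_self, zero_pow hn, mul_zero, sum_const_zero]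
  · have hd : vecGcd k ∣ (k ⟨0, hL⟩).natAbs := gcd_dvd (mem_univ _)
    have h0 : 0 < (k ⟨0, hL⟩).natAbs := Int.natAbs_pos.2 (entry_ne_zero hC _)
    have hle : vecGcd k ≤ J := (Nat.le_of_dvd h0 hd).trans (by
      have := mem_Icc.1 (Fintype.mem_piFinset.1 hk ⟨0, hL⟩)
      omega)
    have h := sum_moebius_dvd (Nat.pos_of_dvd_of_pos hd h0) hle
    calc _ = (∑ m ∈ Icc 1 J, if m ∣ vecGcd k then (ArithmeticFunction.moebius m : ℝ) else 0) *
          (∏ i, multCoef J 1 (k i)) ^ n := by
          rw [sum_mul]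
          refine sum_congr rfl fun m _ => ?_
          split_ifs <;> simp [hn]
      _ = _ := by rw [h]; split_ifs <;> simp

lemma sum_inv_pow_le (J : ℕ) {L : ℕ} (hL : 2 ≤ L) :
    ∑ m ∈ Icc 2 J, (1 / (m : ℝ)) ^ L ≤ (1 / 2) ^ (L - 2) := by
  have hkey : ∀ J : ℕ, 1 ≤ J → ∑ m ∈ Icc 2 J, (1 / (m : ℝ)) ^ 2 ≤ 1 - 1 / (J : ℝ) := by
    intro J hJ
    induction J, hJ using Nat.le_induction with
    | base => simp
    | succ n hn ih =>
      rw [sum_Icc_succ_top (by omega)]
      have hn' : (1 : ℝ) ≤ n := by exact_mod_cast hn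
      have : (1 / ((n + 1 : ℕ) : ℝ)) ^ 2 ≤ 1 / (n : ℝ) - 1 / ((n + 1 : ℕ) : ℝ) := by
        push_cast
        rw [div_pow, one_pow, div_sub_div _ _ (by positivity) (by positivity),
          div_le_div_iff₀ (by positivity) (by positivity)]
        nlinarith
      push_cast at this ih ⊢
      linarith
  have h2 : ∑ m ∈ Icc 2 J, (1 / (m : ℝ)) ^ 2 ≤ 1 := by
    rcases Nat.eq_zero_or_pos J with rfl | hJ
    · simp
    · linarith [hkey J hJ, show (0 : ℝ) ≤ 1 / J by positivity]
  calc ∑ m ∈ Icc 2 J, (1 / (m : ℝ)) ^ L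
      ≤ ∑ m ∈ Icc 2 J, (1 / 2 : ℝ) ^ (L - 2) * (1 / (m : ℝ)) ^ 2 := by
        refine sum_le_sum fun m hm => ?_
        have hm2 : (2 : ℝ) ≤ m := by exact_mod_cast (mem_Icc.1 hm).1
        rw [← pow_sub_mul_pow (1 / (m : ℝ)) hL]
        gcongr
    _ ≤ _ := by
        rw [← mul_sum]
        exact mul_le_of_le_one_right (by positivity) h2

theorem exists_profile (η : ℝ) (hη : 0 < η) : Nonempty (Profile η) := by
  obtain ⟨t, ht⟩ := exists_pow_lt_of_lt_one (half_pos hη) (show (1 / 2 : ℝ) < 1 by norm_num)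
  set L := t + 2 with hLdef
  have hL : 0 < L := by omega
  have htail : (1 / 2 : ℝ) ^ (L - 2) ≤ η / 2 := by simpa [hLdef] using ht.le
  have hLR : (0 : ℝ) < L := by exact_mod_cast hL
  obtain ⟨J, hJ, hS⟩ := exists_fejer (ε := min 1 (η / (2 * L))) (lt_min one_pos (by positivity))
  set box := Fintype.piFinset (fun _ : Fin L => Icc (-(J : ℤ)) J) with hbox
  set C : (Fin L → ℤ) → ℝ := fun k => ∏ i, multCoef J 1 (k i) with hCdef
  set P := box.filter fun k => vecGcd k = 1 ∧ C k ≠ 0 with hPdef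
  set H := P.filter fun k => 0 < k ⟨0, hL⟩ with hHdef
  have hCneg : ∀ k, C (-k) = C k := fun k => prod_congr rfl fun i _ => multCoef_neg _ _ _
  have hP : ∀ k ∈ P, -k ∈ P := fun k hk => by
    simp only [hPdef, mem_filter, hbox, Fintype.mem_piFinset, mem_Icc, Pi.neg_apply] at hk ⊢
    refine ⟨fun i => ⟨by linarith [hk.1 i], by linarith [hk.1 i]⟩, ?_, by rw [hCneg]; exact hk.2.2⟩
    rw [← hk.2.1]
    simp [vecGcd]
  have hhalf : ∀ F : (Fin L → ℤ) → ℝ, (∀ k, F (-k) = F k) →
      ∑ k ∈ P, F k = 2 * ∑ k ∈ H, F k := fun F hF => by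
    rw [← sum_filter_add_sum_filter_not P (fun k => 0 < k ⟨0, hL⟩), ← hHdef, two_mul]
    congr 1
    refine sum_nbij' Neg.neg Neg.neg (fun k hk => ?_) (fun k hk => ?_) (fun k _ => neg_neg k)
      (fun k _ => neg_neg k) fun k _ => (hF k).symm
    · simp only [mem_filter, hHdef, Pi.neg_apply] at hk ⊢
      have := entry_ne_zero (mem_filter.1 hk.1).2.2 ⟨0, hL⟩
      exact ⟨hP k hk.1, by omega⟩
    · simp only [mem_filter, hHdef, Pi.neg_apply] at hk ⊢
      exact ⟨hP k hk.1, by omega⟩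
  have hall : ∀ (n : ℕ), n ≠ 0 → ∀ F : (Fin L → ℤ) → ℝ,
      ∑ k ∈ P, C k ^ n * F k = ∑ m ∈ Icc 1 J, (ArithmeticFunction.moebius m : ℝ) *
        ∑ k ∈ box, (∏ i, multCoef J m (k i)) ^ n * F k := fun n hn F => by
    simp only [mul_sum]
    rw [sum_comm, hPdef, sum_filter]
    refine sum_congr rfl fun k hk => ?_
    simp only [← mul_assoc]
    rw [← sum_mul, moebius_inversion hL hk n hn]
    by_cases h1 : vecGcd k = 1 <;> by_cases h2 : C k = 0 <;> simp [h1, hn, hCdef] <;> simp_all
  have hsplit : Icc 1 J = insert 1 (Icc 2 J) := by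
    ext m
    simp only [mem_Icc, mem_insert]
    omega
  have hμ : ∀ m, |(ArithmeticFunction.moebius m : ℝ)| ≤ 1 := fun m => by
    exact_mod_cast ArithmeticFunction.abs_moebius_le_one
  have hsupP : ∀ φ : Fin L → ℝ,
      |∑ k ∈ P, C k * Real.cos (2 * Real.pi * dot k φ)| ≤ 1 + η := fun φ => by
    have h := hall 1 one_ne_zero fun k => Real.cos (2 * Real.pi * dot k φ)
    simp only [pow_one] at h
    have hp : ∀ m, ∑ k ∈ box, (∏ i, multCoef J m (k i)) * Real.cos (2 * Real.pi * dot k φ) =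
        ∏ i, cosPoly J (multCoef J m) (φ i) := fun m => (prod_cosPoly (multCoef_neg J m) φ).symm
    simp only [hp] at h
    have hb : ∀ m, 0 < m → |(ArithmeticFunction.moebius m : ℝ) *
        ∏ i, cosPoly J (multCoef J m) (φ i)| ≤ (1 / (m : ℝ)) ^ L := fun m hm => by
      rw [abs_mul, abs_prod]
      refine (mul_le_of_le_one_left (prod_nonneg fun i _ => abs_nonneg _) (hμ m)).trans ?_
      refine (prod_le_prod (fun i _ => abs_nonneg _)
        fun i _ => abs_cosPoly_multCoef hJ hm _).trans_eq ?_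
      simp
    rw [h, hsplit, sum_insert (by simp)]
    refine (abs_add_le _ _).trans (add_le_add ((hb 1 one_pos).trans_eq (by simp)) ?_)
    refine (abs_sum_le_sum_abs _ _).trans ((sum_le_sum fun m hm => hb m (by
      have := (mem_Icc.1 hm).1; omega)).trans ?_)
    exact (sum_inv_pow_le J (by omega)).trans (by linarith)
  have hlowP : 1 - η ≤ ∑ k ∈ P, C k ^ 2 := by
    have h := hall 2 two_ne_zero fun _ => 1
    simp only [mul_one] at h
    have hp : ∀ m, ∑ k ∈ box, (∏ i, multCoef J m (k i)) ^ 2 =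
        (∑ j ∈ Icc (-(J : ℤ)) J, multCoef J m j ^ 2) ^ L := fun m => by
      simp only [← prod_pow, hbox]
      rw [← prod_univ_sum (fun _ : Fin L => Icc (-(J : ℤ)) J) fun _ j => multCoef J m j ^ 2]
      simp
    simp only [hp] at h
    rw [h, hsplit, sum_insert (by simp), ArithmeticFunction.moebius_apply_one, Int.cast_one, one_mul]
    set S := ∑ j ∈ Icc (-(J : ℤ)) J, multCoef J 1 j ^ 2
    have hS0 : 0 ≤ S := sum_nonneg fun j _ => sq_nonneg _
    have hB := one_add_mul_le_pow (show (-2 : ℝ) ≤ S - 1 by linarith) L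
    rw [add_sub_cancel] at hB
    have hLS : (L : ℝ) * (1 - S) ≤ η / 2 := by
      have h1 : 1 - S ≤ η / (2 * L) := by linarith [min_le_right (1 : ℝ) (η / (2 * L))]
      exact (mul_le_mul_of_nonneg_left h1 hLR.le).trans_eq (by field_simp)
    have hT : -(η / 2) ≤ ∑ m ∈ Icc 2 J, (ArithmeticFunction.moebius m : ℝ) *
        (∑ j ∈ Icc (-(J : ℤ)) J, multCoef J m j ^ 2) ^ L := by
      refine le_trans (neg_le_neg ((sum_inv_pow_le J (by omega)).trans htail)) ?_
      rw [← sum_neg_distrib]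
      refine sum_le_sum fun m hm => ?_
      have hm0 : 0 < m := by have := (mem_Icc.1 hm).1; omega
      have h1 := pow_le_pow_left₀ (sum_nonneg fun j _ => sq_nonneg _)
        (sum_sq_multCoef_le hJ hm0) L
      have h0 : 0 ≤ (∑ j ∈ Icc (-(J : ℤ)) J, multCoef J m j ^ 2) ^ L :=
        pow_nonneg (sum_nonneg fun j _ => sq_nonneg _) _
      nlinarith [(abs_le.1 (hμ m)).1]
    linarith
  let e := H.equivFin.symm
  refine ⟨⟨L, H.card, fun i => (e i).1, fun i => C (e i).1, fun i h0 => ?_, fun i j hij a b hab => ?_,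
    fun i => (mem_filter.1 (mem_filter.1 (e i).2).1).2.2, ?_, fun φ => ?_⟩⟩
  · have := (mem_filter.1 (e i).2).2
    simp [h0] at this
  · set u := (e i).1
    set v := (e j).1
    have hu := mem_filter.1 (e i).2
    have hv := mem_filter.1 (e j).2
    have hgu : vecGcd u = 1 := (mem_filter.1 hu.1).2.1
    have hgv : vecGcd v = 1 := (mem_filter.1 hv.1).2.1
    have habs : a.natAbs = b.natAbs := by
      have : (fun l => a.natAbs * (u l).natAbs) = fun l => b.natAbs * (v l).natAbs := funext fun l => by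
        rw [← Int.natAbs_mul, ← Int.natAbs_mul, show a * u l = -(b * v l) by linarith [hab l],
          Int.natAbs_neg]
      have h := congrArg (fun f => univ.gcd f) this
      simp only [Finset.gcd_mul_left, normalize_eq] at h
      change a.natAbs * vecGcd u = b.natAbs * vecGcd v at h
      rwa [hgu, hgv, mul_one, mul_one] at h
    by_contra hne
    have ha : a ≠ 0 := fun ha => hne ⟨ha, by rw [ha] at habs; exact Int.natAbs_eq_zero.1 habs.symm⟩
    rcases Int.natAbs_eq_natAbs_iff.1 habs with rfl | rfl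
    · have h0 := hab ⟨0, hL⟩
      rw [← mul_add, mul_eq_zero] at h0
      rcases h0 with h0 | h0
      · exact ha h0
      · have := hu.2; have := hv.2; simp only [u, v] at h0; omega
    · refine hij (e.injective (Subtype.ext (funext fun l => ?_)))
      have h0 := hab l
      have h1 : b * (v l - u l) = 0 := by linarith
      rcases mul_eq_zero.1 h1 with h2 | h2
      · exact absurd (by rw [h2, neg_zero]) ha
      · exact (sub_eq_zero.1 h2).symm
  · have hsum : ∑ i, C (e i).1 ^ 2 = ∑ k ∈ H, C k ^ 2 :=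
      (e.sum_comp fun k => C k.1 ^ 2).trans (sum_coe_sort H fun k => C k ^ 2)
    rw [hsum, ← hhalf (fun k => C k ^ 2) fun k => by rw [hCneg]]
    exact hlowP
  · have hsum : ∑ i, C (e i).1 * Real.cos (2 * Real.pi * dot (e i).1 φ) =
        ∑ k ∈ H, C k * Real.cos (2 * Real.pi * dot k φ) :=
      (e.sum_comp fun k => C k.1 * Real.cos (2 * Real.pi * dot k.1 φ)).trans
        (sum_coe_sort H fun k => C k * Real.cos (2 * Real.pi * dot k φ))
    rw [hsum, ← hhalf (fun k => C k * Real.cos (2 * Real.pi * dot k φ)) fun k => by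
      simp [hCneg, dot]]
    exact hsupP φ

end Vale.Agent.P110.Flat
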