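import Vale.Agent.P110.Flat.RoundDyadic

/-! Uniform colouring bounds for trigonometric sums, from the rows at a fine grid. -/

namespace Vale.Agent.P110.Flat.RoundGrid

open Finset

/-- The grid form of the abstract colouring lemma. -/
def Core (C : ℝ) : Prop :=
  ∀ {J : Type} [Fintype J] (a : J → ℕ → ℝ) (u : J → ℝ) (W : ℝ) (s : Finset ℕ),
    (∀ j i, |a j i| ≤ 1) → (∀ j, 0 ≤ u j) → ∑ j, Real.exp (-u j) ≤ W →
      ∃ χ : ℕ → ℝ, (∀ i, χ i = 1 ∨ χ i = -1) ∧
        ∀ j, |∑ i ∈ s, χ i * a j i| ≤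
          C * Real.sqrt (s.card * (1 + u j + Real.log (1 + W / s.card)))

/-- The rows: position on the grid, order of the derivative, real or imaginary part. -/
noncomputable def row (N : ℕ) (j : Fin (8 * N) × Fin (N + 1) × Bool) (i : ℕ) : ℝ :=
  (if j.2.2 then Real.cos (2 * Real.pi * ((i : ℝ) * (j.1 : ℕ) / (8 * N)))
    else Real.sin (2 * Real.pi * ((i : ℝ) * (j.1 : ℕ) / (8 * N)))) *
      (min ((i : ℝ) / N) 1) ^ (j.2.1 : ℕ)

theorem sum_exp_le (P : ℕ) : ∑ p ∈ range P, Real.exp (-(p : ℝ)) ≤ 2 := by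
  have h1 : Real.exp (-1) ≤ 1 / 2 := by
    rw [Real.exp_neg, inv_eq_one_div]
    gcongr
    linarith [Real.add_one_le_exp (1 : ℝ)]
  calc ∑ p ∈ range P, Real.exp (-(p : ℝ)) ≤ ∑ p ∈ range P, (1 / 2 : ℝ) ^ p :=
        sum_le_sum fun p _ => by
          rw [show -(p : ℝ) = (p : ℝ) * (-1) by ring, Real.exp_nat_mul]
          exact pow_le_pow_left₀ (Real.exp_pos _).le h1 p
    _ ≤ 2 := sum_geometric_two_le P

theorem sum_weight_le (P : ℕ) : ∑ p ∈ range P, ((p : ℝ) + 6) * (1 / 2 : ℝ) ^ p ≤ 14 := by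
  have h : ∀ P : ℕ, ∑ p ∈ range P, ((p : ℝ) + 6) * (1 / 2 : ℝ) ^ p =
      14 - (2 * P + 14) * (1 / 2 : ℝ) ^ P := by
    intro P
    induction P with
    | zero => simp
    | succ P ih => rw [sum_range_succ, ih, pow_succ]; push_cast; ring
  rw [h]
  have : 0 ≤ (2 * (P : ℝ) + 14) * (1 / 2 : ℝ) ^ P := by positivity
  linarith

theorem ee_split (x : ℝ) :
    ee x = (Real.cos (2 * Real.pi * x) : ℂ) + (Real.sin (2 * Real.pi * x) : ℂ) * Complex.I := by
  rw [ee, Complex.ofReal_cos, Complex.ofReal_sin, ← Complex.exp_mul_I]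
  push_cast; ring_nf

theorem colour_of_core {C : ℝ} (hC : 0 ≤ C) (hcore : Core C) :
    RoundDyadic.Colour (28 * C + 2) := by
  intro N A hA hAne
  have hN : 0 < N := by
    obtain ⟨n, hn⟩ := hAne
    exact Nat.zero_lt_of_lt (mem_range.1 (hA hn))
  have hN' : (0 : ℝ) < N := Nat.cast_pos.2 hN
  have hm : (0 : ℝ) < A.card := Nat.cast_pos.2 hAne.card_pos
  have hmN : (A.card : ℝ) ≤ N := by exact_mod_cast (card_le_card hA).trans_eq (card_range N)
  have hl : 0 ≤ Real.log ((N : ℝ) / A.card) := Real.log_nonneg ((one_le_div hm).2 hmN)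
  obtain ⟨χ, hχ, hrow⟩ := hcore (row N) (fun j => ((j.2.1 : ℕ) : ℝ)) (32 * N) A
    (fun j i => by
      rw [row, abs_mul, abs_pow]
      refine mul_le_one₀ ?_ (by positivity) (pow_le_one₀ (abs_nonneg _) ?_)
      · split_ifs
        · exact Real.abs_cos_le_one _
        · exact Real.abs_sin_le_one _
      · rw [abs_of_nonneg (le_min (by positivity) zero_le_one)]; exact min_le_right _ _)
    (fun j => Nat.cast_nonneg _)
    (by
      rw [Fintype.sum_prod_type]
      simp only [Fintype.sum_prod_type, sum_const, card_univ, Fintype.card_fin,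
        nsmul_eq_mul]
      rw [← mul_sum, Fin.sum_univ_eq_sum_range (fun p => Real.exp (-(p : ℝ))), Fintype.card_bool]
      push_cast
      nlinarith [sum_exp_le (N + 1), hN'])
  refine ⟨χ, hχ, fun θ => ?_⟩
  set L := Real.sqrt (A.card * (1 + Real.log ((N : ℝ) / A.card))) with hL
  have hL1 : 1 ≤ L := by
    rw [hL, Real.one_le_sqrt]
    have : (1 : ℝ) ≤ A.card := by exact_mod_cast hAne.card_pos
    nlinarith
  have hrow' : ∀ j : Fin (8 * N) × Fin (N + 1) × Bool,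
      |∑ i ∈ A, χ i * row N j i| ≤ C * (((j.2.1 : ℕ) : ℝ) + 6) * L := fun j => by
    refine (hrow j).trans ?_
    rw [mul_assoc]
    refine mul_le_mul_of_nonneg_left ?_ hC
    have hlog : Real.log (1 + 32 * (N : ℝ) / A.card) ≤ 32 + Real.log ((N : ℝ) / A.card) := by
      have h1 : 1 + 32 * (N : ℝ) / A.card ≤ 33 * ((N : ℝ) / A.card) := by
        rw [mul_div_assoc]
        linarith [(one_le_div hm).2 hmN]
      refine (Real.log_le_log (by positivity) h1).trans ?_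
      rw [Real.log_mul (by norm_num) (by positivity)]
      linarith [Real.log_le_sub_one_of_pos (by norm_num : (0 : ℝ) < 33)]
    rw [hL, ← Real.sqrt_sq (by positivity : (0 : ℝ) ≤ ((j.2.1 : ℕ) : ℝ) + 6),
      ← Real.sqrt_mul (sq_nonneg _)]
    refine Real.sqrt_le_sqrt ?_
    have hp : (0 : ℝ) ≤ ((j.2.1 : ℕ) : ℝ) := Nat.cast_nonneg _
    have h36 : 1 + ((j.2.1 : ℕ) : ℝ) + 32 + Real.log ((N : ℝ) / A.card) ≤
        (((j.2.1 : ℕ) : ℝ) + 6) ^ 2 * (1 + Real.log ((N : ℝ) / A.card)) := by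
      nlinarith [mul_nonneg hl (sq_nonneg ((j.2.1 : ℕ) : ℝ)), mul_nonneg hl hp, sq_nonneg ((j.2.1 : ℕ) : ℝ)]
    calc (A.card : ℝ) * (1 + ((j.2.1 : ℕ) : ℝ) + Real.log (1 + 32 * (N : ℝ) / A.card))
        ≤ (A.card : ℝ) * ((((j.2.1 : ℕ) : ℝ) + 6) ^ 2 * (1 + Real.log ((N : ℝ) / A.card))) :=
          mul_le_mul_of_nonneg_left (by linarith) hm.le
      _ = _ := by ring
  -- the nearest grid point
  set M : ℝ := 8 * N with hM
  have hM0 : 0 < M := by positivity
  set z := round (θ * M)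
  set t := θ - (z : ℝ) / M with ht
  have htb : |t| ≤ 1 / (2 * M) := by
    have h := abs_sub_round (θ * M)
    rw [show t = (θ * M - z) / M by rw [ht]; field_simp, abs_div, abs_of_pos hM0,
      div_le_div_iff₀ hM0 (by positivity)]
    nlinarith
  have hMz : ((8 * N : ℕ) : ℤ) ≠ 0 := by positivity
  obtain ⟨l, hl'⟩ : ∃ l : Fin (8 * N), ((l : ℕ) : ℤ) = z % ((8 * N : ℕ) : ℤ) := by
    refine ⟨⟨(z % ((8 * N : ℕ) : ℤ)).toNat, ?_⟩, Int.toNat_of_nonneg (Int.emod_nonneg _ hMz)⟩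
    have := Int.emod_lt_of_pos z (b := ((8 * N : ℕ) : ℤ)) (by positivity)
    omega
  have hphase : ∀ i : ℕ, ee (i * θ) = ee ((i : ℝ) * (l : ℕ) / M) * ee (i * t) := fun i => by
    have he : ee (i * θ) = ee ((i : ℝ) * (z : ℝ) / M) * ee (i * t) := by
      rw [ee, ee, ee, ← Complex.exp_add]; congr 1; rw [ht]; push_cast; ring
    rw [he]; congr 1
    have hz : z = ((l : ℕ) : ℤ) + ((8 * N : ℕ) : ℤ) * (z / ((8 * N : ℕ) : ℤ)) := by
      rw [hl']; exact (Int.emod_add_mul_ediv z _).symm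
    rw [ee, ee, Complex.exp_eq_exp_iff_exists_int]
    refine ⟨i * (z / ((8 * N : ℕ) : ℤ)), ?_⟩
    set k := z / ((8 * N : ℕ) : ℤ)
    have hzr : (z : ℝ) = (l : ℕ) + M * k := by rw [hM]; exact_mod_cast hz
    rw [hzr]
    push_cast
    have : (M : ℂ) ≠ 0 := by exact_mod_cast hM0.ne'
    field_simp
  -- the Taylor expansion
  set x : ℕ → ℂ := fun i => ((2 * Real.pi * ((i : ℝ) * t) : ℝ) : ℂ) * Complex.I with hx
  set R : ℕ → ℂ := fun i => Complex.exp (x i) - ∑ p ∈ range (N + 1), x i ^ p / p.factorial with hR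
  set w : ℂ := ((2 * Real.pi * ((N : ℝ) * t) : ℝ) : ℂ) * Complex.I with hw
  have hwb : ‖w‖ ≤ 1 / 2 := by
    rw [hw, norm_mul, Complex.norm_I, mul_one, Complex.norm_real, Real.norm_eq_abs, abs_mul,
      abs_of_pos (by positivity : (0 : ℝ) < 2 * Real.pi), abs_mul, abs_of_pos hN']
    calc 2 * Real.pi * ((N : ℝ) * |t|) ≤ 2 * Real.pi * ((N : ℝ) * (1 / (2 * M))) := by gcongr
      _ = Real.pi / 8 := by rw [hM]; field_simp
      _ ≤ 1 / 2 := by linarith [Real.pi_le_four]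
  have hxw : ∀ i ∈ A, x i = w * ((min ((i : ℝ) / N) 1 : ℝ) : ℂ) := fun i hi => by
    have hi' : (i : ℝ) ≤ N := by exact_mod_cast (mem_range.1 (hA hi)).le
    rw [min_eq_left ((div_le_one hN').2 hi'), hx, hw]
    have : (N : ℂ) ≠ 0 := by exact_mod_cast hN.ne'
    push_cast
    field_simp
  have hRb : ∀ i ∈ A, ‖R i‖ ≤ 2 * (1 / 2 : ℝ) ^ (N + 1) := fun i hi => by
    have hxb : ‖x i‖ ≤ 1 / 2 := by
      rw [hxw i hi, norm_mul, Complex.norm_real, Real.norm_eq_abs,
        abs_of_nonneg (le_min (by positivity) zero_le_one)]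
      exact (mul_le_of_le_one_right (norm_nonneg _) (min_le_right _ _)).trans hwb
    refine (Complex.exp_bound (by linarith) (Nat.succ_pos N)).trans ?_
    rw [mul_comm 2]
    refine mul_le_mul (pow_le_pow_left₀ (norm_nonneg _) hxb _) ?_ (by positivity) (by positivity)
    rw [← div_eq_mul_inv, div_le_iff₀ (by positivity)]
    have h1 : (1 : ℝ) ≤ (N + 1).factorial := by exact_mod_cast Nat.factorial_pos _
    push_cast
    nlinarith
  set Sp : ℕ → ℂ := fun p =>
    ∑ i ∈ A, (χ i : ℂ) * ee ((i : ℝ) * (l : ℕ) / M) * ((min ((i : ℝ) / N) 1 : ℝ) : ℂ) ^ p with hSp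
  have hexp : ∑ i ∈ A, (χ i : ℂ) * ee (i * θ) =
      (∑ p ∈ range (N + 1), w ^ p / p.factorial * Sp p) +
        ∑ i ∈ A, (χ i : ℂ) * ee ((i : ℝ) * (l : ℕ) / M) * R i := by
    simp only [hSp, mul_sum]
    rw [sum_comm, ← sum_add_distrib]
    refine sum_congr rfl fun i hi => ?_
    have : ee (i * t) = (∑ p ∈ range (N + 1), x i ^ p / p.factorial) + R i := by
      rw [hR, ee, hx]; push_cast; ring_nf
    rw [hphase i, this, mul_add, mul_add, mul_sum, mul_sum, ← mul_assoc]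
    congr 1
    refine sum_congr rfl fun p _ => ?_
    rw [hxw i hi, mul_pow]; ring
  have hS : ∀ p ∈ range (N + 1), ‖Sp p‖ ≤ 2 * C * ((p : ℝ) + 6) * L := fun p hp => by
    have e : Sp p = ((∑ i ∈ A, χ i * row N (l, ⟨p, mem_range.1 hp⟩, true) i : ℝ) : ℂ) +
        ((∑ i ∈ A, χ i * row N (l, ⟨p, mem_range.1 hp⟩, false) i : ℝ) : ℂ) * Complex.I := by
      simp only [hSp, ee_split, row, hM, if_true, Bool.false_eq_true, if_false]
      push_cast
      rw [sum_mul, ← sum_add_distrib]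
      exact sum_congr rfl fun i _ => by ring
    rw [e]
    refine (norm_add_le _ _).trans ?_
    rw [norm_mul, Complex.norm_I, mul_one, Complex.norm_real, Complex.norm_real, Real.norm_eq_abs,
      Real.norm_eq_abs]
    have h1 := hrow' (l, ⟨p, mem_range.1 hp⟩, true)
    have h2 := hrow' (l, ⟨p, mem_range.1 hp⟩, false)
    simp only at h1 h2
    linarith
  rw [hexp]
  refine (norm_add_le _ _).trans ?_
  have h1 : ‖∑ p ∈ range (N + 1), w ^ p / p.factorial * Sp p‖ ≤ 28 * C * L := by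
    refine (norm_sum_le _ _).trans ((sum_le_sum fun p hp => ?_).trans (b :=
      ∑ p ∈ range (N + 1), 2 * C * L * (((p : ℝ) + 6) * (1 / 2 : ℝ) ^ p)) ?_)
    · rw [norm_mul, norm_div, norm_pow, Complex.norm_natCast]
      have hb : ‖w‖ ^ p / p.factorial ≤ (1 / 2 : ℝ) ^ p :=
        (div_le_self (by positivity) (by exact_mod_cast Nat.factorial_pos p)).trans
          (pow_le_pow_left₀ (norm_nonneg _) hwb p)
      calc ‖w‖ ^ p / p.factorial * ‖Sp p‖ ≤ (1 / 2 : ℝ) ^ p * (2 * C * ((p : ℝ) + 6) * L) :=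
            mul_le_mul hb (hS p hp) (norm_nonneg _) (by positivity)
        _ = _ := by ring
    · rw [← mul_sum]
      calc _ ≤ 2 * C * L * 14 := mul_le_mul_of_nonneg_left (sum_weight_le _) (by positivity)
        _ = _ := by ring
  have h2 : ‖∑ i ∈ A, (χ i : ℂ) * ee ((i : ℝ) * (l : ℕ) / M) * R i‖ ≤ 2 := by
    refine (norm_sum_le _ _).trans
      ((sum_le_sum (g := fun _ => 2 * (1 / 2 : ℝ) ^ (N + 1)) fun i hi => ?_).trans ?_)
    · rw [norm_mul, norm_mul, Complex.norm_real, Real.norm_eq_abs, ee, Complex.norm_exp]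
      rcases hχ i with h | h <;> simpa [h] using hRb i hi
    · rw [sum_const, nsmul_eq_mul]
      have h3 : (N : ℝ) ≤ 2 ^ (N + 1) := by
        exact_mod_cast ((Nat.lt_two_pow_self).le.trans (Nat.pow_le_pow_right two_pos N.le_succ))
      rw [one_div, inv_pow, ← mul_assoc, ← div_eq_mul_inv, div_le_iff₀ (by positivity)]
      linarith
  nlinarith

end Vale.Agent.P110.Flat.RoundGrid
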