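import Vale.Agent.P110.Flat.RoundColour
import Vale.Agent.P110.Flat.RoundGrid

/-! Rounding nearly binary coefficients to signs. -/

namespace Vale.Agent.P110.Flat

open Finset

theorem round_signs (c : ℝ) (hc : 0 < c) : ∃ η > 0, ∃ N₀ : ℕ, ∀ N, N₀ ≤ N → ∀ y : ℕ → ℝ,
    (∀ n, n < N → |y n| ≤ 1) → ∑ n ∈ range N, (1 - |y n|) ≤ η * N →
    ∃ ε : ℕ → ℝ, (∀ n, ε n = 1 ∨ ε n = -1) ∧
      ∀ θ : ℝ, ‖trig N ε θ - trig N y θ‖ ≤ c * Real.sqrt N := by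
  obtain ⟨C, hC, hcore⟩ := exists_colouring
  exact RoundDyadic.round_of_colour (by linarith : (0 : ℝ) ≤ 28 * C + 2)
    (RoundGrid.colour_of_core hC.le fun {J} _ a u W s => hcore a u W s) c hc

end Vale.Agent.P110.Flat
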