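import Mathlib

/-!
Partial colouring by entropy and counting, iterated to a full colouring: `exists_colouring`.
-/

namespace Vale.Agent.P110.Flat

open Finset

namespace ColourAux

/-- The sign of a Boolean. -/
def sgn (b : Bool) : ℝ := if b then 1 else -1

/-- The exponential moment of a signed sum. -/
theorem sum_exp_le {ι : Type*} [Fintype ι] [DecidableEq ι] (b : ι → ℝ) (hb : ∀ i, |b i| ≤ 1)
    (l : ℝ) : ∑ χ : ι → Bool, Real.exp (l * ∑ i, sgn (χ i) * b i) ≤
      2 ^ Fintype.card ι * Real.exp (Fintype.card ι * (l ^ 2 / 2)) := by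
  have e : ∀ χ : ι → Bool, Real.exp (l * ∑ i, sgn (χ i) * b i) =
      ∏ i, Real.exp (l * (sgn (χ i) * b i)) := fun χ => by rw [mul_sum, Real.exp_sum]
  simp only [e]
  rw [← Fintype.prod_sum (fun (i : ι) (c : Bool) => Real.exp (l * (sgn c * b i))),
    show (2 : ℝ) ^ Fintype.card ι * Real.exp (Fintype.card ι * (l ^ 2 / 2)) =
      ∏ _i : ι, 2 * Real.exp (l ^ 2 / 2) by
        rw [prod_const, card_univ, mul_pow, ← Real.exp_nat_mul]]
  refine prod_le_prod (fun i _ => by positivity) fun i _ => ?_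
  rw [Fintype.sum_bool]
  have h1 : l * (sgn true * b i) = l * b i := by simp [sgn]
  have h2 : l * (sgn false * b i) = -(l * b i) := by simp [sgn]
  rw [h1, h2]
  have h3 : Real.exp (l * b i) + Real.exp (-(l * b i)) = 2 * Real.cosh (l * b i) := by
    rw [Real.cosh_eq]; ring
  have h4 : (l * b i) ^ 2 ≤ l ^ 2 := by
    have h0 : (b i) ^ 2 ≤ 1 := by
      rw [← sq_abs]; exact pow_le_one₀ (abs_nonneg _) (hb i)
    calc (l * b i) ^ 2 = l ^ 2 * (b i) ^ 2 := mul_pow _ _ _
      _ ≤ l ^ 2 * 1 := mul_le_mul_of_nonneg_left h0 (sq_nonneg l)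
      _ = l ^ 2 := mul_one _
  rw [h3]
  refine mul_le_mul_of_nonneg_left ((Real.cosh_le_exp_half_sq _).trans ?_) (by norm_num)
  exact Real.exp_le_exp.2 (by linarith)

/-- The weight of a rounded value. -/
noncomputable def wt (δ : ℝ) (i : ℤ) : ℝ :=
  if i = 0 then 1 - δ else δ * (1 / 2) ^ (i.natAbs + 1)

theorem sum_wt (δ : ℝ) (R : ℕ) :
    ∑ i ∈ Icc (-(R : ℤ)) R, wt δ i = 1 - δ * (1 / 2) ^ R := by
  induction R with
  | zero => simp [wt]
  | succ R ih =>
    have e : Icc (-((R + 1 : ℕ) : ℤ)) ((R + 1 : ℕ) : ℤ) =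
        insert (-((R + 1 : ℕ) : ℤ)) (insert ((R + 1 : ℕ) : ℤ) (Icc (-(R : ℤ)) R)) := by
      ext x
      simp only [mem_Icc, mem_insert]
      omega
    rw [e, sum_insert (by simp only [mem_insert, mem_Icc]; omega),
      sum_insert (by simp only [mem_Icc]; omega), ih]
    have h1 : ((R + 1 : ℕ) : ℤ) ≠ 0 := by omega
    rw [wt, if_neg (neg_ne_zero.2 h1), wt, if_neg h1, Int.natAbs_neg, Int.natAbs_natCast,
      pow_succ _ (R + 1), pow_succ]
    ring

theorem delta_lt {D : ℝ} (hD : 1 ≤ D) : Real.exp (-(D / 2)) ≤ 2 / 3 := by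
  rw [Real.exp_neg, inv_eq_one_div, div_le_iff₀ (Real.exp_pos _)]
  linarith [Real.add_one_le_exp (D / 2)]

theorem cost_le {n Δ S : ℝ} (hn : 0 < n) (hΔ : 0 < Δ) (hD : 1 ≤ Δ ^ 2 / n) :
    -Real.log (wt (Real.exp (-(Δ ^ 2 / n / 2))) (round (S / (2 * Δ)))) ≤
      3 * Real.exp (-(Δ ^ 2 / n / 2)) + (Δ ^ 2 / n / 2 + 2) * Real.exp (-(Δ ^ 2 / n)) *
        (Real.exp (Δ / n * S) + Real.exp (-(Δ / n) * S)) := by
  set D := Δ ^ 2 / n with hDdef
  have hδ := delta_lt hD
  have hδ0 := Real.exp_pos (-(D / 2))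
  set b := round (S / (2 * Δ)) with hb
  by_cases h0 : b = 0
  · rw [h0, wt, if_pos rfl]
    have h1 : 0 < 1 - Real.exp (-(D / 2)) := by linarith
    have h2 := Real.log_le_sub_one_of_pos (inv_pos.2 h1)
    rw [Real.log_inv] at h2
    have h3 : (1 - Real.exp (-(D / 2)))⁻¹ - 1 ≤ 3 * Real.exp (-(D / 2)) := by
      rw [sub_le_iff_le_add, inv_eq_one_div, div_le_iff₀ h1]
      linarith [mul_nonneg hδ0.le (show 0 ≤ 2 - 3 * Real.exp (-(D / 2)) by linarith)]
    have h4 : 0 ≤ (D / 2 + 2) * Real.exp (-D) *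
        (Real.exp (Δ / n * S) + Real.exp (-(Δ / n) * S)) := by positivity
    linarith
  · have hy := abs_sub_round (S / (2 * Δ))
    rw [← hb] at hy
    have hb1 : (1 : ℝ) ≤ |(b : ℝ)| := by exact_mod_cast Int.one_le_abs h0
    have hyb : |(b : ℝ)| ≤ |S / (2 * Δ)| + 1 / 2 := by
      have := abs_sub_abs_le_abs_sub (b : ℝ) (S / (2 * Δ))
      rw [abs_sub_comm] at this
      linarith
    set x := |S| / Δ with hx
    have hy2 : |S / (2 * Δ)| = x / 2 := by
      rw [hx, abs_div, abs_mul, abs_of_pos hΔ, abs_two, div_div]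
      ring
    rw [hy2] at hyb
    have hx1 : 1 ≤ x := by linarith
    have hbx : |(b : ℝ)| ≤ x := by linarith
    rw [wt, if_neg h0, Real.log_mul hδ0.ne' (by positivity), Real.log_exp, Real.log_pow,
      one_div, Real.log_inv]
    have hna : ((b.natAbs + 1 : ℕ) : ℝ) = |(b : ℝ)| + 1 := by
      rw [Nat.cast_add_one, Nat.cast_natAbs, Int.cast_abs]
    rw [hna]
    have hl2 : Real.log 2 ≤ 1 := by linarith [Real.log_two_lt_d9]
    have hl20 : 0 ≤ Real.log 2 := Real.log_nonneg (by norm_num)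
    have hB : (|(b : ℝ)| + 1) * Real.log 2 ≤ x + 1 := by
      have h1 := mul_le_mul_of_nonneg_left hl2 (by positivity : 0 ≤ |(b : ℝ)| + 1)
      linarith
    set E := Real.exp (D * (x - 1)) with hE
    have hE1 : 1 ≤ E := Real.one_le_exp (by nlinarith)
    have hEx : x ≤ E := by
      have h1 : x - 1 ≤ D * (x - 1) := le_mul_of_one_le_left (by linarith) hD
      have h2 := Real.add_one_le_exp (D * (x - 1))
      linarith
    have hEE : E ≤ Real.exp (-D) * (Real.exp (Δ / n * S) + Real.exp (-(Δ / n) * S)) := by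
      have e1 : E = Real.exp (-D) * Real.exp (Δ / n * |S|) := by
        rw [hE, ← Real.exp_add, hx, hDdef]
        congr 1
        field_simp
        ring
      rw [e1]
      refine mul_le_mul_of_nonneg_left ?_ (Real.exp_pos _).le
      rcases abs_choice S with h | h <;> rw [h]
      · linarith [Real.exp_pos (-(Δ / n) * S)]
      · rw [show Δ / n * -S = -(Δ / n) * S by ring]
        linarith [Real.exp_pos (Δ / n * S)]
    have h5 : D / 2 + 1 + x ≤ (D / 2 + 2) * E := by
      linarith [mul_le_mul_of_nonneg_left hE1 (show 0 ≤ D / 2 + 1 by linarith)]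
    have h6 := h5.trans (mul_le_mul_of_nonneg_left hEE (by linarith : 0 ≤ D / 2 + 2))
    linarith

/-- Hamming balls are small. -/
theorem ball_card {ι : Type*} [Fintype ι] [DecidableEq ι] (χ₀ : ι → Bool) (k : ℕ) :
    (((univ : Finset (ι → Bool)).filter fun χ =>
      (univ.filter fun i => χ i ≠ χ₀ i).card ≤ k).card : ℝ) ≤
        (5 / 4) ^ Fintype.card ι * 4 ^ k := by
  set D : (ι → Bool) → Finset ι := fun χ => univ.filter fun i => χ i ≠ χ₀ i with hD
  have hinj : Function.Injective D := by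
    intro χ χ' h
    funext i
    have := Finset.ext_iff.1 h i
    simp only [hD, mem_filter, mem_univ, true_and] at this
    revert this
    cases χ i <;> cases χ' i <;> cases χ₀ i <;> simp
  have h1 : ((((univ : Finset (ι → Bool)).filter fun χ => (D χ).card ≤ k).card : ℝ)) ≤
      (((univ : Finset ι).powerset.filter fun A => A.card ≤ k).card : ℝ) := by
    refine Nat.cast_le.2 (card_le_card_of_injOn D ?_ hinj.injOn)
    intro χ hχ
    simp only [coe_filter, mem_univ, true_and, Set.mem_setOf_eq] at hχ ⊢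
    exact ⟨mem_powerset.2 (subset_univ _), hχ⟩
  refine h1.trans ?_
  set T := (univ : Finset ι).powerset.filter fun A => A.card ≤ k
  have h2 : (T.card : ℝ) ≤ ∑ A ∈ T, (1 / 4 : ℝ) ^ A.card * 4 ^ k := by
    rw [← nsmul_one, ← sum_const]
    refine sum_le_sum fun A hA => ?_
    have hAk := (mem_filter.1 hA).2
    rw [← Nat.sub_add_cancel hAk, pow_add, ← mul_assoc, mul_comm ((1 / 4 : ℝ) ^ A.card),
      mul_assoc, ← mul_pow]
    norm_num
    exact one_le_pow₀ (by norm_num)
  have h3 : ∑ A ∈ T, (1 / 4 : ℝ) ^ A.card * 4 ^ k ≤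
      ∑ A ∈ (univ : Finset ι).powerset, (1 / 4 : ℝ) ^ A.card * 4 ^ k :=
    sum_le_sum_of_subset_of_nonneg (filter_subset _ _) (fun _ _ _ => by positivity)
  refine h2.trans (h3.trans (le_of_eq ?_))
  rw [← sum_mul]
  congr 1
  have := Fintype.sum_pow_mul_eq_add_pow ι (1 / 4 : ℝ) 1
  simp only [one_pow, mul_one] at this
  rw [powerset_univ, this]
  norm_num

theorem numeric {n k : ℕ} (hn : 8 ≤ n) (hk : 10 * k ≤ n) :
    2 * ((5 / 4 : ℝ) ^ n * 4 ^ k) * Real.exp (n / 5) < 2 ^ n := by
  rw [← Real.log_lt_log_iff (by positivity) (by positivity), Real.log_mul (by positivity)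
    (by positivity), Real.log_mul (by norm_num) (by positivity), Real.log_mul (by positivity)
    (by positivity), Real.log_exp, Real.log_pow, Real.log_pow, Real.log_pow]
  have h1 : Real.log (5 / 4) ≤ 1 / 4 := by
    have := Real.log_le_sub_one_of_pos (show (0 : ℝ) < 5 / 4 by norm_num)
    linarith
  have h2 : Real.log 4 = 2 * Real.log 2 := by
    rw [show (4 : ℝ) = 2 ^ 2 by norm_num, Real.log_pow]; norm_num
  have hn' : (8 : ℝ) ≤ n := by exact_mod_cast hn
  have hk' : 10 * (k : ℝ) ≤ n := by exact_mod_cast hk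
  rw [h2]
  have h3 := Real.log_two_gt_d9
  have h4 := Real.log_two_lt_d9
  have p1 := mul_le_mul_of_nonneg_left h1 (by linarith : (0 : ℝ) ≤ n)
  have p2 := mul_le_mul_of_nonneg_right hk' (by linarith : 0 ≤ Real.log 2)
  have p3 := mul_lt_mul_of_pos_left h3 (by linarith : (0 : ℝ) < n)
  linarith

/-- Markov: at least half of a finite set has cost at most twice the average bound. -/
theorem half_good {α : Type*} [Fintype α] [DecidableEq α] (f : α → ℝ) (hf : ∀ x, 0 ≤ f x) {h : ℝ}
    (hh : 0 < h) (hsum : ∑ x, f x ≤ (Fintype.card α : ℝ) * h) :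
    (Fintype.card α : ℝ) ≤ 2 * (((univ : Finset α).filter fun x => f x ≤ 2 * h).card : ℝ) := by
  classical
  set g := ((univ : Finset α).filter fun x => f x ≤ 2 * h).card with hg
  set b := ((univ : Finset α).filter fun x => ¬ f x ≤ 2 * h).card with hb
  have h2 : g + b = Fintype.card α := by
    rw [hg, hb, card_filter_add_card_filter_not (fun x => f x ≤ 2 * h), card_univ]
  have h1 : (b : ℝ) * (2 * h) ≤ ∑ x, f x := by
    rw [hb, ← nsmul_eq_mul]
    refine (card_nsmul_le_sum _ f _ fun x hx => (lt_of_not_ge (mem_filter.1 hx).2).le).trans ?_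
    exact sum_le_sum_of_subset_of_nonneg (filter_subset _ _) fun x _ _ => hf x
  have h2' : (g : ℝ) + b = (Fintype.card α : ℝ) := by exact_mod_cast h2
  have h3 : (b : ℝ) * 2 ≤ (Fintype.card α : ℝ) :=
    le_of_mul_le_mul_right (by linarith) hh
  linarith

/-- The summed cost of one row. -/
theorem row_cost {ι : Type*} [Fintype ι] [DecidableEq ι] (b : ι → ℝ) (hb : ∀ i, |b i| ≤ 1)
    (hn : (0 : ℝ) < Fintype.card ι) {Δ : ℝ} (hΔ : 0 < Δ) (hD : 1 ≤ Δ ^ 2 / Fintype.card ι) :
    ∑ χ : ι → Bool, -Real.log (wt (Real.exp (-(Δ ^ 2 / Fintype.card ι / 2)))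
      (round ((∑ i, sgn (χ i) * b i) / (2 * Δ)))) ≤
      2 ^ Fintype.card ι * (16 * Real.exp (-(Δ ^ 2 / Fintype.card ι / 4))) := by
  set n := Fintype.card ι with hndef
  set D := Δ ^ 2 / (n : ℝ) with hDj
  refine (sum_le_sum fun χ _ => cost_le hn hΔ hD).trans ?_
  rw [← hDj, sum_add_distrib, sum_const, card_univ, nsmul_eq_mul, ← mul_sum, sum_add_distrib,
    Fintype.card_fun, Fintype.card_bool, ← hndef]
  have e1 := sum_exp_le b hb (Δ / n)
  have e2 := sum_exp_le b hb (-(Δ / n))
  rw [← hndef] at e1 e2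
  have e3 : (n : ℝ) * ((Δ / n) ^ 2 / 2) = D / 2 := by rw [hDj]; field_simp
  rw [e3] at e1
  rw [neg_sq, e3] at e2
  have hK : 0 ≤ (D / 2 + 2) * Real.exp (-D) := by positivity
  have e4 := mul_le_mul_of_nonneg_left (add_le_add e1 e2) hK
  push_cast
  refine (add_le_add le_rfl e4).trans ?_
  have e5 : Real.exp (-D) * Real.exp (D / 2) = Real.exp (-(D / 2)) := by
    rw [← Real.exp_add]; congr 1; ring
  have e6 : Real.exp (-(D / 2)) = Real.exp (-(D / 4)) * Real.exp (-(D / 4)) := by
    rw [← Real.exp_add]; congr 1; ring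
  have e7 : (D + 7) * Real.exp (-(D / 4)) ≤ 16 := by
    rw [Real.exp_neg, ← div_eq_mul_inv, div_le_iff₀ (Real.exp_pos _)]
    linarith [Real.add_one_le_exp (D / 4)]
  calc (2 : ℝ) ^ n * (3 * Real.exp (-(D / 2))) + (D / 2 + 2) * Real.exp (-D) *
        (2 ^ n * Real.exp (D / 2) + 2 ^ n * Real.exp (D / 2))
      = 2 ^ n * (3 * Real.exp (-(D / 2)) + (D + 4) * (Real.exp (-D) * Real.exp (D / 2))) := by
        ring
    _ = 2 ^ n * ((D + 7) * Real.exp (-(D / 4)) * Real.exp (-(D / 4))) := by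
        rw [e5, e6]; ring
    _ ≤ 2 ^ n * (16 * Real.exp (-(D / 4))) :=
        mul_le_mul_of_nonneg_left (mul_le_mul_of_nonneg_right e7 (Real.exp_pos _).le)
          (by positivity)

/-- The rounded profiles of cheap colourings are few. -/
theorem few_profiles {J κ : Type*} [Fintype J] [DecidableEq J] [Fintype κ] [DecidableEq κ]
    (δ : J → ℝ) (h0 : ∀ j, 0 ≤ δ j) (hwt0 : ∀ j i, 0 < wt (δ j) i) (b : κ → J → ℤ)
    (good : Finset κ) (H : ℝ) (hgood : ∀ χ ∈ good, ∑ j, -Real.log (wt (δ j) (b χ j)) ≤ H) :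
    ((good.image b).card : ℝ) * Real.exp (-H) ≤ 1 := by
  set R := univ.sup fun p : κ × J => (b p.1 p.2).natAbs with hR
  have hsub : good.image b ⊆ Fintype.piFinset fun _ : J => Icc (-(R : ℤ)) R := by
    intro β hβ
    obtain ⟨χ, -, rfl⟩ := mem_image.1 hβ
    rw [Fintype.mem_piFinset]
    intro j
    have : (b χ j).natAbs ≤ R := le_sup (f := fun p : κ × J => (b p.1 p.2).natAbs) (mem_univ (χ, j))
    rw [mem_Icc]
    omega
  have h1 : ((good.image b).card : ℝ) * Real.exp (-H) ≤
      ∑ β ∈ good.image b, ∏ j, wt (δ j) (β j) := by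
    rw [← nsmul_eq_mul]
    refine card_nsmul_le_sum _ _ _ fun β hβ => ?_
    obtain ⟨χ, hχ, rfl⟩ := mem_image.1 hβ
    rw [← Real.exp_log (prod_pos fun j _ => hwt0 j (b χ j)),
      Real.log_prod fun j _ => (hwt0 j (b χ j)).ne']
    refine Real.exp_le_exp.2 ?_
    have := hgood χ hχ
    rw [sum_neg_distrib] at this
    linarith
  refine h1.trans ((sum_le_sum_of_subset_of_nonneg hsub fun β _ _ =>
    prod_nonneg fun j _ => (hwt0 j _).le).trans ?_)
  rw [← prod_univ_sum (fun _ : J => Icc (-(R : ℤ)) R) fun j i => wt (δ j) i]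
  refine prod_le_one (fun j _ => sum_nonneg fun i _ => (hwt0 j i).le) fun j _ => ?_
  rw [sum_wt]
  linarith [mul_nonneg (h0 j) (show (0 : ℝ) ≤ (1 / 2) ^ R by positivity)]

/-- The partial colouring lemma. -/
theorem partial_colouring {J ι : Type*} [Fintype J] [Fintype ι] [DecidableEq ι]
    (a : J → ι → ℝ) (ha : ∀ j i, |a j i| ≤ 1) (Δ : J → ℝ) (hn : 8 ≤ Fintype.card ι)
    (hΔ : ∀ j, 0 < Δ j) (hD : ∀ j, (Fintype.card ι : ℝ) ≤ Δ j ^ 2)
    (hsum : ∑ j, 16 * Real.exp (-(Δ j ^ 2 / Fintype.card ι / 4)) ≤ (Fintype.card ι : ℝ) / 10) :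
    ∃ c : ι → ℝ, (∀ i, c i = 1 ∨ c i = -1 ∨ c i = 0) ∧
      10 * (univ.filter fun i => c i = 0).card ≤ 9 * Fintype.card ι ∧
      ∀ j, |∑ i, c i * a j i| ≤ Δ j := by
  classical
  set n := Fintype.card ι with hndef
  have hn0 : (0 : ℝ) < n := by
    have : 0 < n := by omega
    exact_mod_cast this
  set δ : J → ℝ := fun j => Real.exp (-(Δ j ^ 2 / n / 2)) with hδ
  set S : (ι → Bool) → J → ℝ := fun χ j => ∑ i, sgn (χ i) * a j i with hS
  set b : (ι → Bool) → J → ℤ := fun χ j => round (S χ j / (2 * Δ j)) with hbdef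
  set cost : (ι → Bool) → ℝ := fun χ => ∑ j, -Real.log (wt (δ j) (b χ j)) with hcost
  have hD1 : ∀ j, 1 ≤ Δ j ^ 2 / n := fun j => by
    rw [le_div_iff₀ hn0]; linarith [hD j]
  have hδ1 : ∀ j, δ j < 1 := fun j => lt_of_le_of_lt (delta_lt (hD1 j)) (by norm_num)
  have hwt0 : ∀ j i, 0 < wt (δ j) i := fun j i => by
    unfold wt
    split_ifs
    · linarith [hδ1 j]
    · exact mul_pos (Real.exp_pos _) (by positivity)
  have hwt1 : ∀ j i, wt (δ j) i ≤ 1 := fun j i => by
    unfold wt
    split_ifs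
    · linarith [Real.exp_pos (-(Δ j ^ 2 / n / 2))]
    · exact mul_le_one₀ (hδ1 j).le (by positivity) (pow_le_one₀ (by norm_num) (by norm_num))
  have hcost0 : ∀ χ, 0 ≤ cost χ := fun χ => sum_nonneg fun j _ => by
    linarith [Real.log_nonpos (hwt0 j (b χ j)).le (hwt1 j (b χ j))]
  have htot : ∑ χ, cost χ ≤ (Fintype.card (ι → Bool) : ℝ) * ((n : ℝ) / 10) := by
    rw [hcost, sum_comm, Fintype.card_fun, Fintype.card_bool, ← hndef]
    refine (sum_le_sum fun j _ => row_cost (a j) (ha j) hn0 (hΔ j) (hD1 j)).trans ?_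
    rw [← mul_sum]
    push_cast
    exact mul_le_mul_of_nonneg_left hsum (by positivity)
  set good := (univ : Finset (ι → Bool)).filter fun χ => cost χ ≤ 2 * ((n : ℝ) / 10) with hgood
  have hgoodcard : (2 : ℝ) ^ n ≤ 2 * good.card := by
    have := half_good cost hcost0 (show (0 : ℝ) < (n : ℝ) / 10 by positivity) htot
    rw [Fintype.card_fun, Fintype.card_bool, ← hndef] at this
    push_cast at this
    exact this
  set B := good.image b with hB
  have hBcard : (B.card : ℝ) * Real.exp (-((n : ℝ) / 5)) ≤ 1 :=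
    few_profiles δ (fun j => (Real.exp_pos _).le) hwt0 b good _ fun χ hχ => by
      have h := (mem_filter.1 hχ).2
      show cost χ ≤ _
      linarith
  set k := n / 10 with hk
  obtain ⟨β, hβ, hfib⟩ : ∃ β ∈ B,
      (5 / 4 : ℝ) ^ n * 4 ^ k < ((good.filter fun χ => b χ = β).card : ℝ) := by
    by_contra h
    push Not at h
    have h1 : (good.card : ℝ) ≤ B.card * ((5 / 4 : ℝ) ^ n * 4 ^ k) := by
      rw [card_eq_sum_card_fiberwise (f := b) (t := B) fun χ hχ => mem_image_of_mem b hχ,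
        Nat.cast_sum]
      calc ∑ β ∈ B, ((good.filter fun χ => b χ = β).card : ℝ)
          ≤ ∑ _β ∈ B, (5 / 4 : ℝ) ^ n * 4 ^ k := sum_le_sum h
        _ = _ := by rw [sum_const, nsmul_eq_mul]
    have h2 : (B.card : ℝ) ≤ Real.exp ((n : ℝ) / 5) := by
      rwa [Real.exp_neg, ← div_eq_mul_inv, div_le_one (Real.exp_pos _)] at hBcard
    have h3 := numeric hn (show 10 * k ≤ n by omega)
    have h4 := mul_le_mul_of_nonneg_right h2
      (show (0 : ℝ) ≤ (5 / 4 : ℝ) ^ n * 4 ^ k by positivity)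
    linarith
  obtain ⟨χ₁, hχ₁⟩ : (good.filter fun χ => b χ = β).Nonempty := by
    rw [← Finset.card_pos]
    by_contra h
    have h0 : (good.filter fun χ => b χ = β).card = 0 := by omega
    rw [h0, Nat.cast_zero] at hfib
    linarith [show (0 : ℝ) ≤ (5 / 4 : ℝ) ^ n * 4 ^ k by positivity]
  obtain ⟨χ₂, hχ₂, hfar⟩ : ∃ χ₂ ∈ good.filter (fun χ => b χ = β),
      k < (univ.filter fun i => χ₂ i ≠ χ₁ i).card := by
    by_contra h
    push Not at h
    have h1 := ball_card χ₁ k
    rw [← hndef] at h1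
    have h2 : ((good.filter fun χ => b χ = β).card : ℝ) ≤
        (((univ : Finset (ι → Bool)).filter fun χ =>
          (univ.filter fun i => χ i ≠ χ₁ i).card ≤ k).card : ℝ) :=
      Nat.cast_le.2 (card_le_card fun χ hχ => mem_filter.2 ⟨mem_univ _, h χ hχ⟩)
    linarith
  refine ⟨fun i => (sgn (χ₂ i) - sgn (χ₁ i)) / 2, fun i => ?_, ?_, fun j => ?_⟩
  · show (sgn (χ₂ i) - sgn (χ₁ i)) / 2 = 1 ∨ (sgn (χ₂ i) - sgn (χ₁ i)) / 2 = -1 ∨
      (sgn (χ₂ i) - sgn (χ₁ i)) / 2 = 0
    rcases Bool.eq_false_or_eq_true (χ₁ i) with h | h <;>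
      rcases Bool.eq_false_or_eq_true (χ₂ i) with h' | h' <;> simp only [sgn, h, h'] <;> norm_num
  · have e : (univ.filter fun i => (sgn (χ₂ i) - sgn (χ₁ i)) / 2 = 0) =
        univ.filter fun i => ¬ χ₂ i ≠ χ₁ i := by
      refine filter_congr fun i _ => ?_
      unfold sgn
      cases χ₁ i <;> cases χ₂ i <;> norm_num
    have h2 := card_filter_add_card_filter_not (s := (univ : Finset ι))
      (fun i => χ₂ i ≠ χ₁ i)
    rw [card_univ, ← hndef] at h2
    rw [e]
    omega
  · have e1 : round (S χ₁ j / (2 * Δ j)) = β j := congrFun (mem_filter.1 hχ₁).2 j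
    have e2 : round (S χ₂ j / (2 * Δ j)) = β j := congrFun (mem_filter.1 hχ₂).2 j
    have a1 := abs_sub_round (S χ₁ j / (2 * Δ j))
    have a2 := abs_sub_round (S χ₂ j / (2 * Δ j))
    rw [e1] at a1
    rw [e2] at a2
    have a3 : |S χ₂ j / (2 * Δ j) - S χ₁ j / (2 * Δ j)| ≤ 1 := by
      refine (abs_sub_le _ (β j : ℝ) _).trans ?_
      rw [abs_sub_comm (β j : ℝ)]
      linarith
    rw [← sub_div, abs_div, abs_of_pos (mul_pos two_pos (hΔ j)),
      div_le_one (mul_pos two_pos (hΔ j))] at a3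
    have e3 : ∑ i, (sgn (χ₂ i) - sgn (χ₁ i)) / 2 * a j i = (S χ₂ j - S χ₁ j) / 2 := by
      rw [hS]
      simp only
      rw [← sum_sub_distrib, sum_div]
      exact sum_congr rfl fun i _ => by ring
    rw [e3, abs_div, abs_two]
    linarith

theorem step_bound {m m' W u : ℝ} (hm' : 0 < m') (h9 : 10 * m' ≤ 9 * m) (hW : 0 ≤ W) (hu : 0 ≤ u) :
    Real.sqrt (m' * (1 + u + Real.log (1 + W / m'))) ≤
      999 / 1000 * Real.sqrt (m * (1 + u + Real.log (1 + W / m))) := by
  have hm : 0 < m := by linarith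
  set L := 1 + u + Real.log (1 + W / m) with hL
  have hL1 : 1 ≤ L := by
    have := Real.log_nonneg (show 1 ≤ 1 + W / m by linarith [div_nonneg hW hm.le])
    linarith
  have h1 : Real.log (1 + W / m') ≤ Real.log (1 + W / m) + Real.log (m / m') := by
    rw [← Real.log_mul (by positivity) (by positivity)]
    refine Real.log_le_log (by positivity) ?_
    rw [show (1 + W / m) * (m / m') = m / m' + W / m' by field_simp]
    have : 1 ≤ m / m' := by rw [le_div_iff₀ hm']; linarith
    linarith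
  set a := Real.sqrt m with ha
  set c := Real.sqrt m' with hc
  have ha0 : 0 < a := Real.sqrt_pos.2 hm
  have hc0 : 0 < c := Real.sqrt_pos.2 hm'
  have haa : a ^ 2 = m := Real.sq_sqrt hm.le
  have hcc : c ^ 2 = m' := Real.sq_sqrt hm'.le
  have h2 : m' * Real.log (m / m') ≤ 2 * a * c - 2 * c ^ 2 := by
    have e : m / m' = (a / c) ^ 2 := by rw [div_pow, haa, hcc]
    have h := Real.log_le_sub_one_of_pos (div_pos ha0 hc0)
    rw [e, Real.log_pow, ← hcc]
    have h' := mul_le_mul_of_nonneg_left h (show 0 ≤ 2 * c ^ 2 by positivity)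
    have e2 : 2 * c ^ 2 * (a / c - 1) = 2 * a * c - 2 * c ^ 2 := by field_simp
    push_cast
    linarith
  have hca : c ≤ 19 / 20 * a := by
    have : c ^ 2 ≤ (19 / 20 * a) ^ 2 := by rw [mul_pow, haa, hcc]; linarith
    exact le_of_pow_le_pow_left₀ two_ne_zero (by positivity) this
  have h3 : 2 * a * c - c ^ 2 ≤ (999 / 1000) ^ 2 * m := by
    rw [← haa]
    nlinarith [hca, ha0, hc0]
  have h4 : m' * (1 + u + Real.log (1 + W / m')) ≤ (999 / 1000) ^ 2 * (m * L) := by
    have e1 := mul_le_mul_of_nonneg_left h1 hm'.le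
    have hca' : c ≤ a := by linarith
    have e2 : 0 ≤ 2 * a * c - 2 * c ^ 2 := by
      have := mul_nonneg hc0.le (sub_nonneg.2 hca')
      linarith
    have e3 := le_mul_of_one_le_right e2 hL1
    have e4 := mul_le_mul_of_nonneg_right h3 (by linarith : 0 ≤ L)
    have e5 : m' * (1 + u + Real.log (1 + W / m')) ≤ c ^ 2 * L + (2 * a * c - 2 * c ^ 2) * L := by
      rw [hcc] at e3 h2 ⊢
      linarith [show m' * L = m' * (1 + u + Real.log (1 + W / m)) by rw [hL]]
    linarith
  refine (Real.sqrt_le_sqrt h4).trans (le_of_eq ?_)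
  rw [Real.sqrt_mul (by positivity), Real.sqrt_sq (by norm_num)]

end ColourAux

open ColourAux in
/-- Every family of rows with entries in `[-1, 1]` has a colouring with entropy-size errors. -/
theorem exists_colouring : ∃ C : ℝ, 0 < C ∧ ∀ {J α : Type} [Fintype J] [DecidableEq α]
    (a : J → α → ℝ) (u : J → ℝ) (W : ℝ) (s : Finset α), (∀ j i, |a j i| ≤ 1) → (∀ j, 0 ≤ u j) →
    ∑ j, Real.exp (-u j) ≤ W → ∃ χ : α → ℝ, (∀ i, χ i = 1 ∨ χ i = -1) ∧
      ∀ j, |∑ i ∈ s, χ i * a j i| ≤
        C * Real.sqrt (s.card * (1 + u j + Real.log (1 + W / s.card))) := by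
  refine ⟨6000, by norm_num, fun {J α} _ _ a u W s ha hu hW => ?_⟩
  classical
  have hW0 : 0 ≤ W := le_trans (sum_nonneg fun j _ => (Real.exp_pos _).le) hW
  induction hsc : s.card using Nat.strong_induction_on generalizing s with
  | _ m ih =>
    by_cases hm : m < 8
    · refine ⟨fun _ => 1, fun _ => Or.inl rfl, fun j => ?_⟩
      have h1 : |∑ i ∈ s, 1 * a j i| ≤ (m : ℝ) := by
        refine (abs_sum_le_sum_abs _ _).trans ?_
        refine (sum_le_card_nsmul _ _ 1 fun i _ => by rw [one_mul]; exact ha j i).trans ?_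
        rw [hsc, nsmul_one]
      refine h1.trans ?_
      have h2 : (m : ℝ) ≤ 8 := by exact_mod_cast hm.le
      have h3 : 0 ≤ Real.log (1 + W / m) :=
        Real.log_nonneg (by linarith [div_nonneg hW0 (Nat.cast_nonneg m)])
      have h4 := Real.sqrt_le_sqrt (le_mul_of_one_le_right (Nat.cast_nonneg m)
        (show 1 ≤ 1 + u j + Real.log (1 + W / (m : ℝ)) by linarith [hu j]))
      have h5 : (m : ℝ) ≤ 6000 * Real.sqrt m := by
        have := Real.mul_self_sqrt (Nat.cast_nonneg (α := ℝ) m)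
        have h6 : Real.sqrt m ≤ 6000 := by
          rw [Real.sqrt_le_iff]; constructor <;> linarith
        calc (m : ℝ) = Real.sqrt m * Real.sqrt m := this.symm
          _ ≤ 6000 * Real.sqrt m := mul_le_mul_of_nonneg_right h6 (Real.sqrt_nonneg _)
      exact h5.trans (mul_le_mul_of_nonneg_left h4 (by norm_num))
    push Not at hm
    have hm0 : (0 : ℝ) < m := by
      have : 0 < m := by omega
      exact_mod_cast this
    set E : J → ℝ := fun j => u j + Real.log (1 + W / m) + Real.log 160 with hE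
    have hlogW : 0 ≤ Real.log (1 + W / m) :=
      Real.log_nonneg (by linarith [div_nonneg hW0 hm0.le])
    have h160 : 1 ≤ Real.log 160 := by
      rw [Real.le_log_iff_exp_le (by norm_num)]
      linarith [Real.exp_one_lt_d9]
    have hE1 : ∀ j, 1 ≤ E j := fun j => by rw [hE]; linarith [hu j]
    set Δ : J → ℝ := fun j => Real.sqrt (4 * m * E j) with hΔ
    have hΔsq : ∀ j, Δ j ^ 2 = 4 * m * E j := fun j =>
      Real.sq_sqrt (by have := hE1 j; positivity)
    have hcard : Fintype.card ↥s = m := by rw [Fintype.card_coe, hsc]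
    obtain ⟨c, hc, hzero, hrow⟩ := partial_colouring (fun j (i : ↥s) => a j i.1)
      (fun j i => ha j i.1) Δ (by rw [hcard]; exact hm)
      (fun j => Real.sqrt_pos.2 (by have := hE1 j; positivity))
      (fun j => by
        rw [hcard, hΔsq]
        have := le_mul_of_one_le_right (show (0 : ℝ) ≤ 4 * m by positivity) (hE1 j)
        linarith)
      (by
        have he : ∀ j, 16 * Real.exp (-(Δ j ^ 2 / (m : ℝ) / 4)) =
            Real.exp (-u j) * (16 / (160 * (1 + W / m))) := fun j => by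
          have e0 : Δ j ^ 2 / (m : ℝ) / 4 = E j := by rw [hΔsq]; field_simp
          rw [e0, hE, Real.exp_neg, Real.exp_add, Real.exp_add, Real.exp_log (by positivity),
            Real.exp_log (by norm_num), Real.exp_neg]
          field_simp
        rw [hcard, sum_congr rfl fun j _ => he j, ← sum_mul]
        refine (mul_le_mul_of_nonneg_right hW (by positivity)).trans ?_
        rw [mul_div_assoc', div_le_iff₀ (by positivity)]
        rw [show (m : ℝ) / 10 * (160 * (1 + W / m)) = 16 * m + 16 * W by field_simp; ring]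
        linarith)
    rw [hcard] at hzero
    set cc : α → ℝ := fun i => if h : i ∈ s then c ⟨i, h⟩ else 0 with hcc
    set Z := s.filter fun i => cc i = 0 with hZ
    have hZcard : 10 * Z.card ≤ 9 * m := by
      have e : Z = (univ.filter fun i : ↥s => c i = 0).map (Function.Embedding.subtype _) := by
        ext i
        simp only [hZ, hcc, mem_filter, mem_map, mem_univ, true_and, Function.Embedding.coe_subtype]
        constructor
        · rintro ⟨hi, h0⟩
          rw [dif_pos hi] at h0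
          exact ⟨⟨i, hi⟩, h0, rfl⟩
        · rintro ⟨⟨i, hi⟩, h0, rfl⟩
          exact ⟨hi, by rw [dif_pos hi]; exact h0⟩
      rw [e, card_map]
      exact hzero
    obtain ⟨χ', hχ', hrec⟩ := ih Z.card (by omega) Z rfl
    refine ⟨fun i => if cc i = 0 then χ' i else cc i, fun i => ?_, fun j => ?_⟩
    · show (if cc i = 0 then χ' i else cc i) = 1 ∨ (if cc i = 0 then χ' i else cc i) = -1
      by_cases h0 : cc i = 0
      · rw [if_pos h0]; exact hχ' i
      · rw [if_neg h0]
        by_cases hi : i ∈ s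
        · rw [hcc] at h0 ⊢
          simp only [dif_pos hi] at h0 ⊢
          rcases hc ⟨i, hi⟩ with h | h | h
          · exact Or.inl h
          · exact Or.inr h
          · exact absurd h h0
        · exact absurd (by rw [hcc]; simp [hi]) h0
    · have e : ∑ i ∈ s, (if cc i = 0 then χ' i else cc i) * a j i =
          (∑ i : ↥s, c i * a j i.1) + ∑ i ∈ Z, χ' i * a j i := by
        rw [hZ, sum_filter, ← sum_attach s (fun i => (if cc i = 0 then χ' i else cc i) * a j i),
          ← sum_attach s (fun i => if cc i = 0 then χ' i * a j i else 0), univ_eq_attach,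
          ← sum_add_distrib]
        refine sum_congr rfl fun i _ => ?_
        have : cc i.1 = c i := by rw [hcc]; simp only [dif_pos i.2]
        rw [this]
        by_cases h0 : c i = 0
        · rw [if_pos h0, if_pos h0, h0, zero_mul, zero_add]
        · rw [if_neg h0, if_neg h0, add_zero]
      rw [e]
      refine (abs_add_le _ _).trans ((add_le_add (hrow j) (hrec j)).trans ?_)
      set L := 1 + u j + Real.log (1 + W / m) with hL
      have h1 : Δ j ≤ 6 * Real.sqrt (m * L) := by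
        rw [hΔ]
        show Real.sqrt (4 * m * E j) ≤ _
        rw [show (6 : ℝ) = Real.sqrt 36 by
            rw [show (36 : ℝ) = 6 ^ 2 by norm_num, Real.sqrt_sq (by norm_num)],
          ← Real.sqrt_mul (by norm_num)]
        refine Real.sqrt_le_sqrt ?_
        have h6 : Real.log 160 ≤ 6 := by
          rw [Real.log_le_iff_le_exp (by norm_num)]
          have := pow_le_pow_left₀ (by norm_num) (le_of_lt Real.exp_one_gt_d9) 6
          rw [← Real.exp_nat_mul] at this
          norm_num at this ⊢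
          linarith
        have hEL : E j ≤ 7 * L := by rw [hE, hL]; linarith [hu j]
        have h7 := mul_le_mul_of_nonneg_left hEL (show (0 : ℝ) ≤ 4 * m by positivity)
        have h8 : 0 ≤ (m : ℝ) * L := mul_nonneg hm0.le (by rw [hL]; linarith [hu j])
        linarith
      have h2 : Real.sqrt (Z.card * (1 + u j + Real.log (1 + W / Z.card))) ≤
          999 / 1000 * Real.sqrt (m * L) := by
        rcases Nat.eq_zero_or_pos Z.card with hz | hz
        · rw [hz]; simp only [Nat.cast_zero, zero_mul, Real.sqrt_zero]; positivity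
        · exact step_bound (by exact_mod_cast hz) (by exact_mod_cast hZcard) hW0 (hu j)
      linarith [mul_le_mul_of_nonneg_left h2 (show (0 : ℝ) ≤ 6000 by norm_num)]

end Vale.Agent.P110.Flat
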