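import Vale.Agent.P110.Flat.Defs

/-! Dyadic rounding to signs, from a colouring bound for trigonometric sums. -/

namespace Vale.Agent.P110.Flat.RoundDyadic

open Finset

/-- The colouring bound used by the rounding. -/
def Colour (C : ℝ) : Prop :=
  ∀ N : ℕ, ∀ A : Finset ℕ, A ⊆ range N → A.Nonempty →
    ∃ χ : ℕ → ℝ, (∀ n, χ n = 1 ∨ χ n = -1) ∧ ∀ θ : ℝ,
      ‖∑ n ∈ A, (χ n : ℂ) * ee (n * θ)‖ ≤
        C * Real.sqrt (A.card * (1 + Real.log ((N : ℝ) / A.card)))

theorem entropy_le {N m : ℝ} (hm : 0 < m) (hN : m ≤ N) :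
    m * (1 + Real.log (N / m)) ≤ 2 * Real.sqrt (N * m) := by
  have ht : 0 < N / m := div_pos (lt_of_lt_of_le hm hN) hm
  have h := Real.log_le_sub_one_of_pos (Real.sqrt_pos.2 ht)
  rw [Real.log_sqrt ht.le] at h
  have e : m * Real.sqrt (N / m) = Real.sqrt (N * m) := by
    have e2 : N * m = m * m * (N / m) := by field_simp
    rw [e2, Real.sqrt_mul (mul_self_nonneg m), Real.sqrt_mul_self hm.le]
  nlinarith

/-- `ρ ^ 4 = 2⁻³`. -/
noncomputable def rho : ℝ := Real.sqrt (Real.sqrt (1 / 8))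

theorem rho_bounds : 0 < rho ∧ rho < 1 ∧ rho ^ 4 = 1 / 8 := by
  have h4 : rho ^ 4 = 1 / 8 := by
    rw [rho, show (4 : ℕ) = 2 * 2 from rfl, pow_mul, Real.sq_sqrt (Real.sqrt_nonneg _),
      Real.sq_sqrt (by norm_num)]
  refine ⟨Real.sqrt_pos.2 (Real.sqrt_pos.2 (by norm_num)), ?_, h4⟩
  by_contra h
  nlinarith [one_le_pow₀ (n := 4) (not_lt.1 h)]

theorem level_le {N m η : ℝ} {j : ℕ} (hm : 0 < m) (hN : m ≤ N) (hη : 0 ≤ η)
    (hmj : m ≤ η * N * 2 ^ j) :
    Real.sqrt (m * (1 + Real.log (N / m))) * ((2 : ℝ) ^ j)⁻¹ ≤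
      2 * Real.sqrt N * Real.sqrt (Real.sqrt η) * rho ^ j := by
  have hN0 : 0 ≤ N := hm.le.trans hN
  obtain ⟨hr, -, hr4⟩ := rho_bounds
  have h2 : Real.sqrt (2 : ℝ) ≤ 2 := by
    rw [Real.sqrt_le_left (by norm_num)]; norm_num
  have h1 : Real.sqrt (m * (1 + Real.log (N / m))) ≤
      Real.sqrt 2 * (Real.sqrt N * Real.sqrt (Real.sqrt η) * Real.sqrt (Real.sqrt (2 ^ j))) := by
    refine (Real.sqrt_le_sqrt ((entropy_le hm hN).trans
      (mul_le_mul_of_nonneg_left (Real.sqrt_le_sqrt (mul_le_mul_of_nonneg_left hmj hN0))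
        (by norm_num : (0 : ℝ) ≤ 2)))).trans ?_
    rw [Real.sqrt_mul (by norm_num : (0 : ℝ) ≤ 2),
      show N * (η * N * 2 ^ j) = N * N * (η * 2 ^ j) by ring,
      Real.sqrt_mul (mul_self_nonneg N), Real.sqrt_mul_self hN0, Real.sqrt_mul hη,
      Real.sqrt_mul hN0, Real.sqrt_mul (Real.sqrt_nonneg η), ← mul_assoc (Real.sqrt N)]
  have e : Real.sqrt (Real.sqrt ((2 : ℝ) ^ j)) * ((2 : ℝ) ^ j)⁻¹ = rho ^ j := by
    refine (pow_left_inj₀ (by positivity) (by positivity) (by norm_num : (4 : ℕ) ≠ 0)).1 ?_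
    have hs : Real.sqrt (Real.sqrt ((2 : ℝ) ^ j)) ^ 4 = 2 ^ j := by
      rw [show (4 : ℕ) = 2 * 2 from rfl, pow_mul, Real.sq_sqrt (Real.sqrt_nonneg _),
        Real.sq_sqrt (by positivity)]
    rw [mul_pow, hs, ← pow_mul rho, mul_comm j 4, pow_mul rho, hr4,
      show (1 / 8 : ℝ) = ((2 : ℝ) ^ 3)⁻¹ by norm_num, inv_pow, inv_pow, ← pow_mul, ← pow_mul]
    field_simp
    ring
  calc Real.sqrt (m * (1 + Real.log (N / m))) * ((2 : ℝ) ^ j)⁻¹
      ≤ Real.sqrt 2 * (Real.sqrt N * Real.sqrt (Real.sqrt η) * Real.sqrt (Real.sqrt (2 ^ j))) *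
          ((2 : ℝ) ^ j)⁻¹ := mul_le_mul_of_nonneg_right h1 (by positivity)
    _ = Real.sqrt 2 * (Real.sqrt N * Real.sqrt (Real.sqrt η) * rho ^ j) := by rw [← e]; ring
    _ ≤ 2 * (Real.sqrt N * Real.sqrt (Real.sqrt η) * rho ^ j) := by gcongr
    _ = _ := by ring

theorem round_of_colour {C : ℝ} (hC : 0 ≤ C) (hcol : Colour C) (c : ℝ) (hc : 0 < c) :
    ∃ η > 0, ∃ N₀ : ℕ, ∀ N, N₀ ≤ N → ∀ y : ℕ → ℝ,
      (∀ n, n < N → |y n| ≤ 1) → ∑ n ∈ range N, (1 - |y n|) ≤ η * N →
      ∃ ε : ℕ → ℝ, (∀ n, ε n = 1 ∨ ε n = -1) ∧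
        ∀ θ : ℝ, ‖trig N ε θ - trig N y θ‖ ≤ c * Real.sqrt N := by
  obtain ⟨hr0, hr1, -⟩ := rho_bounds
  set K := 2 * C / (1 - rho) + 1 with hKdef
  have hr1' : 0 < 1 - rho := sub_pos.2 hr1
  have hK : 0 < K := by rw [hKdef]; positivity
  refine ⟨((c / (2 * K)) ^ 2) ^ 2, by positivity, ⌈(2 / c) ^ 2⌉₊ + 1, fun N hN y hy hsum => ?_⟩
  set η := ((c / (2 * K)) ^ 2) ^ 2 with hηdef
  have hs4 : Real.sqrt (Real.sqrt η) = c / (2 * K) := by
    rw [hηdef, Real.sqrt_sq (by positivity), Real.sqrt_sq (by positivity)]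
  have hN' : (0 : ℝ) < N := by exact_mod_cast (show 0 < N by omega)
  obtain ⟨D, hD⟩ : ∃ D : ℕ, (N : ℝ) ≤ 2 ^ D := ⟨N, by exact_mod_cast (Nat.lt_two_pow_self).le⟩
  have hP : (0 : ℝ) < 2 ^ D := by positivity
  set s : ℕ → ℝ := fun n => if 0 ≤ y n then 1 else -1 with hs
  have hs1 : ∀ n, s n = 1 ∨ s n = -1 := fun n => by simp only [hs]; split_ifs <;> simp
  have hsy : ∀ n, y n = s n * |y n| := fun n => by
    simp only [hs]; split_ifs with h
    · simp [abs_of_nonneg h]
    · simp [abs_of_neg (not_le.1 h)]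
  set Y : (ℕ → ℕ) → ℕ → ℝ := fun k n => s n * (1 - (k n : ℝ) / 2 ^ D) with hY
  set B : ℕ → ℝ := fun l => C * (2 * Real.sqrt N * Real.sqrt (Real.sqrt η) * rho ^ (D - l)) with hB
  have hind : ∀ i, i ≤ D + 1 → ∃ k : ℕ → ℕ, (∀ n, n < N → 2 ^ i ∣ k n ∧ k n ≤ 2 ^ (D + 1)) ∧
      ∑ n ∈ range N, (k n : ℝ) ≤ η * N * 2 ^ D ∧
      ∀ θ : ℝ, ‖trig N (Y k) θ - trig N y θ‖ ≤ 1 + ∑ l ∈ range i, B l := by
    intro i hi
    induction i with
    | zero =>
      refine ⟨fun n => ⌊(1 - |y n|) * 2 ^ D⌋₊, fun n hn => ⟨by simp, ?_⟩, ?_, fun θ => ?_⟩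
      · refine (Nat.floor_le_of_le ?_)
        push_cast
        rw [pow_succ]
        nlinarith [abs_nonneg (y n)]
      · refine (sum_le_sum fun n hn => Nat.floor_le (mul_nonneg
          (sub_nonneg.2 (hy n (mem_range.1 hn))) hP.le)).trans ?_
        rw [← sum_mul]
        exact mul_le_mul_of_nonneg_right hsum hP.le
      · rw [trig, trig, ← sum_sub_distrib, range_zero, sum_empty, add_zero]
        refine (norm_sum_le _ _).trans
          ((sum_le_sum (g := fun _ => ((2 : ℝ) ^ D)⁻¹) fun n hn => ?_).trans ?_)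
        · rw [← sub_mul, norm_mul, ← Complex.ofReal_sub, Complex.norm_real, Real.norm_eq_abs, ee,
            Complex.norm_exp, show (2 * (Real.pi : ℂ) * ((n * θ : ℝ) : ℂ) * Complex.I).re = 0 by simp,
            Real.exp_zero, mul_one]
          have h0 : 0 ≤ (1 - |y n|) * 2 ^ D := mul_nonneg (sub_nonneg.2 (hy n (mem_range.1 hn))) hP.le
          have f1 := Nat.floor_le h0
          have f2 := Nat.lt_floor_add_one ((1 - |y n|) * (2 : ℝ) ^ D)
          set F := ((⌊(1 - |y n|) * (2 : ℝ) ^ D⌋₊ : ℕ) : ℝ) with hF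
          rw [show Y (fun n => ⌊(1 - |y n|) * 2 ^ D⌋₊) n - y n =
            s n * (((1 - |y n|) * 2 ^ D - F) / 2 ^ D) by
              conv_lhs => arg 2; rw [hsy n]
              simp only [hY, ← hF]; field_simp; ring, abs_mul]
          rcases hs1 n with h | h <;> rw [h] <;>
            simp only [abs_neg, abs_one, one_mul, abs_div, abs_of_pos hP] <;>
            rw [div_le_iff₀ hP, inv_mul_cancel₀ hP.ne', abs_le] <;> constructor <;> linarith
        · rw [sum_const, card_range, nsmul_eq_mul, mul_inv_le_iff₀ hP, one_mul]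
          exact hD
    | succ i ih =>
      obtain ⟨k, hk, hksum, hkerr⟩ := ih (by omega)
      set A := (range N).filter fun n => ¬ 2 ^ (i + 1) ∣ k n with hA
      have hB0 : 0 ≤ B i := by simp only [hB]; positivity
      rcases A.eq_empty_or_nonempty with hAe | hAne
      · refine ⟨k, fun n hn => ⟨?_, (hk n hn).2⟩, hksum, fun θ => ?_⟩
        · by_contra h
          have : n ∈ A := mem_filter.2 ⟨mem_range.2 hn, h⟩
          simp [hAe] at this
        · rw [sum_range_succ]; linarith [hkerr θ]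
      obtain ⟨χ, hχ, hcolA⟩ := hcol N A (filter_subset _ _) hAne
      obtain ⟨g, hg, hgsum⟩ : ∃ g : ℝ, (g = 1 ∨ g = -1) ∧ ∑ n ∈ A, g * χ n * s n ≤ 0 := by
        rcases le_total (∑ n ∈ A, χ n * s n) 0 with h | h
        · exact ⟨1, Or.inl rfl, by simpa using h⟩
        · refine ⟨-1, Or.inr rfl, ?_⟩
          simpa [neg_mul, sum_neg_distrib] using h
      have hodd : ∀ n ∈ A, 2 ^ i ≤ k n ∧ k n + 2 ^ i ≤ 2 ^ (D + 1) ∧
          2 ^ (i + 1) ∣ k n + 2 ^ i ∧ 2 ^ (i + 1) ∣ k n - 2 ^ i := by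
        intro n hn
        obtain ⟨hnN, hnd⟩ := mem_filter.1 hn
        obtain ⟨⟨m, hm⟩, hle⟩ := hk n (mem_range.1 hnN)
        obtain ⟨m', rfl | rfl⟩ := Nat.even_or_odd' m
        · exact absurd ⟨m', by rw [hm, pow_succ]; ring⟩ hnd
        have e : (2 : ℕ) ^ (D + 1) = 2 ^ i * 2 ^ (D + 1 - i) := by
          rw [← pow_add]; congr 1; omega
        have hev : ∃ t, (2 : ℕ) ^ (D + 1 - i) = 2 * t :=
          ⟨2 ^ (D - i), by rw [← pow_succ']; congr 1; omega⟩
        obtain ⟨t, ht⟩ := hev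
        rw [hm, e, ht] at hle
        have hle' : 2 * m' + 1 ≤ 2 * t := Nat.le_of_mul_le_mul_left hle (by positivity)
        refine ⟨?_, ?_, ⟨m' + 1, by rw [hm, pow_succ]; ring⟩, ⟨m', ?_⟩⟩
        · rw [hm]; exact Nat.le_mul_of_pos_right _ (by omega)
        · rw [hm, e, ht]
          calc 2 ^ i * (2 * m' + 1) + 2 ^ i = 2 ^ i * (2 * m' + 2) := by ring
            _ ≤ 2 ^ i * (2 * t) := Nat.mul_le_mul_left _ (by omega)
        · rw [hm, show 2 ^ i * (2 * m' + 1) = 2 ^ (i + 1) * m' + 2 ^ i by rw [pow_succ]; ring,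
            Nat.add_sub_cancel]
      have hgχ : ∀ n, g * χ n * s n = 1 ∨ g * χ n * s n = -1 := fun n => by
        rcases hg with h | h <;> rcases hχ n with h' | h' <;> rcases hs1 n with h'' | h'' <;>
          simp [h, h', h'']
      set k' : ℕ → ℕ := fun n =>
        if n ∈ A then (if g * χ n * s n = 1 then k n + 2 ^ i else k n - 2 ^ i) else k n with hk'
      have hk'r : ∀ n, (k' n : ℝ) =
          k n + (if n ∈ A then g * χ n * s n * 2 ^ i else 0) := fun n => by
        simp only [hk']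
        by_cases hn : n ∈ A
        · simp only [if_pos hn]
          rcases hgχ n with h | h
          · rw [if_pos h, h]; push_cast; ring
          · rw [if_neg (by rw [h]; norm_num), h, Nat.cast_sub (hodd n hn).1]; push_cast; ring
        · simp [if_neg hn]
      refine ⟨k', fun n hn => ?_, ?_, fun θ => ?_⟩
      · simp only [hk']
        by_cases hnA : n ∈ A
        · obtain ⟨h1, h2, h3, h4⟩ := hodd n hnA
          simp only [if_pos hnA]
          split_ifs
          · exact ⟨h3, h2⟩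
          · exact ⟨h4, by omega⟩
        · simp only [if_neg hnA]
          refine ⟨?_, (hk n hn).2⟩
          by_contra h
          exact hnA (mem_filter.2 ⟨mem_range.2 hn, h⟩)
      · rw [sum_congr rfl fun n _ => hk'r n, sum_add_distrib, sum_ite_mem,
          inter_eq_right.2 (filter_subset _ _), ← sum_mul]
        nlinarith [pow_pos (two_pos (α := ℝ)) i]
      · have hdiff : trig N (Y k') θ - trig N (Y k) θ =
            ((-(g * (2 : ℝ) ^ i / 2 ^ D) : ℝ) : ℂ) * ∑ n ∈ A, (χ n : ℂ) * ee (n * θ) := by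
          rw [trig, trig, ← sum_sub_distrib, mul_sum,
            ← sum_subset (filter_subset (fun n => ¬ 2 ^ (i + 1) ∣ k n) (range N))
              (fun n _ hn => by
                have : n ∉ A := hn
                simp [hY, hk'r, this])]
          refine sum_congr rfl fun n hn => ?_
          simp only [hY, hk'r, if_pos hn]
          rcases hs1 n with h | h <;> rw [h] <;> push_cast <;> ring
        have hm : (0 : ℝ) < A.card := Nat.cast_pos.2 hAne.card_pos
        have hmN : (A.card : ℝ) ≤ N := by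
          exact_mod_cast (card_le_card (filter_subset _ _)).trans_eq (card_range N)
        have hpow : (2 : ℝ) ^ i * 2 ^ (D - i) = 2 ^ D := by
          rw [← pow_add]; congr 1; omega
        have hmj : (A.card : ℝ) ≤ η * N * 2 ^ (D - i) := by
          have h1 : (A.card : ℝ) * 2 ^ i ≤ ∑ n ∈ range N, (k n : ℝ) := by
            calc (A.card : ℝ) * 2 ^ i = ∑ _n ∈ A, (2 : ℝ) ^ i := by simp
              _ ≤ ∑ n ∈ A, (k n : ℝ) := sum_le_sum fun n hn => by exact_mod_cast (hodd n hn).1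
              _ ≤ _ := sum_le_sum_of_subset_of_nonneg (filter_subset _ _) fun _ _ _ => by positivity
          have h2 := h1.trans hksum
          rw [← hpow, show η * (N : ℝ) * (2 ^ i * 2 ^ (D - i)) =
            η * N * 2 ^ (D - i) * 2 ^ i by ring] at h2
          exact le_of_mul_le_mul_right h2 (by positivity)
        have hlev := level_le hm hmN (by positivity : 0 ≤ η) hmj
        have hnorm : ‖trig N (Y k') θ - trig N (Y k) θ‖ ≤ B i := by
          rw [hdiff, norm_mul, Complex.norm_real, Real.norm_eq_abs, abs_neg, abs_div, abs_mul,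
            show |g| = 1 by rcases hg with h | h <;> simp [h], one_mul, abs_of_pos hP,
            abs_of_pos (pow_pos (two_pos (α := ℝ)) i),
            show (2 : ℝ) ^ i / 2 ^ D = ((2 : ℝ) ^ (D - i))⁻¹ by rw [← hpow]; field_simp]
          refine (mul_le_mul_of_nonneg_left (hcolA θ) (by positivity)).trans ?_
          simp only [hB]
          rw [mul_comm, mul_assoc]
          exact mul_le_mul_of_nonneg_left hlev hC
        rw [sum_range_succ]
        refine (norm_sub_le_norm_sub_add_norm_sub _ (trig N (Y k) θ) _).trans ?_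
        linarith [hkerr θ]
  obtain ⟨k, hk, -, herr⟩ := hind (D + 1) le_rfl
  refine ⟨fun n => if n < N then Y k n else 1, fun n => ?_, fun θ => ?_⟩
  · by_cases hn : n < N
    · simp only [if_pos hn]
      obtain ⟨⟨m, hm⟩, hle⟩ := hk n hn
      have hm1 : m ≤ 1 := Nat.le_of_mul_le_mul_left (show 2 ^ (D + 1) * m ≤ 2 ^ (D + 1) * 1 by rw [← hm]; simpa using hle)
        (by positivity)
      simp only [hY, hm]
      interval_cases m
      · simpa using hs1 n
      · rcases hs1 n with h | h <;> rw [h]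
        · right; push_cast; field_simp; ring
        · left; push_cast; field_simp; ring
    · exact Or.inl (if_neg hn)
  · have e : trig N (fun n => if n < N then Y k n else 1) θ = trig N (Y k) θ :=
      sum_congr rfl fun n hn => by simp [mem_range.1 hn]
    rw [e]
    refine (herr θ).trans ?_
    have hgeo : ∑ l ∈ range (D + 1), rho ^ (D - l) ≤ 1 / (1 - rho) := by
      have hre := sum_range_reflect (fun l => rho ^ l) (D + 1)
      simp only [Nat.add_sub_cancel] at hre
      rw [hre, one_div]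
      rw [geom_sum_eq hr1.ne, ← neg_sub 1 (rho ^ _), ← neg_sub 1 rho, neg_div_neg_eq, div_eq_mul_inv]
      exact mul_le_of_le_one_left (inv_nonneg.2 hr1'.le) (by linarith [pow_nonneg hr0.le (D + 1)])
    have hsN : 2 / c ≤ Real.sqrt N := by
      refine Real.le_sqrt_of_sq_le ((Nat.le_ceil _).trans ?_)
      exact_mod_cast (by omega : ⌈(2 / c) ^ 2⌉₊ ≤ N)
    rw [div_le_iff₀ hc] at hsN
    simp only [hB, ← mul_sum]
    have h1 : C * (2 * Real.sqrt N * Real.sqrt (Real.sqrt η) * ∑ l ∈ range (D + 1), rho ^ (D - l)) ≤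
        C * (2 * Real.sqrt N * Real.sqrt (Real.sqrt η) * (1 / (1 - rho))) := by gcongr
    rw [hs4] at h1 ⊢
    have h2 : C * (2 * Real.sqrt N * (c / (2 * K)) * (1 / (1 - rho))) ≤ c / 2 * Real.sqrt N := by
      rw [show C * (2 * Real.sqrt N * (c / (2 * K)) * (1 / (1 - rho))) =
        (2 * C / (1 - rho)) / K * (c / 2 * Real.sqrt N) by field_simp]
      exact mul_le_of_le_one_left (by positivity) ((div_le_one hK).2 (by rw [hKdef]; linarith))
    linarith

end Vale.Agent.P110.Flat.RoundDyadic
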