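import Vale.Agent.P110.Flat.Defs

/-! A frequency track through disjoint arcs, their mirror images and the remaining holes. -/

namespace Vale.Agent.P110.Flat

open Finset MeasureTheory

/-- The sign of an arc. -/
def sg (σ : Bool) : ℝ := if σ then 1 else -1

/-- The offset of `θ` from `m`, modulo one. -/
noncomputable def off (m θ : ℝ) : ℝ := θ - m - round (θ - m)

/-- The plateau of radius `r` with ramps of width `δ`. -/
noncomputable def plateau (r δ y : ℝ) : ℝ := max 0 (min 1 ((r + δ - |y|) / δ))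

/-- The projection on `[-r, r]`. -/
noncomputable def clamp (r y : ℝ) : ℝ := max (-r) (min r y)

/-- Arcs which are separated modulo one, together with their mirror images. -/
structure Arcs where
  n : ℕ
  mid : Fin n → ℝ
  rad : Fin n → ℝ
  gap : ℝ
  hgap : 0 < gap
  hrad : ∀ j, 0 < rad j
  hsep : ∀ (j j' : Fin n) (σ σ' : Bool), (σ, j) ≠ (σ', j') → ∀ z : ℤ,
    rad j + rad j' + gap ≤ |sg σ * mid j - sg σ' * mid j' - z|

namespace Arcs

/-- The centre of an arc or of a mirror arc. -/
def ctr (A : Arcs) (p : Fin A.n × Bool) : ℝ := sg p.2 * A.mid p.1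

/-- The indicator of the points outside all the arcs. -/
noncomputable def free (A : Arcs) (θ : ℝ) : ℝ :=
  1 - ∑ p : Fin A.n × Bool, if |off (A.ctr p) θ| ≤ A.rad p.1 then 1 else 0

/-- The measure of the holes between zero and `θ`, folded. -/
noncomputable def base (A : Arcs) (θ : ℝ) : ℝ := ∫ t in (0 : ℝ)..|off 0 θ|, A.free t

end Arcs

/-- Prescribed speeds `f j` on the arcs, slope `M` in the holes and ramps of width `δ`. -/
structure Track extends Arcs where
  μ : ℝ
  M : ℝ
  δ : ℝ
  σ₀ : ℝ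
  hμ : 0 < μ
  hM : 0 < M
  hδ : 0 < δ
  hδgap : 2 * δ < gap
  hslope : 2 * M * δ ≤ σ₀
  hσ₀ : 0 < σ₀
  hwin : μ + M * (∫ t in (0 : ℝ)..1, toArcs.free t) + σ₀ ≤ 1 - μ
  f : Fin n → ℝ → ℝ
  Lf : ℝ
  hfLip : ∀ j a b, |f j a - f j b| ≤ Lf * |a - b|
  hfRange : ∀ j y, |y| ≤ rad j →
    μ + M * (∫ t in (0 : ℝ)..1, toArcs.free t) + σ₀ ≤ f j y ∧ f j y ≤ 1 - μ

namespace Track

/-- The speed of the target. -/
noncomputable def tau (T : Track) (θ : ℝ) : ℝ :=
  T.μ + T.M * T.base θ + ∑ p : Fin T.n × Bool, plateau (T.rad p.1) T.δ (off (T.ctr p) θ) *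
    (T.f p.1 (sg p.2 * clamp (T.rad p.1) (off (T.ctr p) θ)) - T.μ - T.M * T.base (T.ctr p))

/-- The phase correction with value `w` on each arc. -/
noncomputable def chi (T : Track) (w : Fin T.n → ℝ) (θ : ℝ) : ℝ :=
  ∑ p : Fin T.n × Bool, plateau (T.rad p.1) T.δ (off (T.ctr p) θ) * (sg p.2 * w p.1)

theorem measurable_off (m : ℝ) : Measurable (off m) := by
  unfold off
  simp only [round_eq]
  fun_prop

theorem off_abs_le (m θ : ℝ) : |off m θ| ≤ 1 / 2 := abs_sub_round _

theorem off_le (m θ : ℝ) (z : ℤ) : |off m θ| ≤ |θ - m - z| := round_le _ _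

theorem off_add_int (m θ : ℝ) (z : ℤ) : off m (θ + z) = off m θ := by
  rw [off, off, show θ + (z : ℝ) - m = θ - m + z by ring, round_add_intCast]
  push_cast
  ring

theorem off_add_one (m θ : ℝ) : off m (θ + 1) = off m θ := by
  simpa using off_add_int m θ 1

theorem off_of_abs_lt {m θ y : ℝ} {z : ℤ} (hy : |y| < 1 / 2) (h : θ - m = y + z) :
    off m θ = y := by
  obtain ⟨h1, h2⟩ := abs_lt.1 hy
  have : ⌊y + 1 / 2⌋ = 0 := Int.floor_eq_iff.2 ⟨by push_cast; linarith, by push_cast; linarith⟩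
  rw [off, h, round_add_intCast, round_eq, this]
  push_cast
  ring

theorem abs_off_neg (m θ : ℝ) : |off m (-θ)| = |off (-m) θ| := by
  have key : ∀ m θ : ℝ, |off m (-θ)| ≤ |off (-m) θ| := fun m θ => by
    refine (off_le m (-θ) (-round (θ + m))).trans (le_of_eq ?_)
    rw [off, sub_neg_eq_add, ← abs_neg]
    congr 1
    push_cast
    ring
  refine le_antisymm (key m θ) ?_
  simpa using key (-m) (-θ)

theorem abs_off_lipschitz (m a b : ℝ) : |(|off m a| - |off m b|)| ≤ |a - b| := by
  have key : ∀ a b : ℝ, |off m a| ≤ |a - b| + |off m b| := fun a b => by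
    refine (off_le m a (round (b - m))).trans ?_
    rw [show a - m - round (b - m) = a - b + off m b by rw [off]; ring]
    exact abs_add_le _ _
  have h2 := key b a
  rw [abs_sub_comm b a] at h2
  exact abs_sub_le_iff.2 ⟨by linarith [key a b], by linarith⟩

theorem abs_off_eq {m θ y : ℝ} {z : ℤ} (hy : |y| ≤ 1 / 2) (h : θ - m = y + z) :
    |off m θ| = |y| := by
  refine le_antisymm ((off_le m θ z).trans_eq (by rw [h, add_sub_cancel_right])) ?_
  rcases lt_or_eq_of_le hy with hlt | heq
  · rw [off_of_abs_lt hlt h]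
  · by_contra hlt
    rw [not_le] at hlt
    have e : off m θ = y + ((z - round (θ - m) : ℤ) : ℝ) := by
      rw [off]; push_cast; linarith
    rcases eq_or_ne (z - round (θ - m)) 0 with hn | hn
    · rw [e, hn] at hlt; simp at hlt
    · have h1 : (1 : ℝ) ≤ |((z - round (θ - m) : ℤ) : ℝ)| := by
        rw [← Int.cast_abs]; exact_mod_cast Int.one_le_abs hn
      rw [show ((z - round (θ - m) : ℤ) : ℝ) = off m θ - y by linarith] at h1
      linarith [abs_sub (off m θ) y]

/-- A bump supported in `[-R, R]`, `R ≤ 1/2`, composed with `off` only depends on the class mod 1. -/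
theorem bump_eq {P : ℝ → ℝ} {R : ℝ} (hR : R ≤ 1 / 2) (hP : ∀ y, R ≤ |y| → P y = 0) {m θ y : ℝ}
    {z : ℤ} (hy : |y| ≤ 1 / 2) (h : θ - m = y + z) : P (off m θ) = P y := by
  rcases lt_or_eq_of_le hy with hlt | heq
  · rw [off_of_abs_lt hlt h]
  · rw [hP y (heq ▸ hR), hP]
    rcases lt_or_eq_of_le (off_abs_le m θ) with hlt' | heq'
    · exfalso
      have hz : θ - m = y + z := h
      have ho : θ - m = off m θ + round (θ - m) := by rw [off]; ring
      have he : off m θ - y = ((z - round (θ - m) : ℤ) : ℝ) := by push_cast; linarith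
      rcases lt_trichotomy (z - round (θ - m)) 0 with hn | hn | hn
      · have : ((z - round (θ - m) : ℤ) : ℝ) ≤ -1 := by exact_mod_cast (by omega : _ ≤ (-1 : ℤ))
        linarith [le_abs_self y, neg_abs_le (off m θ)]
      · rw [hn] at he; push_cast at he
        rw [show off m θ = y by linarith] at hlt'
        linarith
      · have : (1 : ℝ) ≤ ((z - round (θ - m) : ℤ) : ℝ) := by exact_mod_cast hn
        linarith [neg_abs_le y, le_abs_self (off m θ)]
    · rw [heq']; exact hR

theorem bump_lipschitz {P : ℝ → ℝ} {R L : ℝ} (hR : R ≤ 1 / 2) (hP : ∀ y, R ≤ |y| → P y = 0)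
    (hL : ∀ a b, |P a - P b| ≤ L * |a - b|) (m a b : ℝ) :
    |P (off m a) - P (off m b)| ≤ L * |a - b| := by
  have hL0 : 0 ≤ L := by simpa using (abs_nonneg (P 1 - P 0)).trans (hL 1 0)
  have small : ∀ y, |P y| ≤ L * max 0 (R - |y|) := fun y => by
    rcases le_or_gt R |y| with h | h
    · rw [hP y h, abs_zero]; positivity
    · have h0 : 0 ≤ R := (abs_nonneg y).trans h.le
      rcases le_total 0 y with h' | h'
      · have := hL y R
        rw [hP R (le_abs_self R), sub_zero, abs_of_nonpos (a := y - R)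
          (by rw [abs_of_nonneg h'] at h; linarith)] at this
        rw [abs_of_nonneg h'] at h ⊢
        rw [max_eq_right (by linarith)]
        linarith
      · have := hL y (-R)
        rw [hP (-R) (by rw [abs_neg]; exact le_abs_self R), sub_zero, abs_of_nonneg (a := y - -R)
          (by rw [abs_of_nonpos h'] at h; linarith)] at this
        rw [abs_of_nonpos h'] at h ⊢
        rw [max_eq_right (by linarith)]
        linarith
  set u := off m a with hu
  set v := off m b with hv
  have hd : a - b = u - v + ((round (a - m) - round (b - m) : ℤ) : ℝ) := by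
    rw [hu, hv, off, off]; push_cast; ring
  rcases eq_or_ne (round (a - m) - round (b - m)) 0 with hn | hn
  · rw [hn] at hd; push_cast at hd
    rw [hd, add_zero]
    exact hL u v
  · have h1 : (1 : ℝ) ≤ |((round (a - m) - round (b - m) : ℤ) : ℝ)| := by
      rw [← Int.cast_abs]; exact_mod_cast Int.one_le_abs hn
    have hfar : 1 ≤ |a - b| + |u| + |v| := by
      have he : ((round (a - m) - round (b - m) : ℤ) : ℝ) = a - b + (v - u) := by linarith
      rw [he] at h1
      linarith [abs_add_le (a - b) (v - u), abs_sub v u]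
    have hu2 : |u| ≤ 1 / 2 := off_abs_le m a
    have hv2 : |v| ≤ 1 / 2 := off_abs_le m b
    have hsum : max 0 (R - |u|) + max 0 (R - |v|) ≤ |a - b| := by
      rcases max_cases (0 : ℝ) (R - |u|) with ⟨e, _⟩ | ⟨e, _⟩ <;>
        rcases max_cases (0 : ℝ) (R - |v|) with ⟨e', _⟩ | ⟨e', _⟩ <;>
        rw [e, e'] <;> linarith [abs_nonneg (a - b)]
    refine (abs_sub _ _).trans ((add_le_add (small u) (small v)).trans ?_)
    rw [← mul_add]
    exact mul_le_mul_of_nonneg_left hsum hL0

theorem sg_sq (σ : Bool) : sg σ * sg σ = 1 := by cases σ <;> simp [sg]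

theorem sg_not (σ : Bool) : sg (!σ) = -sg σ := by cases σ <;> simp [sg]

theorem abs_sg (σ : Bool) : |sg σ| = 1 := by cases σ <;> simp [sg]

theorem abs_clamp_le {r : ℝ} (hr : 0 ≤ r) (y : ℝ) : |clamp r y| ≤ r :=
  abs_le.2 ⟨le_max_left _ _, max_le (by linarith) (min_le_left _ _)⟩

theorem clamp_of_abs_le {r y : ℝ} (h : |y| ≤ r) : clamp r y = y := by
  rw [abs_le] at h
  rw [clamp, min_eq_right h.2, max_eq_right h.1]

theorem clamp_lipschitz (r a b : ℝ) : |clamp r a - clamp r b| ≤ |a - b| := by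
  unfold clamp
  refine (abs_max_sub_max_le_max _ _ _ _).trans (max_le (by simp) ?_)
  refine (abs_min_sub_min_le_max _ _ _ _).trans (max_le (by simp) le_rfl)

theorem clamp_neg {r : ℝ} (hr : 0 ≤ r) (y : ℝ) : clamp r (-y) = -clamp r y := by
  rcases le_total r y with h | h
  · rw [clamp, clamp, min_eq_left h, min_eq_right (by linarith), max_eq_left (by linarith),
      max_eq_right (by linarith)]
  · rcases le_total y (-r) with h' | h'
    · rw [clamp, clamp, min_eq_right h, min_eq_left (by linarith), max_eq_right (by linarith),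
        max_eq_left h', neg_neg]
    · rw [clamp_of_abs_le (abs_le.2 ⟨h', h⟩),
        clamp_of_abs_le (by rw [abs_neg]; exact abs_le.2 ⟨h', h⟩)]

theorem plateau_nonneg (r δ y : ℝ) : 0 ≤ plateau r δ y := le_max_left _ _

theorem plateau_le_one (r δ y : ℝ) : plateau r δ y ≤ 1 := max_le zero_le_one (min_le_left _ _)

theorem plateau_eq_zero {r δ y : ℝ} (hδ : 0 < δ) (h : r + δ ≤ |y|) : plateau r δ y = 0 :=
  max_eq_left ((min_le_right _ _).trans (div_nonpos_of_nonpos_of_nonneg (by linarith) hδ.le))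

theorem plateau_eq_one {r δ y : ℝ} (hδ : 0 < δ) (h : |y| ≤ r) : plateau r δ y = 1 := by
  rw [plateau, min_eq_left (by rw [le_div_iff₀ hδ]; linarith), max_eq_right zero_le_one]

theorem plateau_of_ramp {r δ y : ℝ} (hδ : 0 < δ) (h1 : r ≤ |y|) (h2 : |y| ≤ r + δ) :
    plateau r δ y = (r + δ - |y|) / δ := by
  rw [plateau, min_eq_right (by rw [div_le_iff₀ hδ]; linarith),
    max_eq_right (div_nonneg (by linarith) hδ.le)]

theorem plateau_neg (r δ y : ℝ) : plateau r δ (-y) = plateau r δ y := by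
  rw [plateau, plateau, abs_neg]

theorem plateau_lipschitz {r δ : ℝ} (hδ : 0 < δ) (a b : ℝ) :
    |plateau r δ a - plateau r δ b| ≤ δ⁻¹ * |a - b| := by
  unfold plateau
  refine (abs_max_sub_max_le_max _ _ _ _).trans (max_le (by simp; positivity) ?_)
  refine (abs_min_sub_min_le_max _ _ _ _).trans (max_le (by simp; positivity) ?_)
  rw [← sub_div, abs_div, abs_of_pos hδ, div_eq_inv_mul,
    show r + δ - |a| - (r + δ - |b|) = |b| - |a| by ring]
  exact mul_le_mul_of_nonneg_left
    ((abs_abs_sub_abs_le_abs_sub b a).trans_eq (abs_sub_comm _ _)) (by positivity)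

end Track

namespace Arcs

/-- The mirror of an arc. -/
def flip (A : Arcs) (p : Fin A.n × Bool) : Fin A.n × Bool := (p.1, !p.2)

theorem flip_flip (A : Arcs) (p : Fin A.n × Bool) : A.flip (A.flip p) = p := by
  simp [flip]

/-- The mirror as a permutation. -/
def flipEquiv (A : Arcs) : Equiv.Perm (Fin A.n × Bool) :=
  ⟨A.flip, A.flip, A.flip_flip, A.flip_flip⟩

theorem ctr_flip (A : Arcs) (p : Fin A.n × Bool) : A.ctr (A.flip p) = -A.ctr p := by
  simp [flip, ctr, Track.sg_not]

theorem sep (A : Arcs) {p p' : Fin A.n × Bool} (h : p ≠ p') (z : ℤ) :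
    A.rad p.1 + A.rad p'.1 + A.gap ≤ |A.ctr p - A.ctr p' - z| :=
  A.hsep p.1 p'.1 p.2 p'.2 (fun e => h (by
    obtain ⟨e1, e2⟩ := Prod.mk.injEq .. ▸ e
    exact Prod.ext e2 e1)) z

theorem rad_lt (A : Arcs) (p : Fin A.n × Bool) : A.rad p.1 + A.gap / 2 ≤ 1 / 4 := by
  have h := A.sep (p := p) (p' := A.flip p) (by cases p with | mk j σ => cases σ <;> simp [flip])
    (round (2 * A.ctr p))
  rw [ctr_flip, sub_neg_eq_add, ← two_mul, show (A.flip p).1 = p.1 from rfl] at h
  linarith [abs_sub_round (2 * A.ctr p)]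

/-- A centre stays away from the folds. -/
theorem ctr_far (A : Arcs) (p : Fin A.n × Bool) :
    A.rad p.1 + A.gap / 2 ≤ |off 0 (A.ctr p)| ∧
      |off 0 (A.ctr p)| ≤ 1 / 2 - (A.rad p.1 + A.gap / 2) := by
  have hne : p ≠ A.flip p := by cases p with | mk j σ => cases σ <;> simp [flip]
  have h : ∀ z : ℤ, 2 * (A.rad p.1 + A.gap / 2) ≤ |2 * off 0 (A.ctr p) - z| := fun z => by
    have := A.sep hne (z + 2 * round (A.ctr p))
    rw [ctr_flip, show (A.flip p).1 = p.1 from rfl] at this
    refine le_trans (le_of_eq (by ring)) (this.trans_eq ?_)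
    simp only [off, sub_zero]
    congr 1
    push_cast
    ring
  constructor
  · have := h 0
    rw [Int.cast_zero, sub_zero, abs_mul, abs_two] at this
    linarith
  · have h1 := h 1
    have h2 := h (-1)
    have hb := Track.off_abs_le 0 (A.ctr p)
    push_cast at h1 h2
    rcases le_total 0 (off 0 (A.ctr p)) with hs | hs
    · rw [abs_of_nonneg hs] at hb ⊢
      rw [abs_of_nonpos (by linarith)] at h1
      linarith
    · rw [abs_of_nonpos hs] at hb ⊢
      rw [abs_of_nonneg (by linarith)] at h2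
      linarith

theorem eq_of_off_lt (A : Arcs) {p p' : Fin A.n × Bool} {θ : ℝ}
    (h : |off (A.ctr p) θ| + |off (A.ctr p') θ| < A.rad p.1 + A.rad p'.1 + A.gap) : p = p' := by
  by_contra hne
  have := A.sep hne (round (θ - A.ctr p') - round (θ - A.ctr p))
  rw [show A.ctr p - A.ctr p' - ((round (θ - A.ctr p') - round (θ - A.ctr p) : ℤ) : ℝ) =
    off (A.ctr p') θ - off (A.ctr p) θ by simp only [off]; push_cast; ring] at this
  linarith [abs_sub (off (A.ctr p') θ) (off (A.ctr p) θ)]

theorem free_of_mem (A : Arcs) {p : Fin A.n × Bool} {θ : ℝ}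
    (h : |off (A.ctr p) θ| ≤ A.rad p.1) : A.free θ = 0 := by
  rw [free, Fintype.sum_eq_single p, if_pos h, sub_self]
  intro p' hne
  rw [if_neg]
  intro h'
  exact hne (A.eq_of_off_lt (by linarith [A.hgap]))

theorem free_of_not_mem (A : Arcs) {θ : ℝ}
    (h : ∀ p : Fin A.n × Bool, A.rad p.1 < |off (A.ctr p) θ|) : A.free θ = 1 := by
  rw [free, sum_eq_zero fun p _ => if_neg (not_le.2 (h p)), sub_zero]

theorem free_mem (A : Arcs) (θ : ℝ) : 0 ≤ A.free θ ∧ A.free θ ≤ 1 := by
  by_cases h : ∃ p : Fin A.n × Bool, |off (A.ctr p) θ| ≤ A.rad p.1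
  · obtain ⟨p, hp⟩ := h
    rw [A.free_of_mem hp]; simp
  · simp only [not_exists, not_le] at h
    rw [A.free_of_not_mem h]; simp

theorem free_periodic (A : Arcs) : Function.Periodic A.free 1 := fun θ => by
  simp only [free, Track.off_add_one]

theorem free_even (A : Arcs) (θ : ℝ) : A.free (-θ) = A.free θ := by
  simp only [free, Track.abs_off_neg]
  congr 1
  refine Fintype.sum_equiv A.flipEquiv _ _ fun p => ?_
  show _ = if |off (A.ctr (A.flip p)) θ| ≤ A.rad (A.flip p).1 then (1 : ℝ) else 0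
  rw [ctr_flip]; rfl

theorem measurable_free (A : Arcs) : Measurable A.free := by
  unfold free
  refine measurable_const.sub (Finset.measurable_sum _ fun p _ => ?_)
  exact Measurable.ite (measurableSet_le (Track.measurable_off _).abs measurable_const)
    measurable_const measurable_const

theorem free_integrable (A : Arcs) (a b : ℝ) : IntervalIntegrable A.free volume a b :=
  (intervalIntegrable_const (c := (1 : ℝ))).mono_fun'
    A.measurable_free.aestronglyMeasurable.restrict
    (Filter.Eventually.of_forall fun x => by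
      show ‖A.free x‖ ≤ 1
      rw [Real.norm_eq_abs, abs_of_nonneg (A.free_mem x).1]; exact (A.free_mem x).2)

theorem free_integral_abs_le (A : Arcs) (a b : ℝ) : |∫ t in a..b, A.free t| ≤ |b - a| := by
  have := intervalIntegral.norm_integral_le_of_norm_le_const (a := a) (b := b) (C := 1)
    (f := A.free) fun x _ => by
      rw [Real.norm_eq_abs, abs_of_nonneg (A.free_mem x).1]; exact (A.free_mem x).2
  simpa using this

theorem base_lipschitz (A : Arcs) (a b : ℝ) : |A.base a - A.base b| ≤ |a - b| := by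
  simp only [base]
  rw [intervalIntegral.integral_interval_sub_left (A.free_integrable _ _) (A.free_integrable _ _)]
  exact (A.free_integral_abs_le _ _).trans (Track.abs_off_lipschitz 0 a b)

theorem base_add_int (A : Arcs) (θ : ℝ) (z : ℤ) : A.base (θ + z) = A.base θ := by
  simp only [base, Track.off_add_int]

theorem base_neg (A : Arcs) (θ : ℝ) : A.base (-θ) = A.base θ := by
  simp only [base, Track.abs_off_neg, neg_zero]

theorem base_mem (A : Arcs) (θ : ℝ) :
    0 ≤ A.base θ ∧ A.base θ ≤ ∫ t in (0 : ℝ)..1, A.free t := by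
  refine ⟨intervalIntegral.integral_nonneg (abs_nonneg _) fun t _ => (A.free_mem t).1, ?_⟩
  exact intervalIntegral.integral_mono_interval le_rfl (abs_nonneg _)
    (by linarith [Track.off_abs_le 0 θ]) (Filter.Eventually.of_forall fun t => (A.free_mem t).1)
    (A.free_integrable _ _)

/-- Near an arc the base moves only outside the arc. -/
theorem base_near (A : Arcs) (p : Fin A.n × Bool) {θ y : ℝ} {z : ℤ}
    (hy : |y| ≤ A.rad p.1 + A.gap / 2) (h : θ - A.ctr p = y + z) :
    |A.base θ - A.base (A.ctr p)| ≤ max 0 (|y| - A.rad p.1) := by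
  obtain ⟨hlo, hhi⟩ := A.ctr_far p
  set c₀ := off 0 (A.ctr p) with hc₀
  set r := A.rad p.1 with hr
  have hrpos : 0 < r := A.hrad p.1
  have hθ : θ = c₀ + y + ((round (A.ctr p) + z : ℤ) : ℝ) := by
    simp only [hc₀, off, sub_zero]; push_cast; linarith
  obtain ⟨hy1, hy2⟩ := abs_le.1 hy
  have key : ∀ c u : ℝ, c = |c₀| → |u| = |y| →
      (∃ p' : Fin A.n × Bool, A.rad p'.1 = r ∧ ∃ k : ℤ, A.ctr p' = c + k) →
      |(∫ t in (0 : ℝ)..c + u, A.free t) - ∫ t in (0 : ℝ)..c, A.free t| ≤ max 0 (|y| - r) := by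
    rintro c u - hu ⟨p', hp', k, hk⟩
    rw [intervalIntegral.integral_interval_sub_left (A.free_integrable _ _)
      (A.free_integrable _ _)]
    set v := clamp r u with hv
    rw [← intervalIntegral.integral_add_adjacent_intervals (b := c + v) (A.free_integrable _ _)
      (A.free_integrable _ _)]
    have h0 : ∫ t in c..c + v, A.free t = 0 := by
      refine intervalIntegral.integral_zero_ae (Filter.Eventually.of_forall fun t ht => ?_)
      refine A.free_of_mem (p := p') ?_
      refine (Track.off_le _ _ (-k)).trans ?_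
      rw [hp', hk]
      push_cast
      rw [show t - (c + k) - -(k : ℝ) = t - c by ring]
      refine le_trans ?_ (Track.abs_clamp_le hrpos.le u)
      have := Set.abs_sub_left_of_mem_uIcc (Set.uIoc_subset_uIcc ht)
      simpa using this
    rw [h0, zero_add]
    refine (A.free_integral_abs_le _ _).trans ?_
    rw [add_sub_add_left_eq_sub, ← hu, hv]
    rcases le_total |u| r with h' | h'
    · rw [Track.clamp_of_abs_le h', sub_self, abs_zero]; exact le_max_left _ _
    · refine le_trans (le_of_eq ?_) (le_max_right _ _)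
      rcases le_total 0 u with hs | hs
      · rw [abs_of_nonneg hs] at h' ⊢
        rw [clamp, min_eq_left h', max_eq_right (by linarith), abs_of_nonneg (by linarith)]
      · rw [abs_of_nonpos hs] at h' ⊢
        rw [clamp, min_eq_right (by linarith), max_eq_left (by linarith),
          abs_of_nonpos (by linarith)]
        ring
  have hb : A.base θ = ∫ t in (0 : ℝ)..|c₀ + y|, A.free t := by
    rw [hθ, base_add_int, base,
      Track.abs_off_eq (m := 0) (y := c₀ + y) (z := 0) ?_ (by push_cast; ring)]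
    linarith [abs_add_le c₀ y]
  have hb' : A.base (A.ctr p) = ∫ t in (0 : ℝ)..|c₀|, A.free t := rfl
  rw [hb, hb']
  rcases le_total 0 c₀ with hs | hs
  · rw [abs_of_nonneg hs] at hlo ⊢
    rw [abs_of_nonneg (a := c₀ + y) (by linarith)]
    exact key c₀ y (abs_of_nonneg hs).symm rfl
      ⟨p, rfl, round (A.ctr p), by simp only [hc₀, off, sub_zero]; ring⟩
  · rw [abs_of_nonpos hs] at hlo ⊢
    rw [abs_of_nonpos (a := c₀ + y) (by linarith), neg_add]
    exact key (-c₀) (-y) (abs_of_nonpos hs).symm (abs_neg y)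
      ⟨A.flip p, rfl, -round (A.ctr p), by
        rw [ctr_flip]; simp only [hc₀, off, sub_zero]; push_cast; ring⟩

theorem indicator_integral (A : Arcs) (p : Fin A.n × Bool) (F : ℝ → ℂ) (hF : Continuous F)
    (hper : ∀ θ, F (θ + 1) = F θ) :
    IntervalIntegrable (fun θ => ((if |off (A.ctr p) θ| ≤ A.rad p.1 then (1 : ℝ) else 0 : ℝ) : ℂ) *
        F θ) volume 0 1 ∧
      ∫ θ in (0 : ℝ)..1, ((if |off (A.ctr p) θ| ≤ A.rad p.1 then (1 : ℝ) else 0 : ℝ) : ℂ) * F θ =
        ∫ θ in (A.ctr p - A.rad p.1)..(A.ctr p + A.rad p.1), F θ := by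
  set c := A.ctr p
  set r := A.rad p.1
  have hr : r + A.gap / 2 ≤ 1 / 4 := A.rad_lt p
  have hr0 : 0 < r := A.hrad p.1
  set G : ℝ → ℂ := fun θ => ((if |off c θ| ≤ r then (1 : ℝ) else 0 : ℝ) : ℂ) * F θ
  have hG : ∀ a b, IntervalIntegrable G volume a b := fun a b => by
    refine IntervalIntegrable.mul_continuousOn ?_ hF.continuousOn
    refine (intervalIntegrable_const (c := (1 : ℝ))).mono_fun' ?_ ?_
    · exact (Complex.measurable_ofReal.comp (Measurable.ite
        (measurableSet_le (Track.measurable_off c).abs measurable_const)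
        measurable_const measurable_const)).aestronglyMeasurable
    · exact Filter.Eventually.of_forall fun x => by
        show ‖((if |off c x| ≤ r then (1 : ℝ) else 0 : ℝ) : ℂ)‖ ≤ 1
        split_ifs <;> simp
  have hp : Function.Periodic G 1 := fun θ => by
    simp only [G, Track.off_add_one, hper]
  refine ⟨hG 0 1, ?_⟩
  have e := hp.intervalIntegral_add_eq 0 (c - 1 / 2)
  rw [zero_add] at e
  rw [e, ← intervalIntegral.integral_add_adjacent_intervals (b := c - r) (hG _ _) (hG _ _),
    ← intervalIntegral.integral_add_adjacent_intervals (a := c - r) (b := c + r) (hG _ _) (hG _ _)]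
  have hoff : ∀ θ, c - 1 / 2 < θ → θ < c + 1 / 2 → off c θ = θ - c := fun θ h1 h2 =>
    Track.off_of_abs_lt (z := 0) (abs_lt.2 ⟨by linarith, by linarith⟩) (by simp)
  have z1 : ∫ θ in (c - 1 / 2)..(c - r), G θ = 0 := by
    refine intervalIntegral.integral_zero_ae ?_
    filter_upwards [Measure.ae_ne volume (c - r)] with θ hne hm
    rw [Set.uIoc_of_le (by linarith [A.hgap])] at hm
    have hlt := lt_of_le_of_ne hm.2 hne
    simp only [G]
    rw [if_neg, Complex.ofReal_zero, zero_mul]
    rw [hoff θ hm.1 (by linarith), not_le, abs_of_neg (by linarith)]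
    linarith
  have z2 : ∫ θ in (c + r)..(c - 1 / 2 + 1), G θ = 0 := by
    refine intervalIntegral.integral_zero_ae ?_
    filter_upwards [Measure.ae_ne volume (c - 1 / 2 + 1)] with θ hne hm
    rw [Set.uIoc_of_le (by linarith [A.hgap])] at hm
    have hlt := lt_of_le_of_ne hm.2 hne
    simp only [G]
    rw [if_neg, Complex.ofReal_zero, zero_mul]
    rw [hoff θ (by linarith [hm.1]) (by linarith), not_le, abs_of_pos (by linarith [hm.1])]
    linarith [hm.1]
  rw [z1, z2, zero_add, add_zero]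
  refine intervalIntegral.integral_congr fun θ hm => ?_
  rw [Set.uIcc_of_le (by linarith)] at hm
  simp only [G]
  rw [if_pos, Complex.ofReal_one, one_mul]
  rw [hoff θ (by linarith [hm.1, A.hgap]) (by linarith [hm.2, A.hgap]), abs_le]
  exact ⟨by linarith [hm.1], by linarith [hm.2]⟩

end Arcs

namespace Track

/-- The bump added to the base speed on the arc `p`. -/
noncomputable def bump (T : Track) (p : Fin T.n × Bool) (y : ℝ) : ℝ :=
  plateau (T.rad p.1) T.δ y *
    (T.f p.1 (sg p.2 * clamp (T.rad p.1) y) - T.μ - T.M * T.base (T.ctr p))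

theorem supp_le (T : Track) (p : Fin T.n × Bool) : T.rad p.1 + T.δ ≤ 1 / 2 := by
  linarith [T.rad_lt p, T.hδgap]

theorem bump_eq_zero (T : Track) (p : Fin T.n × Bool) (y : ℝ) (h : T.rad p.1 + T.δ ≤ |y|) :
    T.bump p y = 0 := by
  rw [bump, plateau_eq_zero T.hδ h, zero_mul]

theorem bump_neg (T : Track) (p : Fin T.n × Bool) (y : ℝ) :
    T.bump (T.flip p) (-y) = T.bump p y := by
  have e : (T.flip p).2 = !p.2 := rfl
  simp only [bump, Arcs.ctr_flip, Arcs.base_neg, e, sg_not, show (T.flip p).1 = p.1 from rfl,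
    plateau_neg, clamp_neg (T.hrad p.1).le, neg_mul_neg]

theorem Lf_nonneg (T : Track) (j : Fin T.n) : 0 ≤ T.Lf := by
  simpa using (abs_nonneg _).trans (T.hfLip j 1 0)

theorem bump_lip (T : Track) (p : Fin T.n × Bool) :
    ∃ L, ∀ m a b, |T.bump p (off m a) - T.bump p (off m b)| ≤ L * |a - b| := by
  have hM := T.hM
  set K := T.μ + T.M * T.base (T.ctr p)
  have hg : ∀ y, |T.f p.1 (sg p.2 * clamp (T.rad p.1) y) - T.μ - T.M * T.base (T.ctr p)| ≤
      1 + |K| := fun y => by
    obtain ⟨h1, h2⟩ := T.hfRange p.1 (sg p.2 * clamp (T.rad p.1) y)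
      (by rw [abs_mul, abs_sg, one_mul]; exact abs_clamp_le (T.hrad p.1).le y)
    have hI : 0 ≤ ∫ t in (0 : ℝ)..1, T.free t :=
      le_trans (T.base_mem 0).1 (T.base_mem 0).2
    have : 0 ≤ T.M * ∫ t in (0 : ℝ)..1, T.free t := by positivity
    rw [sub_sub]
    refine (abs_sub _ _).trans (add_le_add (abs_le.2 ⟨?_, ?_⟩) le_rfl) <;>
      linarith [T.hμ, T.hσ₀]
  refine ⟨T.δ⁻¹ * (1 + |K|) + T.Lf,
    bump_lipschitz (T.supp_le p) (T.bump_eq_zero p) fun a b => ?_⟩
  have h1 := plateau_lipschitz (r := T.rad p.1) T.hδ a b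
  have h2 : |T.f p.1 (sg p.2 * clamp (T.rad p.1) a) -
      T.f p.1 (sg p.2 * clamp (T.rad p.1) b)| ≤ T.Lf * |a - b| := by
    refine (T.hfLip _ _ _).trans (mul_le_mul_of_nonneg_left ?_ (T.Lf_nonneg p.1))
    rw [← mul_sub, abs_mul, abs_sg, one_mul]
    exact clamp_lipschitz _ _ _
  have hp : |plateau (T.rad p.1) T.δ b| ≤ 1 :=
    abs_le.2 ⟨by linarith [plateau_nonneg (T.rad p.1) T.δ b], plateau_le_one _ _ _⟩
  simp only [bump]
  set pa := plateau (T.rad p.1) T.δ a
  set pb := plateau (T.rad p.1) T.δ b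
  set ga := T.f p.1 (sg p.2 * clamp (T.rad p.1) a) - T.μ - T.M * T.base (T.ctr p)
  set gb := T.f p.1 (sg p.2 * clamp (T.rad p.1) b) - T.μ - T.M * T.base (T.ctr p) with hgb
  have h2' : |ga - gb| ≤ T.Lf * |a - b| := by
    rw [show ga - gb = T.f p.1 (sg p.2 * clamp (T.rad p.1) a) -
      T.f p.1 (sg p.2 * clamp (T.rad p.1) b) by rw [hgb]; ring]
    exact h2
  have hδ := T.hδ
  rw [show pa * ga - pb * gb = (pa - pb) * ga + pb * (ga - gb) by ring]
  refine (abs_add_le _ _).trans ?_
  rw [abs_mul, abs_mul, add_mul]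
  refine add_le_add ?_ ?_
  · rw [mul_right_comm]
    exact mul_le_mul h1 (hg a) (abs_nonneg _) (by positivity)
  · calc |pb| * |ga - gb| ≤ 1 * (T.Lf * |a - b|) :=
          mul_le_mul hp h2' (abs_nonneg _) zero_le_one
      _ = _ := one_mul _

theorem tau_eq (T : Track) (θ : ℝ) :
    T.tau θ = T.μ + T.M * T.base θ + ∑ p, T.bump p (off (T.ctr p) θ) := rfl

/-- Near the arc `p` only its own bump is active. -/
theorem tau_near (T : Track) (p : Fin T.n × Bool) {θ y : ℝ} {z : ℤ}
    (hy : |y| ≤ T.rad p.1 + T.δ) (h : θ - T.ctr p = y + z) :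
    T.tau θ = T.μ + T.M * T.base θ + T.bump p y := by
  rw [tau_eq, Fintype.sum_eq_single p, bump_eq (T.supp_le p) (T.bump_eq_zero p)
    (hy.trans (T.supp_le p)) h]
  intro p' hne
  refine T.bump_eq_zero p' _ ?_
  by_contra hlt
  rw [not_le] at hlt
  refine hne (T.eq_of_off_lt (θ := θ) ?_)
  have := off_le (T.ctr p) θ z
  rw [h, add_sub_cancel_right] at this
  linarith [T.hδgap]

theorem chi_near (T : Track) (w : Fin T.n → ℝ) (p : Fin T.n × Bool) {θ y : ℝ} {z : ℤ}
    (hy : |y| ≤ T.rad p.1 + T.δ) (h : θ - T.ctr p = y + z) :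
    T.chi w θ = plateau (T.rad p.1) T.δ y * (sg p.2 * w p.1) := by
  rw [chi, Fintype.sum_eq_single p,
    bump_eq (T.supp_le p) (fun y hy => plateau_eq_zero T.hδ hy) (hy.trans (T.supp_le p)) h]
  intro p' hne
  rw [plateau_eq_zero T.hδ, zero_mul]
  by_contra hlt
  rw [not_le] at hlt
  refine hne (T.eq_of_off_lt (θ := θ) ?_)
  have := off_le (T.ctr p) θ z
  rw [h, add_sub_cancel_right] at this
  linarith [T.hδgap]

/-- Away from all the supports the speed is the base one. -/
theorem tau_away (T : Track) {θ : ℝ}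
    (h : ∀ p : Fin T.n × Bool, T.rad p.1 + T.δ ≤ |off (T.ctr p) θ|) :
    T.tau θ = T.μ + T.M * T.base θ := by
  rw [tau_eq, sum_eq_zero fun p _ => T.bump_eq_zero p _ (h p), add_zero]

theorem chi_away (T : Track) (w : Fin T.n → ℝ) {θ : ℝ}
    (h : ∀ p : Fin T.n × Bool, T.rad p.1 + T.δ ≤ |off (T.ctr p) θ|) : T.chi w θ = 0 :=
  sum_eq_zero fun p _ => by rw [plateau_eq_zero T.hδ (h p), zero_mul]

theorem free_integral (A : Arcs) : ∫ t in (0 : ℝ)..1, A.free t = 1 - 4 * ∑ j, A.rad j := by
  have h := fun p => A.indicator_integral p (fun _ => 1) continuous_const fun _ => rfl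
  simp only [mul_one] at h
  have e : ((∫ t in (0 : ℝ)..1, A.free t : ℝ) : ℂ) = ((1 - 4 * ∑ j, A.rad j : ℝ) : ℂ) := by
    rw [← intervalIntegral.integral_ofReal]
    simp only [Arcs.free, Complex.ofReal_sub, Complex.ofReal_sum, Complex.ofReal_one]
    have hs := IntervalIntegrable.sum univ fun p _ => (h p).1
    simp only [Finset.sum_fn] at hs
    rw [intervalIntegral.integral_sub intervalIntegrable_const hs,
      intervalIntegral.integral_finsetSum fun p _ => (h p).1, sum_congr rfl fun p _ => (h p).2,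
      Fintype.sum_prod_type]
    simp only [intervalIntegral.integral_const, Complex.real_smul, Fintype.sum_bool]
    push_cast
    rw [mul_sum]
    congr 1
    · ring
    · exact sum_congr rfl fun j _ => by ring
  exact_mod_cast e

theorem tau_lipschitz (T : Track) : ∃ L, ∀ a b, |T.tau a - T.tau b| ≤ L * |a - b| := by
  choose L hL using T.bump_lip
  refine ⟨T.M + ∑ p, L p, fun a b => ?_⟩
  rw [tau_eq, tau_eq, add_mul, sum_mul, show T.μ + T.M * T.base a + (∑ p, T.bump p _) -
    (T.μ + T.M * T.base b + ∑ p, T.bump p (off (T.ctr p) b)) = T.M * (T.base a - T.base b) +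
      ((∑ p, T.bump p (off (T.ctr p) a)) - ∑ p, T.bump p (off (T.ctr p) b)) by ring,
    ← sum_sub_distrib]
  refine (abs_add_le _ _).trans (add_le_add ?_ ?_)
  · rw [abs_mul, abs_of_pos T.hM]
    exact mul_le_mul_of_nonneg_left (T.base_lipschitz a b) T.hM.le
  · exact (abs_sum_le_sum_abs _ _).trans (sum_le_sum fun p _ => hL p _ a b)

theorem chi_lipschitz (T : Track) : ∃ L, ∀ w : Fin T.n → ℝ, (∀ j, |w j| ≤ 1) →
    ∀ a b, |T.chi w a - T.chi w b| ≤ L * |a - b| := by
  refine ⟨∑ _p : Fin T.n × Bool, T.δ⁻¹, fun w hw a b => ?_⟩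
  rw [chi, chi, ← sum_sub_distrib, sum_mul]
  refine (abs_sum_le_sum_abs _ _).trans (sum_le_sum fun p _ => ?_)
  rw [← sub_mul, abs_mul, abs_mul, abs_sg, one_mul]
  have h := bump_lipschitz (T.supp_le p) (fun y hy => plateau_eq_zero T.hδ hy)
    (plateau_lipschitz T.hδ) (T.ctr p) a b
  exact (mul_le_of_le_one_right (abs_nonneg _) (hw p.1)).trans h

theorem tau_periodic (T : Track) (θ : ℝ) : T.tau (θ + 1) = T.tau θ := by
  have := T.base_add_int θ 1
  push_cast at this
  simp only [tau_eq, off_add_one, this]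

theorem tau_even (T : Track) (θ : ℝ) : T.tau (-θ) = T.tau θ := by
  rw [tau_eq, tau_eq, T.base_neg]
  congr 1
  refine Fintype.sum_equiv T.flipEquiv _ _ fun p => ?_
  show _ = T.bump (T.flip p) (off (T.ctr (T.flip p)) θ)
  rw [Arcs.ctr_flip, bump_eq (T.supp_le p) (T.bump_eq_zero p) (y := -off (-T.ctr p) θ)
    (z := -round (θ - -T.ctr p)) (by rw [abs_neg]; exact off_abs_le _ _)
    (by rw [off]; push_cast; ring)]
  rw [← T.bump_neg p, neg_neg]

theorem chi_periodic (T : Track) (w : Fin T.n → ℝ) (θ : ℝ) : T.chi w (θ + 1) = T.chi w θ := by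
  simp only [chi, off_add_one]

theorem chi_odd (T : Track) (w : Fin T.n → ℝ) (θ : ℝ) : T.chi w (-θ) = -T.chi w θ := by
  rw [chi, chi, ← sum_neg_distrib]
  refine Fintype.sum_equiv T.flipEquiv _ _ fun p => ?_
  show _ = -(plateau (T.rad (T.flip p).1) T.δ (off (T.ctr (T.flip p)) θ) *
    (sg (!p.2) * w (T.flip p).1))
  rw [Arcs.ctr_flip, bump_eq (T.supp_le p) (fun y hy => plateau_eq_zero T.hδ hy)
    (y := -off (-T.ctr p) θ) (z := -round (θ - -T.ctr p))
    (by rw [abs_neg]; exact off_abs_le _ _) (by rw [off]; push_cast; ring),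
    plateau_neg, sg_not, show (T.flip p).1 = p.1 from rfl]
  ring

theorem tau_range (T : Track) (θ : ℝ) : T.μ ≤ T.tau θ ∧ T.tau θ ≤ 1 - T.μ := by
  obtain ⟨hb0, hb1⟩ := T.base_mem θ
  have hM := T.hM
  have hσ := T.hσ₀
  have hA0 : 0 ≤ T.M * T.base θ := by positivity
  have hA1 := mul_le_mul_of_nonneg_left hb1 hM.le
  by_cases h : ∀ p : Fin T.n × Bool, T.rad p.1 + T.δ ≤ |off (T.ctr p) θ|
  · rw [T.tau_away h]
    constructor <;> linarith [T.hwin]
  simp only [not_forall, not_le] at h
  obtain ⟨p, hp⟩ := h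
  set y := off (T.ctr p) θ with hy
  have hθ : θ - T.ctr p = y + (round (θ - T.ctr p) : ℤ) := by rw [hy, off]; ring
  rw [T.tau_near p hp.le hθ, bump]
  have hnear := T.base_near p (by linarith [T.hδgap]) hθ
  obtain ⟨hf1, hf2⟩ := T.hfRange p.1 (sg p.2 * clamp (T.rad p.1) y)
    (by rw [abs_mul, abs_sg, one_mul]; exact abs_clamp_le (T.hrad p.1).le y)
  set pl := plateau (T.rad p.1) T.δ y with hpl
  have h0 := plateau_nonneg (T.rad p.1) T.δ y
  have h1 := plateau_le_one (T.rad p.1) T.δ y
  have hd : max 0 (|y| - T.rad p.1) = T.δ * (1 - pl) := by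
    rcases le_total |y| (T.rad p.1) with hle | hle
    · rw [max_eq_left (by linarith), hpl, plateau_eq_one T.hδ hle, sub_self, mul_zero]
    · rw [max_eq_right (by linarith), hpl, plateau_of_ramp T.hδ hle hp.le]
      field_simp [T.hδ.ne']
      ring
  rw [hd, abs_le] at hnear
  set fy := T.f p.1 (sg p.2 * clamp (T.rad p.1) y)
  set b := T.base θ
  set c := T.base (T.ctr p)
  have hq : 0 ≤ 1 - pl := by linarith
  have hu := mul_le_mul_of_nonneg_left hnear.2 hM.le
  have hl := mul_le_mul_of_nonneg_left hnear.1 hM.le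
  have hs := mul_le_mul_of_nonneg_left T.hslope hq
  have e1 : pl * (T.M * (b - c)) ≤ pl * ((1 - pl) * T.σ₀ / 2) :=
    mul_le_mul_of_nonneg_left (by nlinarith) h0
  have e2 : -(pl * ((1 - pl) * T.σ₀ / 2)) ≤ pl * (T.M * (b - c)) := by
    have := mul_le_mul_of_nonneg_left
      (show -((1 - pl) * T.σ₀ / 2) ≤ T.M * (b - c) by nlinarith) h0
    linarith
  have e3 : pl * ((1 - pl) * T.σ₀) ≤ (1 - pl) * T.σ₀ :=
    mul_le_of_le_one_left (by positivity) h1
  have e4 : pl * ((1 - pl) * T.σ₀) ≤ pl * T.σ₀ :=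
    mul_le_mul_of_nonneg_left (by nlinarith) h0
  have e5 := mul_le_mul_of_nonneg_left hf2 h0
  have e6 := mul_le_mul_of_nonneg_left hf1 h0
  have e7 : (1 - pl) * (T.μ + T.M * b) ≤ (1 - pl) * (1 - T.μ - T.σ₀) :=
    mul_le_mul_of_nonneg_left (by linarith [T.hwin]) hq
  constructor <;> nlinarith [mul_nonneg hq hA0]

/-- The values on the arcs (positive ones; the mirror images follow from the symmetry). -/
theorem on_arc (T : Track) (w : Fin T.n → ℝ) (j : Fin T.n) (y : ℝ) (hy : |y| ≤ T.rad j) :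
    T.tau (T.mid j + y) = T.f j y ∧ T.chi w (T.mid j + y) = w j := by
  have hh : T.mid j + y - T.ctr (j, true) = y + ((0 : ℤ) : ℝ) := by simp [Arcs.ctr, sg]
  have hy' : |y| ≤ T.rad ((j, true) : Fin T.n × Bool).1 + T.δ := by linarith [T.hδ]
  have hb := T.base_near (j, true) (by linarith [T.hgap]) hh
  rw [max_eq_left (by linarith), abs_nonpos_iff, sub_eq_zero] at hb
  rw [T.tau_near (j, true) hy' hh, T.chi_near w (j, true) hy' hh, bump,
    plateau_eq_one T.hδ hy, clamp_of_abs_le hy, hb]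
  simp [sg]

/-- The integral over a period splits into the holes, the arcs and the mirror arcs. -/
theorem integral_split (A : Arcs) (F : ℝ → ℂ) (hF : Continuous F) (hper : ∀ θ, F (θ + 1) = F θ) :
    ∫ θ in (0 : ℝ)..1, F θ = (∫ θ in (0 : ℝ)..1, (A.free θ : ℂ) * F θ) +
      ∑ j, ((∫ θ in (A.mid j - A.rad j)..(A.mid j + A.rad j), F θ) +
        ∫ θ in (A.mid j - A.rad j)..(A.mid j + A.rad j), F (-θ)) := by
  have h := fun p => A.indicator_integral p F hF hper
  simp only [Arcs.free, Complex.ofReal_sub, Complex.ofReal_sum, Complex.ofReal_one, sub_mul,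
    one_mul, sum_mul]
  have hs := IntervalIntegrable.sum univ fun p _ => (h p).1
  simp only [Finset.sum_fn] at hs
  rw [intervalIntegral.integral_sub (hF.intervalIntegrable _ _) hs,
    intervalIntegral.integral_finsetSum fun p _ => (h p).1, sum_congr rfl fun p _ => (h p).2,
    Fintype.sum_prod_type]
  simp only [Fintype.sum_bool]
  have e : ∀ j : Fin A.n, (∫ θ in (A.ctr (j, false) - A.rad j)..(A.ctr (j, false) + A.rad j), F θ) =
      ∫ θ in (A.mid j - A.rad j)..(A.mid j + A.rad j), F (-θ) := fun j => by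
    rw [intervalIntegral.integral_comp_neg F]
    congr 1 <;> · simp [Arcs.ctr, sg]; ring
  simp only [e, show ∀ j : Fin A.n, A.ctr (j, true) = A.mid j from fun j => by simp [Arcs.ctr, sg]]
  ring

end Track

end Vale.Agent.P110.Flat
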